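import Crest.Agent.N334.G.Basic

-- ▼ part N334/G/Geo
section

/-!
# Row 334, S0519 GAIN: dyadic geometry
-/

set_option autoImplicit false

open MeasureTheory Finset Complex
open scoped BigOperators ComplexConjugate

noncomputable section

namespace Crest.Agent.N334.G

namespace Geo0

theorem geo_inj {r : ℝ} (h0 : 0 ≤ r) (h1 : r < 1) (s : Finset ℕ) {f : ℕ → ℕ}
    (hf : Set.InjOn f s) : ∑ k ∈ s, r ^ f k ≤ (1 - r)⁻¹ := by
  rw [← sum_image (f := fun j => r ^ j) hf, ← tsum_geometric_of_lt_one h0 h1]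
  exact (summable_geometric_of_lt_one h0 h1).sum_le_tsum _ fun _ _ => by positivity

theorem geo_up {r : ℝ} (h0 : 0 ≤ r) (h1 : r < 1) (s : Finset ℕ) (m : ℕ) :
    ∑ k ∈ s, (if m ≤ k then r ^ (k - m) else 0) ≤ (1 - r)⁻¹ := by
  rw [← sum_filter]
  exact geo_inj h0 h1 _ fun a ha b hb e => by
    have := (mem_filter.1 ha).2
    have := (mem_filter.1 hb).2
    omega

theorem geo_dn {r : ℝ} (h0 : 0 ≤ r) (h1 : r < 1) (s : Finset ℕ) (m : ℕ) :
    ∑ k ∈ s, (if k ≤ m then r ^ (m - k) else 0) ≤ (1 - r)⁻¹ := by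
  rw [← sum_filter]
  exact geo_inj h0 h1 _ fun a ha b hb e => by
    have := (mem_filter.1 ha).2
    have := (mem_filter.1 hb).2
    omega

theorem del_sq {u w : ℂ} (hu : ‖u‖ = 1) (hw : ‖w‖ = 1) :
    ‖u ^ 2 - w ^ 2‖ ^ 2 = ‖u - w‖ ^ 2 * (4 - ‖u - w‖ ^ 2) := by
  have := parallelogram_law_with_norm ℝ u w
  rw [sq_sub_sq, norm_mul, mul_pow, mul_comm]
  rw [hu, hw] at this
  congr 1
  linarith

theorem al0_nonneg (m m' : ℕ) : 0 ≤ Lat.al0 m m' := by unfold Lat.al0; split_ifs <;> positivity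

theorem al0_succ (m m' : ℕ) :
    Lat.al0 m m' ≤ 16 * Lat.al0 (m + 1) m' ∧ Lat.al0 (m + 1) m' ≤ 2 * Lat.al0 m m' := by
  unfold Lat.al0
  by_cases h : m' ≤ m
  · rw [if_pos h, if_pos (h.trans m.le_succ), Nat.succ_sub h, pow_succ]
    have : (0 : ℝ) ≤ (1 / 16) ^ (m - m') := by positivity
    constructor <;> linarith
  · obtain ⟨j, rfl⟩ : ∃ j, m' = m + 1 + j := ⟨m' - (m + 1), by omega⟩
    have e : (if m + 1 + j ≤ m + 1 then ((1 : ℝ) / 16) ^ (m + 1 - (m + 1 + j))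
        else (1 / 2) ^ (m + 1 + j - (m + 1))) = (1 / 2) ^ j := by
      split_ifs with h'
      · obtain rfl : j = 0 := by omega
        simp
      · rw [Nat.add_sub_cancel_left]
    rw [if_neg h, e, show m + 1 + j - m = j + 1 by omega, pow_succ]
    have : (0 : ℝ) ≤ (1 / 2) ^ j := by positivity
    constructor <;> linarith

theorem sum_al0 (s : Finset ℕ) (m : ℕ) : ∑ m' ∈ s, Lat.al0 m m' ≤ 31 / 15 := by
  have h1 := geo_dn (r := 1 / 16) (by norm_num) (by norm_num) s m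
  have h2 := geo_up (r := 1 / 2) (by norm_num) (by norm_num) s (m + 1)
  have : ∑ m' ∈ s, Lat.al0 m m' = ∑ k ∈ s, (if k ≤ m then ((1 : ℝ) / 16) ^ (m - k) else 0)
      + 1 / 2 * ∑ k ∈ s, (if m + 1 ≤ k then ((1 : ℝ) / 2) ^ (k - (m + 1)) else 0) := by
    rw [mul_sum, ← sum_add_distrib]
    refine sum_congr rfl fun k _ => ?_
    unfold Lat.al0
    by_cases h : k ≤ m
    · rw [if_pos h, if_pos h, if_neg (by omega)]; ring
    · rw [if_neg h, if_neg h, if_pos (by omega), show k - m = k - (m + 1) + 1 by omega]; ring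
  norm_num at h1 h2 this ⊢
  linarith

theorem norm_al0 (s : Finset ℕ) (m' : ℕ) : ∑ k ∈ s, 4 ^ k * Lat.al0 k m' ≤ 2 * 4 ^ m' := by
  have h1 := geo_up (r := 1 / 4) (by norm_num) (by norm_num) s m'
  have h2 := geo_dn (r := 1 / 8) (by norm_num) (by norm_num) s (m' - 1)
  have : ∑ k ∈ s, 4 ^ k * Lat.al0 k m' ≤ 4 ^ m' * (∑ k ∈ s,
      (if m' ≤ k then ((1 : ℝ) / 4) ^ (k - m') else 0)
      + 1 / 8 * ∑ k ∈ s, (if k ≤ m' - 1 then ((1 : ℝ) / 8) ^ (m' - 1 - k) else 0)) := by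
    rw [mul_sum, ← sum_add_distrib, mul_sum]
    refine sum_le_sum fun k _ => ?_
    unfold Lat.al0
    by_cases h : m' ≤ k
    · obtain ⟨j, rfl⟩ := Nat.exists_eq_add_of_le h
      rw [if_pos h, if_pos h, Nat.add_sub_cancel_left, pow_add, mul_assoc, ← mul_pow]
      refine mul_le_mul_of_nonneg_left ?_ (by positivity)
      norm_num
      split_ifs <;> positivity
    · obtain ⟨j, rfl⟩ : ∃ j, m' = k + (j + 1) := ⟨m' - k - 1, by omega⟩
      rw [if_neg h, if_neg h, if_pos (by omega), Nat.add_sub_cancel_left, zero_add,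
        show k + (j + 1) - 1 - k = j by omega, pow_add 4 k, mul_assoc, ← pow_succ', ← mul_pow]
      norm_num
  refine this.trans ?_
  rw [mul_comm 2]
  refine mul_le_mul_of_nonneg_left ?_ (by positivity)
  norm_num at h1 h2 ⊢
  linarith

theorem exp_five : (68 : ℝ) ≤ Real.exp 5 := by
  have := pow_le_pow_left₀ (by norm_num) Real.exp_one_gt_d9.le 5
  rw [← Real.exp_nat_mul] at this
  norm_num at this ⊢
  linarith

theorem exp_three : (16 : ℝ) ≤ Real.exp 3 := by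
  have := pow_le_pow_left₀ (by norm_num) Real.exp_one_gt_d9.le 3
  rw [← Real.exp_nat_mul] at this
  norm_num at this ⊢
  linarith

theorem log_le_of {a b : ℝ} (ha : 0 < a) (hb : 0 < b) (h : a ≤ 16 * b) :
    Real.log a ≤ Real.log b + 3 := by
  rw [Real.log_le_iff_le_exp ha, Real.exp_add, Real.exp_log hb]
  nlinarith [exp_three]

end Geo0

open Geo0

namespace Lat
variable (L : Lat)

theorem del_nonneg (m : ℕ) (i : Fin 2) (x y : L.X) : 0 ≤ L.del m i x y := sq_nonneg _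
theorem del_symm (m : ℕ) (i : Fin 2) (x y : L.X) : L.del m i x y = L.del m i y x := by
  rw [del, del, norm_sub_rev]
theorem del_succ {m : ℕ} (hm : m < L.N) (i : Fin 2) (x y : L.X) :
    L.del m i x y = L.del (m + 1) i x y * (4 - L.del (m + 1) i x y) := by
  rw [del, L.U_succ m i x hm, L.U_succ m i y hm, del_sq (L.norm_U _ _ _) (L.norm_U _ _ _), del]
theorem rho2_zero (p q : L.P) : L.rho2 0 p q = 0 := by simp [rho2, del, L.U_zero]

theorem wt_Phi (m : ℕ) : wt (L.Phi m) = L.rho2 m := by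
  funext p q
  have : ((2 : ℝ) ^ m) ^ 2 = 4 ^ m := by rw [← pow_mul, mul_comm, pow_mul]; norm_num
  simp only [wt, Phi, rho2, del, Fintype.sum_prod_type, Fintype.sum_bool, mul_sum, ← this,
    Complex.sq_norm, normSq_apply, sub_re, sub_im, if_true, Bool.false_eq_true, if_false]
  exact sum_congr rfl fun i _ => by ring
theorem rx_eq (p q : L.P) : L.r2 p q = L.rx p.1 q.1 := rfl
theorem rx_symm (x y : L.X) : L.rx x y = L.rx y x := by simp only [rx, L.del_symm _ _ x y]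
theorem rx_self (x : L.X) : L.rx x x = 0 := by simp [rx, del]
theorem rx_nonneg (x y : L.X) : 0 ≤ L.rx x y :=
  mul_nonneg (by positivity) (sum_nonneg fun _ _ => L.del_nonneg _ _ _ _)
theorem rx_tri (x y z : L.X) :
    Real.sqrt (L.rx x z) ≤ Real.sqrt (L.rx x y) + Real.sqrt (L.rx y z) := by
  have e : ∀ a b : L.X, Real.sqrt (L.rx a b) = Real.sqrt (4 ^ L.N) *
      dist (WithLp.toLp 2 fun i => L.U L.N i a : EuclideanSpace ℂ (Fin 2))
        (WithLp.toLp 2 fun i => L.U L.N i b) := fun a b => by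
    rw [rx, Real.sqrt_mul (by positivity), EuclideanSpace.dist_eq]
    simp only [del, dist_eq_norm]
  rw [e, e, e, ← mul_add]
  exact mul_le_mul_of_nonneg_left (dist_triangle _ _ _) (Real.sqrt_nonneg _)
theorem rx_le_two (x y z : L.X) : L.rx x z ≤ 2 * L.rx x y + 2 * L.rx y z := by
  have h := L.rx_tri x y z
  have h1 := Real.sq_sqrt (L.rx_nonneg x z)
  have h2 := Real.sq_sqrt (L.rx_nonneg x y)
  have h3 := Real.sq_sqrt (L.rx_nonneg y z)
  nlinarith [Real.sqrt_nonneg (L.rx x z), sq_nonneg (√(L.rx x y) - √(L.rx y z)),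
    pow_le_pow_left₀ (Real.sqrt_nonneg _) h 2]
theorem del_le (m : ℕ) (i : Fin 2) (x y : L.X) : L.del m i x y ≤ 4 := by
  have := norm_sub_le (L.U m i x) (L.U m i y)
  rw [L.norm_U, L.norm_U] at this
  exact (pow_le_pow_left₀ (norm_nonneg _) this 2).trans (by norm_num)
theorem rho2_nonneg (m : ℕ) (p q : L.P) : 0 ≤ L.rho2 m p q :=
  mul_nonneg (by positivity) (sum_nonneg fun _ _ => L.del_nonneg _ _ _ _)
theorem rho2_le_pow (m : ℕ) (p q : L.P) : L.rho2 m p q ≤ 8 * 4 ^ m := by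
  rw [rho2, Fin.sum_univ_two, mul_comm]
  exact mul_le_mul_of_nonneg_right (by linarith [L.del_le m 0 p.1 q.1, L.del_le m 1 p.1 q.1])
    (by positivity)
theorem s4_nonneg (m : ℕ) (p q : L.P) : 0 ≤ L.s4 m p q := sum_nonneg fun _ _ => sq_nonneg _
theorem rho2_succ {m : ℕ} (hm : m < L.N) (p q : L.P) :
    L.rho2 (m + 1) p q = L.rho2 m p q + 4 ^ m * L.s4 m p q := by
  simp only [rho2, s4, Fin.sum_univ_two, L.del_succ hm]
  ring
theorem r2_sub_rho2 {m : ℕ} (hm : m ≤ L.N) (p q : L.P) :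
    L.r2 p q - L.rho2 m p q = ∑ k ∈ Ico m L.N, 4 ^ k * L.s4 k p q := by
  have : ∀ n, m ≤ n → n ≤ L.N →
      L.rho2 n p q - L.rho2 m p q = ∑ k ∈ Ico m n, 4 ^ k * L.s4 k p q := by
    intro n h
    induction n, h using Nat.le_induction with
    | base => simp
    | succ n h ih =>
      intro hn
      rw [sum_Ico_succ_top h, ← ih (by omega), L.rho2_succ hn]
      ring
  exact this _ hm le_rfl
theorem rho2_le_r2 {m : ℕ} (hm : m ≤ L.N) (p q : L.P) : L.rho2 m p q ≤ L.r2 p q :=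
  sub_nonneg.1 (L.r2_sub_rho2 hm p q ▸
    sum_nonneg fun k _ => mul_nonneg (by positivity) (L.s4_nonneg k p q))
theorem r2_eq_sum (p q : L.P) : L.r2 p q = ∑ k ∈ range L.N, 4 ^ k * L.s4 k p q := by
  rw [range_eq_Ico, ← L.r2_sub_rho2 (Nat.zero_le _), rho2_zero, sub_zero]
theorem s4_le {m : ℕ} (hm : m < L.N) (p q : L.P) :
    L.s4 m p q ≤ 32 ∧ L.s4 m p q ≤ (L.r2 p q / 4 ^ (m + 1)) ^ 2 := by
  have h0 := L.del_nonneg (m + 1) 0 p.1 q.1
  have h1 := L.del_nonneg (m + 1) 1 p.1 q.1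
  have h2 := L.rho2_le_r2 (show m + 1 ≤ L.N from hm) p q
  rw [rho2, ← le_div_iff₀' (by positivity), Fin.sum_univ_two] at h2
  rw [s4, Fin.sum_univ_two]
  exact ⟨by nlinarith [L.del_le (m + 1) 0 p.1 q.1, L.del_le (m + 1) 1 p.1 q.1],
    le_trans (by nlinarith [mul_nonneg h0 h1]) (pow_le_pow_left₀ (add_nonneg h0 h1) h2 2)⟩
theorem r2_gap (p q : L.P) : L.r2 p q = 0 ∨ 16 ≤ L.r2 p q := by
  have : ∀ m ≤ L.N, L.rho2 m p q = 0 ∨ 16 ≤ L.rho2 m p q := by
    intro m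
    induction m with
    | zero => exact fun _ => Or.inl (L.rho2_zero p q)
    | succ m ih =>
      intro hm
      rcases ih (by omega) with h | h
      · have h4 : (0 : ℝ) < 4 ^ m := by positivity
        have h5 : (1 : ℝ) ≤ 4 ^ m := one_le_pow₀ (by norm_num)
        rw [rho2, mul_eq_zero, sum_eq_zero_iff_of_nonneg fun _ _ => L.del_nonneg _ _ _ _] at h
        have h' := fun i => (h.resolve_left h4.ne') i (mem_univ i)
        simp only [L.del_succ hm, mul_eq_zero, sub_eq_zero] at h'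
        rw [rho2, Fin.sum_univ_two, pow_succ]
        rcases h' 0 with a | a <;> rcases h' 1 with b | b
        · left; rw [a, b]; ring
        all_goals right; rw [← ge_iff_le]; nlinarith
      · right
        rw [L.rho2_succ hm]
        exact le_add_of_le_of_nonneg h (mul_nonneg (by positivity) (L.s4_nonneg _ _ _))
  exact this _ le_rfl
theorem sc_lt (x : ℝ) : L.sc x < L.N := by
  have := L.hN
  exact (min_le_left _ _).trans_lt (by omega)
theorem sc_spec {x : ℝ} (h1 : 1 ≤ x) (h2 : x ≤ 32 * 4 ^ L.N) :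
    4 ^ L.sc x ≤ x ∧ x ≤ 128 * 4 ^ L.sc x := by
  have h0 : ⌊x⌋₊ ≠ 0 := (Nat.floor_pos.2 h1).ne'
  constructor
  · refine (pow_le_pow_right₀ (by norm_num) (min_le_right _ _)).trans
      (le_trans ?_ (Nat.floor_le (zero_le_one.trans h1)))
    exact_mod_cast Nat.pow_log_le_self 4 h0
  · rcases min_choice (L.N - 1) (Nat.log 4 ⌊x⌋₊) with e | e <;> rw [sc, e]
    · obtain ⟨n, hn⟩ : ∃ n, L.N = n + 1 := ⟨L.N - 1, by have := L.hN; omega⟩
      rw [hn, pow_succ] at h2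
      rw [hn, Nat.add_sub_cancel]
      linarith
    · have h3 : ((⌊x⌋₊ + 1 : ℕ) : ℝ) ≤ (4 ^ (Nat.log 4 ⌊x⌋₊ + 1) : ℕ) :=
        Nat.cast_le.2 (Nat.lt_pow_succ_log_self (by norm_num) _)
      have h4 := Nat.lt_floor_add_one x
      have h5 : (0 : ℝ) < 4 ^ Nat.log 4 ⌊x⌋₊ := by positivity
      push_cast at h3
      rw [pow_succ] at h3
      linarith
theorem le_norm_al {m' : ℕ} (hm : m' < L.N) :
    (4 : ℝ) ^ m' ≤ ∑ k ∈ range L.N, 4 ^ k * al0 k m' := by
  simpa [al0] using single_le_sum (f := fun k => (4 : ℝ) ^ k * al0 k m')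
    (fun k _ => mul_nonneg (by positivity) (al0_nonneg k m')) (mem_range.2 hm)
theorem al_nonneg (m m' : ℕ) : 0 ≤ L.al m m' :=
  div_nonneg (mul_nonneg (al0_nonneg _ _) (by positivity))
    (sum_nonneg fun _ _ => mul_nonneg (by positivity) (al0_nonneg _ _))
theorem al_le {m' : ℕ} (hm : m' < L.N) (m : ℕ) : al0 m m' / 2 ≤ L.al m m' ∧ L.al m m' ≤ al0 m m' :=
  by
  have h1 := L.le_norm_al hm
  have h2 := norm_al0 (range L.N) m'
  have h3 : (0 : ℝ) < 4 ^ m' := by positivity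
  have h4 := al0_nonneg m m'
  rw [al, div_le_div_iff₀ two_pos (h3.trans_le h1), div_le_iff₀ (h3.trans_le h1)]
  exact ⟨by nlinarith, mul_le_mul_of_nonneg_left h1 h4⟩
theorem sum_al {m' : ℕ} (hm : m' < L.N) : ∑ m ∈ range L.N, 4 ^ m * L.al m m' = 4 ^ m' := by
  have h3 : (0 : ℝ) < 4 ^ m' := by positivity
  simp only [al, ← mul_div_assoc, ← mul_assoc]
  rw [← sum_div, ← sum_mul, mul_div_cancel_left₀ _ (h3.trans_le (L.le_norm_al hm)).ne']
theorem wh_nonneg (m : ℕ) (p q : L.P) : 0 ≤ L.wh m p q :=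
  sum_nonneg fun _ _ => mul_nonneg (L.al_nonneg _ _) (L.s4_nonneg _ _ _)
theorem wh_symm (m : ℕ) (p q : L.P) : L.wh m p q = L.wh m q p := by
  simp only [wh, s4, L.del_symm _ _ p.1 q.1]
theorem wh_self (m : ℕ) (p : L.P) : L.wh m p p = 0 := by simp [wh, s4, del]
theorem sum_wh (p q : L.P) : ∑ m ∈ range L.N, 4 ^ m * L.wh m p q = L.r2 p q := by
  simp only [wh, mul_sum, ← mul_assoc]
  rw [sum_comm, r2_eq_sum]
  exact sum_congr rfl fun k hk => by rw [← sum_mul, L.sum_al (mem_range.1 hk)]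
theorem wh_succ (m : ℕ) (p q : L.P) :
    L.wh m p q ≤ 16 * L.wh (m + 1) p q ∧ L.wh (m + 1) p q ≤ 2 * L.wh m p q := by
  have h : ∀ k, 0 ≤ (4 : ℝ) ^ k / (∑ j ∈ range L.N, 4 ^ j * al0 j k) * L.s4 k p q := fun k =>
    mul_nonneg (div_nonneg (by positivity)
      (sum_nonneg fun _ _ => mul_nonneg (by positivity) (al0_nonneg _ _))) (L.s4_nonneg _ _ _)
  simp only [wh, al, mul_sum, mul_div_assoc, mul_assoc]
  constructor <;> refine sum_le_sum fun k _ => ?_ <;> rw [← mul_assoc (_ : ℝ) (al0 _ k)]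
  exacts [mul_le_mul_of_nonneg_right (al0_succ m k).1 (h k),
    mul_le_mul_of_nonneg_right (al0_succ m k).2 (h k)]
theorem wh_le (m : ℕ) (p q : L.P) : L.wh m p q ≤ 67 := by
  refine (sum_le_sum fun k hk => mul_le_mul (L.al_le (mem_range.1 hk) m).2
    (L.s4_le (mem_range.1 hk) p q).1 (L.s4_nonneg _ _ _) (al0_nonneg _ _)).trans ?_
  rw [← sum_mul]
  linarith [sum_al0 (range L.N) m]
theorem sum_nn (K : L.Mat) (p : L.P) :
    ∑ m ∈ range L.N, 4 ^ m * L.nn K p m = Gam L.r2 K p := by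
  simp only [nn, Gam, mul_sum]
  rw [sum_comm]
  refine sum_congr rfl fun q _ => ?_
  rw [← L.sum_wh, mul_sum]
  exact sum_congr rfl fun k _ => by ring
theorem nn_nonneg (K : L.Mat) (p : L.P) (m : ℕ) : 0 ≤ L.nn K p m :=
  Gam_nonneg (L.wh_nonneg m) K p
theorem nn_le (K : L.Mat) (p : L.P) (m : ℕ) : L.nn K p m ≤ 67 * dd K p := by
  rw [nn, Gam, dd, mul_sum]
  exact sum_le_sum fun q _ => (mul_comm _ _).trans_le
    (mul_le_mul_of_nonneg_right (L.wh_le m p q) (cc_nonneg K p q))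
theorem nn_succ (K : L.Mat) (p : L.P) (m : ℕ) :
    L.nn K p m ≤ 16 * L.nn K p (m + 1) ∧ L.nn K p (m + 1) ≤ 2 * L.nn K p m := by
  simp only [nn, Gam, mul_sum]
  constructor <;> refine sum_le_sum fun q _ => ?_ <;> rw [mul_left_comm]
  exacts [mul_le_mul_of_nonneg_left (L.wh_succ m p q).1 (cc_nonneg K p q),
    mul_le_mul_of_nonneg_left (L.wh_succ m p q).2 (cc_nonneg K p q)]
theorem th_nonneg (K : L.Mat) (p : L.P) (m : ℕ) : 0 ≤ L.th K p m :=
  div_nonneg (L.nn_nonneg K p m) (dd_nonneg K p)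
theorem th_le (K : L.Mat) (p : L.P) (m : ℕ) : L.th K p m ≤ 67 :=
  div_le_of_le_mul₀ (dd_nonneg K p) (by norm_num) (L.nn_le K p m)
theorem th_mul (K : L.Mat) (p : L.P) (m : ℕ) : L.th K p m * dd K p = L.nn K p m := by
  rcases eq_or_ne (dd K p) 0 with h | h
  · have := L.nn_le K p m
    rw [h, mul_zero] at this ⊢
    exact le_antisymm (L.nn_nonneg K p m) this
  · exact div_mul_cancel₀ _ h
theorem gd_bdd (Y : Finset L.X) {i : ℝ} (hi : 0 ≤ i) (K : L.Mat) (p : L.P) (m : ℕ) :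
    -5 ≤ L.gd Y i K p m ∧ L.gd Y i K p m ≤ i := by
  have h0 := L.th_nonneg K p m
  have h1 := Real.exp_pos (-i)
  unfold gd
  split_ifs
  · rw [neg_le_neg_iff, neg_le, Real.log_le_iff_le_exp (by positivity),
      Real.le_log_iff_exp_le (by positivity)]
    have := Real.exp_le_one_iff.2 (neg_nonpos.2 hi)
    exact ⟨by linarith [L.th_le K p m, exp_five], by linarith⟩
  · exact ⟨by linarith, le_rfl⟩
theorem gd_lip (Y : Finset L.X) (i : ℝ) (K : L.Mat) (p : L.P) (m : ℕ) :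
    |L.gd Y i K p (m + 1) - L.gd Y i K p m| ≤ 3 := by
  have h0 := L.th_nonneg K p m
  have h0' := L.th_nonneg K p (m + 1)
  have h1 := Real.exp_pos (-i)
  have h2 : L.th K p m ≤ 16 * L.th K p (m + 1) := by
    rw [th, th, ← mul_div_assoc]
    exact div_le_div_of_nonneg_right (L.nn_succ K p m).1 (dd_nonneg K p)
  have h3 : L.th K p (m + 1) ≤ 2 * L.th K p m := by
    rw [th, th, ← mul_div_assoc]
    exact div_le_div_of_nonneg_right (L.nn_succ K p m).2 (dd_nonneg K p)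
  unfold gd
  split_ifs
  · have a := log_le_of (a := L.th K p m + Real.exp (-i)) (b := L.th K p (m + 1) + Real.exp (-i))
      (by positivity) (by positivity) (by linarith)
    have b := log_le_of (b := L.th K p m + Real.exp (-i)) (a := L.th K p (m + 1) + Real.exp (-i))
      (by positivity) (by positivity) (by linarith)
    exact abs_le.2 ⟨by linarith, by linarith⟩
  · simp
end Lat

end Crest.Agent.N334.G
end
end

-- ▼ part N334/G/Geo2

/-!
# Row 334, S0519 GAIN: scale localisation of the weights, stereographic weights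
-/

set_option autoImplicit false

open MeasureTheory Finset Complex
open scoped BigOperators ComplexConjugate

noncomputable section

namespace Crest.Agent.N334.G

open Geo0

theorem sum_pow_le (N : ℕ) {x : ℝ} (hx : 0 ≤ x) :
    ∑ m ∈ (range N).filter (fun m => (4 : ℝ) ^ m ≤ x), (4 : ℝ) ^ m ≤ 4 / 3 * x := by
  induction N with
  | zero => simpa
  | succ N ih =>
    by_cases h : (4 : ℝ) ^ N ≤ x
    · refine (sum_le_sum_of_subset_of_nonneg (filter_subset _ _) fun _ _ _ => by positivity).trans ?_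
      rw [geom_sum_eq (by norm_num), pow_succ]
      linarith
    · rwa [range_add_one, filter_insert, if_neg h]

namespace Geo0

theorem sum_inv_le (s : Finset ℕ) {x : ℝ} (hx : 0 < x) :
    ∑ m ∈ s.filter (fun m => x ≤ (4 : ℝ) ^ m), ((1 : ℝ) / 4) ^ m ≤ 4 / 3 / x := by
  have hex : ∃ k : ℕ, x ≤ 4 ^ k := (pow_unbounded_of_one_lt x (by norm_num)).imp fun _ h => h.le
  have h1 := geo_up (r := 1 / 4) (by norm_num) (by norm_num) s (Nat.find hex)
  have h2 : ((1 : ℝ) / 4) ^ Nat.find hex ≤ 1 / x := by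
    rw [one_div_pow]
    exact one_div_le_one_div_of_le hx (Nat.find_spec hex)
  calc _ ≤ ∑ m ∈ s, 1 / x * if Nat.find hex ≤ m then ((1 : ℝ) / 4) ^ (m - Nat.find hex) else 0 := by
        rw [sum_filter]
        refine sum_le_sum fun m _ => ?_
        by_cases h : x ≤ 4 ^ m
        · have h3 := Nat.find_min' hex h
          rw [if_pos h, if_pos h3]
          conv_lhs => rw [← Nat.add_sub_cancel' h3, pow_add]
          exact mul_le_mul_of_nonneg_right h2 (by positivity)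
        · rw [if_neg h]
          split_ifs <;> positivity
    _ ≤ 1 / x * (1 - 1 / 4)⁻¹ := by
        rw [← mul_sum]
        exact mul_le_mul_of_nonneg_left h1 (by positivity)
    _ = _ := by field_simp; norm_num

theorem two_side (s : Finset ℕ) (k : ℕ) {f : ℕ → ℝ} {C : ℝ} (hC : 0 ≤ C)
    (h : ∀ m ∈ s, f m ≤ C * (1 / 4) ^ m.dist k) : ∑ m ∈ s, f m * |(m : ℝ) - k| ≤ 4 * C := by
  have h1 := geo_up (r := 1 / 2) (by norm_num) (by norm_num) s k
  have h2 := geo_dn (r := 1 / 2) (by norm_num) (by norm_num) s k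
  have h3 : ∀ j : ℕ, ((1 : ℝ) / 4) ^ j * j ≤ (1 / 2) ^ j := fun j => by
    have : (j : ℝ) ≤ 2 ^ j := by exact_mod_cast j.lt_two_pow_self.le
    refine (mul_le_mul_of_nonneg_left this (by positivity)).trans (le_of_eq ?_)
    rw [← mul_pow]
    norm_num
  refine (sum_le_sum fun m hm => (mul_le_mul_of_nonneg_right (h m hm) (abs_nonneg _)).trans
    (?_ : _ ≤ C * ((if k ≤ m then ((1 : ℝ) / 2) ^ (m - k) else 0)
      + if m ≤ k then ((1 : ℝ) / 2) ^ (k - m) else 0))).trans ?_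
  · rw [mul_assoc]
    refine mul_le_mul_of_nonneg_left ?_ hC
    rcases le_total k m with e | e
    · rw [if_pos e, Nat.dist_eq_sub_of_le_right e, ← Nat.cast_sub e, Nat.abs_cast]
      exact le_add_of_le_of_nonneg (h3 _) (by split_ifs <;> positivity)
    · rw [if_pos e, Nat.dist_eq_sub_of_le e, abs_sub_comm, ← Nat.cast_sub e, Nat.abs_cast]
      exact le_add_of_nonneg_of_le (by split_ifs <;> positivity) (h3 _)
  · rw [← mul_sum, sum_add_distrib, mul_comm 4]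
    norm_num at h1 h2 ⊢
    exact mul_le_mul_of_nonneg_left (by linarith) hC

theorem pow_al0 (m k : ℕ) : 4 ^ m * Lat.al0 m k ≤ 4 ^ k * (1 / 4) ^ m.dist k := by
  unfold Lat.al0
  split_ifs with h
  · obtain ⟨j, rfl⟩ := Nat.exists_eq_add_of_le h
    rw [Nat.dist_eq_sub_of_le_right h, Nat.add_sub_cancel_left, pow_add, mul_assoc, ← mul_pow]
    norm_num
  · obtain ⟨j, rfl⟩ := Nat.exists_eq_add_of_le (not_le.1 h).le
    rw [Nat.dist_eq_sub_of_le (not_le.1 h).le, Nat.add_sub_cancel_left, pow_add, mul_assoc,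
      ← mul_pow]
    exact mul_le_mul_of_nonneg_left (pow_le_pow_left₀ (by norm_num) (by norm_num) j)
      (by positivity)

theorem stereo {ι : Type} [Fintype ι] (P Q : ι → ℝ) {a b : ℝ} (ha : a = ∑ j, P j ^ 2)
    (hb : b = ∑ j, Q j ^ 2) : ((a - 1) / (1 + a) - (b - 1) / (1 + b)) ^ 2 +
      ∑ j, (2 * P j / (1 + a) - 2 * Q j / (1 + b)) ^ 2
      = 4 * (∑ j, (P j - Q j) ^ 2) / ((1 + a) * (1 + b)) := by
  have ha0 : 0 ≤ a := ha ▸ sum_nonneg fun _ _ => sq_nonneg _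
  have hb0 : 0 ≤ b := hb ▸ sum_nonneg fun _ _ => sq_nonneg _
  have e1 : ∑ j, (P j - Q j) ^ 2 = a + b - 2 * ∑ j, P j * Q j := by
    rw [ha, hb, mul_sum, ← sum_add_distrib, ← sum_sub_distrib]
    exact sum_congr rfl fun j _ => by ring
  have e2 : ∑ j, (2 * P j / (1 + a) - 2 * Q j / (1 + b)) ^ 2 = 4 / (1 + a) ^ 2 * (∑ j, P j ^ 2)
      + 4 / (1 + b) ^ 2 * (∑ j, Q j ^ 2) - 8 / ((1 + a) * (1 + b)) * ∑ j, P j * Q j := by
    rw [mul_sum, mul_sum, mul_sum, ← sum_add_distrib, ← sum_sub_distrib]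
    exact sum_congr rfl fun j _ => by field_simp; ring
  rw [e1, e2, ← ha, ← hb]
  field_simp
  ring

end Geo0

theorem wh_le_r2 (L : Lat) {m : ℕ} (hm : m < L.N) (p q : L.P) :
    4 ^ m * L.wh m p q ≤ L.r2 p q :=
  L.sum_wh p q ▸ single_le_sum (f := fun m => 4 ^ m * L.wh m p q)
    (fun k _ => mul_nonneg (by positivity) (L.wh_nonneg k p q)) (mem_range.2 hm)
/-- lower bound for jumps shorter than the scale -/
theorem wh_ge : ∃ c : ℝ, 0 < c ∧ ∀ (L : Lat) (m : ℕ) (p q : L.P), m < L.N →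
    L.r2 p q ≤ 128 * 4 ^ m → c * (L.r2 p q / 4 ^ m) ^ 2 ≤ L.wh m p q := by
  refine ⟨1 / (3 * 128 ^ 3), by norm_num, fun L m p q hm hr => ?_⟩
  rcases (L.rho2_nonneg L.N p q).eq_or_lt with h0 | h0
  · rw [Lat.r2, ← h0]
    simpa using L.wh_nonneg m p q
  change 0 < L.r2 p q at h0
  obtain ⟨r, e⟩ : ∃ r, r = L.r2 p q := ⟨_, rfl⟩
  have h1 := sum_pow_le L.N (x := r / 171) (by rw [e]; positivity)
  have h2 := sum_inv_le (range L.N) (e ▸ h0 : 0 < r)
  have h3 := L.r2_eq_sum p q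
  have hs := fun k hk => L.s4_le (m := k) hk p q
  rw [← e] at h0 hr h3 hs ⊢
  have h4 : (0 : ℝ) < 4 ^ m := by positivity
  have hx : r / 4 ^ m ≤ 128 := by rwa [div_le_iff₀ h4]
  have hx0 : 0 < r / 4 ^ m := by positivity
  have key : ∀ k ∈ range L.N, (r / 4 ^ m) ^ 2 * (4 ^ k * L.s4 k p q) ≤
      (r / 4 ^ m) ^ 2 * (32 * (if (4 : ℝ) ^ k ≤ r / 171 then (4 : ℝ) ^ k else 0)
        + r ^ 2 / 16 * if r ≤ (4 : ℝ) ^ k then ((1 : ℝ) / 4) ^ k else 0)
      + 2 * 128 ^ 3 * r * (L.al m k * L.s4 k p q) := fun k hk => by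
    have hk' := mem_range.1 hk
    have a0 := L.s4_nonneg k p q
    have a1 : 0 ≤ 2 * 128 ^ 3 * r * (L.al m k * L.s4 k p q) :=
      mul_nonneg (by positivity) (mul_nonneg (L.al_nonneg _ _) a0)
    have a2 : (0 : ℝ) < 4 ^ k := by positivity
    by_cases c1 : (4 : ℝ) ^ k ≤ r / 171
    · refine le_add_of_le_of_nonneg (mul_le_mul_of_nonneg_left ?_ (sq_nonneg _)) a1
      rw [if_pos c1]
      refine le_add_of_le_of_nonneg ?_ (by split_ifs <;> positivity)
      nlinarith [(hs k hk').1]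
    by_cases c2 : r ≤ (4 : ℝ) ^ k
    · refine le_add_of_le_of_nonneg (mul_le_mul_of_nonneg_left ?_ (sq_nonneg _)) a1
      rw [if_neg c1, if_pos c2, mul_zero, zero_add]
      refine (mul_le_mul_of_nonneg_left (hs k hk').2 a2.le).trans (le_of_eq ?_)
      rw [one_div_pow, pow_succ 4 k]
      field_simp
      norm_num
    rw [if_neg c1, if_neg c2, mul_zero, mul_zero, add_zero, mul_zero, zero_add]
    have a3 : (r / 4 ^ m) ^ 2 ≤ 128 ^ 3 * Lat.al0 m k := by
      unfold Lat.al0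
      split_ifs with h
      · obtain ⟨j, rfl⟩ := Nat.exists_eq_add_of_le h
        have b1 : r / 4 ^ (k + j) ≤ 171 * (1 / 4) ^ j := by
          rw [div_le_iff₀ h4, pow_add, one_div_pow]
          field_simp
          linarith
        refine (pow_le_pow_left₀ hx0.le b1 2).trans ?_
        rw [Nat.add_sub_cancel_left, mul_pow, ← pow_mul, mul_comm j, pow_mul]
        norm_num
      · obtain ⟨j, rfl⟩ := Nat.exists_eq_add_of_le (not_le.1 h).le
        have b1 : (4 : ℝ) ^ j ≤ 128 := by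
          rw [pow_add] at c2
          nlinarith
        have b2 : (2 : ℝ) ^ j ≤ 4 ^ j := pow_le_pow_left₀ (by norm_num) (by norm_num) j
        rw [Nat.add_sub_cancel_left, one_div_pow, mul_one_div, le_div_iff₀ (by positivity)]
        calc _ ≤ 128 ^ 2 * 128 := mul_le_mul (pow_le_pow_left₀ hx0.le hx 2) (b2.trans b1)
              (by positivity) (by positivity)
          _ = _ := by norm_num
    have a4 := (L.al_le hk' m).1
    calc _ ≤ (128 ^ 3 * (2 * L.al m k)) * (r * L.s4 k p q) :=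
          mul_le_mul (by linarith) (mul_le_mul_of_nonneg_right (not_le.1 c2).le a0)
            (by positivity) (mul_nonneg (by norm_num) (by linarith [L.al_nonneg m k]))
      _ = _ := by ring
  have h5 := sum_le_sum key
  rw [← mul_sum, ← h3, sum_add_distrib, ← mul_sum, ← mul_sum, sum_add_distrib, ← mul_sum,
    ← mul_sum, ← sum_filter, ← sum_filter, ← Lat.wh] at h5
  have h6 : r ^ 2 / 16 * (4 / 3 / r) = r / 12 := by field_simp; norm_num
  have h7 := mul_le_mul_of_nonneg_left (add_le_add (mul_le_mul_of_nonneg_left h1 (by norm_num :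
    (0 : ℝ) ≤ 32)) (mul_le_mul_of_nonneg_left h2 (by positivity : 0 ≤ r ^ 2 / 16)))
    (sq_nonneg (r / 4 ^ m))
  rw [h6] at h7
  refine le_of_mul_le_mul_left ?_ h0
  nlinarith [mul_nonneg h0.le (sq_nonneg (r / 4 ^ m))]
/-- concentration at the scale of any comparable or larger length -/
theorem wh_conc : ∃ C : ℝ, 0 < C ∧ ∀ (L : Lat) (p q : L.P),
    ∑ m ∈ range L.N, 4 ^ m * L.wh m p q * |(m : ℝ) - L.sc (L.r2 p q)| ≤ C * L.r2 p q := by
  refine ⟨260, by norm_num, fun L p q => ?_⟩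
  obtain ⟨k, hk⟩ : ∃ k, k = L.sc (L.r2 p q) := ⟨_, rfl⟩
  have h0 : 0 ≤ L.r2 p q := L.rho2_nonneg _ p q
  have h1 : ∀ m ∈ range L.N, 4 ^ m * L.s4 m p q ≤ 32 * L.r2 p q * (1 / 4) ^ m.dist k := by
    intro m hm
    have hs := L.s4_le (mem_range.1 hm) p q
    rcases L.r2_gap p q with e | e
    · rw [e] at hs ⊢
      simpa using mul_nonpos_of_nonneg_of_nonpos (by positivity : (0 : ℝ) ≤ 4 ^ m)
        (by simpa using hs.2)
    have h2 := L.sc_spec (x := L.r2 p q) (by linarith) ((L.rho2_le_pow _ p q).trans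
      (mul_le_mul_of_nonneg_right (by norm_num) (by positivity)))
    rw [← hk] at h2
    rcases le_total m k with h | h <;> obtain ⟨j, rfl⟩ := Nat.exists_eq_add_of_le h
    · rw [Nat.dist_eq_sub_of_le h, Nat.add_sub_cancel_left, one_div_pow, mul_one_div,
        le_div_iff₀ (by positivity)]
      rw [pow_add] at h2
      nlinarith [mul_le_mul_of_nonneg_left hs.1 (by positivity : (0 : ℝ) ≤ 4 ^ m * 4 ^ j)]
    · rw [Nat.dist_eq_sub_of_le_right h, Nat.add_sub_cancel_left, one_div_pow]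
      refine (mul_le_mul_of_nonneg_left hs.2 (by positivity)).trans ?_
      rw [pow_succ 4, pow_add]
      field_simp
      nlinarith [mul_le_mul_of_nonneg_left h2.2 h0,
        mul_nonneg h0 (by positivity : (0 : ℝ) ≤ 4 ^ k)]
  have h3 := two_side (range L.N) k (by positivity) h1
  have h4 : ∀ j ∈ range L.N, ∑ m ∈ range L.N, 4 ^ m * (L.al m j * L.s4 j p q) * |(m : ℝ) - k|
      ≤ 4 * (4 ^ j * L.s4 j p q) + 4 ^ j * L.s4 j p q * |(j : ℝ) - k| := fun j hj => by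
    have a0 := L.s4_nonneg j p q
    have a1 := two_side (range L.N) j (f := fun m => 4 ^ m * L.al m j) (C := 4 ^ j)
      (by positivity) fun m _ => (mul_le_mul_of_nonneg_left (L.al_le (mem_range.1 hj) m).2
        (by positivity)).trans (pow_al0 m j)
    have a2 := L.sum_al (mem_range.1 hj)
    calc _ ≤ ∑ m ∈ range L.N, (4 ^ m * L.al m j * |(m : ℝ) - j| * L.s4 j p q
          + 4 ^ m * L.al m j * (L.s4 j p q * |(j : ℝ) - k|)) := sum_le_sum fun m _ => by
          nlinarith [mul_le_mul_of_nonneg_left (abs_sub_le (m : ℝ) j k) (mul_nonneg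
            (by positivity : (0 : ℝ) ≤ 4 ^ m) (mul_nonneg (L.al_nonneg m j) a0))]
      _ ≤ _ := by
          rw [sum_add_distrib, ← sum_mul, ← sum_mul, a2]
          nlinarith [mul_le_mul_of_nonneg_right a1 a0]
  rw [← hk]
  simp only [Lat.wh, mul_sum, sum_mul]
  rw [sum_comm]
  refine (sum_le_sum h4).trans ?_
  rw [sum_add_distrib, ← mul_sum, ← L.r2_eq_sum]
  linarith
/-- the weight `wF` comes from a sphere-valued map -/
theorem exists_stereo (L : Lat) (c : L.X) {R2 : ℝ} (hR : 0 < R2) :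
    ∃ F : Option (Fin 2 × Bool) → L.P → ℝ, (∀ p, ∑ j, F j p ^ 2 = 1) ∧ wt F = L.wF c R2 := by
  obtain ⟨P, hP⟩ : ∃ P : L.P → Fin 2 × Bool → ℝ,
      P = fun p j => (L.Phi L.N j p - L.Phi L.N j (c, true)) / √R2 := ⟨_, rfl⟩
  have h1 : ∀ p q, ∑ j, (P p j - P q j) ^ 2 = L.r2 p q / R2 := fun p q => by
    rw [Lat.r2, ← L.wt_Phi, wt, sum_div, hP]
    refine sum_congr rfl fun j _ => ?_
    rw [← sub_div, div_pow, Real.sq_sqrt hR.le, sub_sub_sub_cancel_right]
  have h2 : ∀ p : L.P, L.rx p.1 c / R2 = ∑ j, P p j ^ 2 := fun p => by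
    simpa [hP, Lat.rx_eq] using (h1 p (c, true)).symm
  refine ⟨fun j p => j.elim ((L.rx p.1 c / R2 - 1) / (1 + L.rx p.1 c / R2))
    fun j => 2 * P p j / (1 + L.rx p.1 c / R2), fun p => ?_, ?_⟩
  · have h0 : 0 ≤ L.rx p.1 c / R2 := div_nonneg (L.rx_nonneg _ _) hR.le
    simp only [Fintype.sum_option, Option.elim, div_pow, mul_pow, ← sum_div, ← mul_sum, ← h2]
    generalize L.rx p.1 c / R2 = a at *
    field_simp
    ring
  · funext p q
    rw [wt, Fintype.sum_option, Lat.wF, ← h1]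
    exact stereo (P p) (P q) (h2 p) (h2 q)
theorem wF_nonneg (L : Lat) (c : L.X) {R2 : ℝ} (hR : 0 < R2) (p q : L.P) :
    0 ≤ L.wF c R2 p q := by
  have := L.rx_nonneg p.1 q.1
  have := L.rx_nonneg p.1 c
  have := L.rx_nonneg q.1 c
  rw [Lat.wF, L.rx_eq]
  positivity
theorem wh_le_wF : ∃ C : ℝ, 0 < C ∧ ∀ (L : Lat) (c : L.X) (m : ℕ) (Λ2 : ℝ) (p q : L.P), m < L.N →
    1 ≤ Λ2 → L.rx p.1 c ≤ Λ2 * 4 ^ m → L.wh m p q ≤ C * Λ2 * L.wF c (Λ2 * 4 ^ m) p q := by
  refine ⟨69, by norm_num, fun L c m Λ2 p q hm h1 h2 => ?_⟩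
  have hR : 0 < Λ2 * 4 ^ m := by positivity
  have a0 := div_nonneg (L.rx_nonneg p.1 c) hR.le
  have b0 := div_nonneg (L.rx_nonneg q.1 c) hR.le
  have x0 : 0 ≤ L.r2 p q / (Λ2 * 4 ^ m) := div_nonneg (L.rx_nonneg p.1 q.1) hR.le
  have a1 : L.rx p.1 c / (Λ2 * 4 ^ m) ≤ 1 := (div_le_one hR).2 h2
  have b1 : L.rx q.1 c / (Λ2 * 4 ^ m)
      ≤ 2 * (L.r2 p q / (Λ2 * 4 ^ m)) + 2 * (L.rx p.1 c / (Λ2 * 4 ^ m)) := by
    rw [← mul_div_assoc, ← mul_div_assoc, ← add_div, L.rx_eq, L.rx_symm p.1]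
    exact div_le_div_of_nonneg_right (L.rx_le_two _ _ _) hR.le
  have w1 : L.wh m p q ≤ Λ2 * (L.r2 p q / (Λ2 * 4 ^ m)) := by
    rw [← mul_div_assoc, mul_div_mul_left _ _ (by positivity), le_div_iff₀' (by positivity)]
    exact wh_le_r2 L hm p q
  have w2 := L.wh_le m p q
  have w0 := L.wh_nonneg m p q
  rw [Lat.wF, ← mul_div_assoc, le_div_iff₀ (by positivity)]
  generalize L.r2 p q / (Λ2 * 4 ^ m) = x at *
  refine (mul_le_mul_of_nonneg_left (mul_le_mul (b := 2) (d := 3 + 2 * x) (by linarith)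
    (by linarith) (by positivity) (by norm_num)) w0).trans ?_
  nlinarith [mul_le_mul_of_nonneg_right w2 x0, mul_le_mul_of_nonneg_right h1 x0]
/-- local mass at scale `m` -/
theorem sum_nn_le_kap : ∃ C : ℝ, 0 < C ∧ ∀ (L : Lat) (c : L.X) (m : ℕ) (Λ2 : ℝ) (K : L.Mat)
    (Z : Finset L.X), m < L.N → 1 ≤ Λ2 → (∀ x ∈ Z, L.rx x c ≤ Λ2 * 4 ^ m) →
    ∑ x ∈ Z, L.nn K (x, true) m ≤ C * Λ2 * L.kap Λ2 c m K := by
  obtain ⟨C, hC, H⟩ := wh_le_wF
  refine ⟨C, hC, fun L c m Λ2 K Z hm h1 hZ => ?_⟩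
  have h0 := fun p => Gam_nonneg (wF_nonneg L c (R2 := Λ2 * 4 ^ m) (by positivity)) K p
  calc _ ≤ ∑ x ∈ Z, C * Λ2 * Gam (L.wF c (Λ2 * 4 ^ m)) K (x, true) := sum_le_sum fun x hx => by
        rw [Lat.nn, Gam, Gam, mul_sum]
        refine sum_le_sum fun q _ => ?_
        rw [mul_left_comm]
        exact mul_le_mul_of_nonneg_left (H L c m Λ2 _ q hm h1 (hZ x hx)) (cc_nonneg _ _ _)
    _ ≤ _ := by
        rw [← mul_sum, Lat.kap, En, Fintype.sum_prod_type]
        refine mul_le_mul_of_nonneg_left ((sum_le_sum_of_subset_of_nonneg (subset_univ _)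
          fun x _ _ => h0 _).trans (sum_le_sum fun x _ => ?_)) (by positivity)
        exact single_le_sum (f := fun b => Gam (L.wF c (Λ2 * 4 ^ m)) K (x, b))
          (fun b _ => h0 _) (mem_univ true)
theorem psi_nonneg (L : Lat) (K : L.Mat) (p : L.P) (m : ℕ) : 0 ≤ L.psi K p m := by
  have := dd_nonneg K p
  have : 0 ≤ Gam L.r2 K p := Gam_nonneg (L.rho2_nonneg _) K p
  unfold Lat.psi
  positivity
theorem sum_psi : ∃ C : ℝ, 0 < C ∧ ∀ (L : Lat) (K : L.Mat) (p : L.P),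
    ∑ m ∈ range L.N, L.psi K p m ≤ C := by
  obtain ⟨ρ, hρ⟩ : ∃ ρ : ℝ, ρ = (1 / 4) ^ (1 / 8 : ℝ) := ⟨_, rfl⟩
  have ρ0 : 0 ≤ ρ := by rw [hρ]; positivity
  have ρ1 : ρ < 1 := hρ ▸ Real.rpow_lt_one (by norm_num) (by norm_num) (by norm_num)
  have hC : 0 < (1 - ρ)⁻¹ := inv_pos.2 (sub_pos.2 ρ1)
  refine ⟨(1 - ρ)⁻¹ + (1 - ρ)⁻¹, add_pos hC hC, fun L K p => ?_⟩
  have hΓ : 0 ≤ Gam L.r2 K p := Gam_nonneg (L.rho2_nonneg _) K p
  rcases (dd_nonneg K p).eq_or_lt with hd | hd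
  · simpa [Lat.psi, ← hd] using (add_pos hC hC).le
  unfold Lat.psi
  generalize Gam L.r2 K p = Γ at *
  generalize dd K p = d at *
  have hex : ∃ k : ℕ, Γ ≤ 4 ^ k * d := (pow_unbounded_of_one_lt (Γ / d) (by norm_num)).imp
    fun _ h => ((div_lt_iff₀ hd).1 h).le
  have key : ∀ (m j : ℕ), 4 ^ m * d * Γ * 4 ^ j ≤ (4 ^ m * d + Γ) ^ 2 →
      (4 ^ m * d * Γ / (4 ^ m * d + Γ) ^ 2) ^ (1 / 8 : ℝ) ≤ ρ ^ j := fun m j h => by
    rw [hρ, Real.rpow_pow_comm (by norm_num)]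
    refine Real.rpow_le_rpow (by positivity) ?_ (by norm_num)
    rwa [one_div_pow, div_le_div_iff₀ (by positivity) (by positivity), one_mul]
  refine le_trans (sum_le_sum fun m _ => ?_) ((sum_add_distrib).trans_le (add_le_add
    (geo_up ρ0 ρ1 (range L.N) (Nat.find hex)) (geo_dn ρ0 ρ1 (range L.N) (Nat.find hex - 1))))
  have a0 : 0 < 4 ^ m * d := by positivity
  by_cases h : Nat.find hex ≤ m
  · rw [if_pos h]
    refine le_add_of_le_of_nonneg (key _ _ ?_) (by split_ifs <;> positivity)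
    have h1 := mul_le_mul_of_nonneg_right (Nat.find_spec hex)
      (by positivity : (0 : ℝ) ≤ 4 ^ (m - Nat.find hex))
    rw [mul_right_comm, ← pow_add, Nat.add_sub_cancel' h] at h1
    nlinarith [mul_le_mul_of_nonneg_left h1 a0.le, mul_nonneg a0.le hΓ]
  · rw [if_neg h, if_pos (by omega), zero_add]
    refine key _ _ ?_
    have h1 := not_le.1 (Nat.find_min hex (show Nat.find hex - 1 < Nat.find hex by omega))
    rw [show Nat.find hex - 1 = m + (Nat.find hex - 1 - m) by omega, pow_add] at h1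
    nlinarith [mul_le_mul_of_nonneg_left h1.le hΓ, mul_nonneg a0.le hΓ]

end Crest.Agent.N334.G
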