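import Mathlib

/-!
# Row 334, S0519 (helper56): shared definitions (ports, cavity, laws, ensembles, functionals)

Conventions.  Sites `x : L.X`; ports `p : L.P = X × Bool`, `(x,false)` passive (strength `η`),
`(x,true)` active (strength `γ x`).  `K = 2i √g √g G`, `S = 1 + K` symmetric unitary.
-/

set_option autoImplicit false

open MeasureTheory Finset Complex
open scoped BigOperators ComplexConjugate

noncomputable section

namespace Crest.Agent.N334.G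

/-- finite lattice with dyadic characters (the torus `(ZMod (2^N))²` is the example) -/
structure Lat where
  X : Type
  [fin : Fintype X]
  [dec : DecidableEq X]
  N : ℕ
  hN : 1 ≤ N
  U : ℕ → Fin 2 → X → ℂ
  norm_U : ∀ m i x, ‖U m i x‖ = 1
  U_zero : ∀ i x, U 0 i x = 1
  U_succ : ∀ m i x, m < N → U m i x = U (m + 1) i x ^ 2
  A : Matrix X X ℝ
  A_symm : ∀ x y, A x y = A y x
  A_row : ∀ x, ∑ y, |A x y| ≤ 4
  A_loc : ∀ x y, A x y ≠ 0 → (4 : ℝ) ^ N * ∑ i, ‖U N i x - U N i y‖ ^ 2 ≤ 40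
  ball_le : ∀ x (R2 : ℝ), 0 ≤ R2 →
    ((univ.filter fun c => (4 : ℝ) ^ N * ∑ i, ‖U N i x - U N i c‖ ^ 2 ≤ R2).card : ℝ) ≤ 2 + R2
  ball_ge : ∀ x m, m < N → (4 : ℝ) ^ m ≤
    400 * ((univ.filter fun c => (4 : ℝ) ^ N * ∑ i, ‖U N i x - U N i c‖ ^ 2 ≤ 4 ^ m).card : ℝ)

attribute [instance] Lat.fin Lat.dec

/-! ### functionals of a port matrix -/

section mat
variable {P : Type} [Fintype P] [DecidableEq P]

/-- `1 + K` is symmetric and unitary -/
structure IsPort (K : P → P → ℂ) : Prop where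
  symm : ∀ p q, K p q = K q p
  unit : ∀ p q, ∑ r, conj (K r p) * K r q = -(K p q + conj (K p q))

def cc (K : P → P → ℂ) (p q : P) : ℝ := ‖K p q‖ ^ 2
def dd (K : P → P → ℂ) (p : P) : ℝ := ∑ q, cc K p q
def nu (K : P → P → ℂ) (p : P) : ℝ := 2 * dd K p - cc K p p
def Gam (w : P → P → ℝ) (K : P → P → ℂ) (p : P) : ℝ := ∑ q, cc K p q * w p q
def En (w : P → P → ℝ) (K : P → P → ℂ) : ℝ := ∑ p, Gam w K p
/-- squared Euclidean distance of a vector-valued function -/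
def wt {ι : Type} [Fintype ι] (Φ : ι → P → ℝ) (p q : P) : ℝ := ∑ j, (Φ j p - Φ j q) ^ 2
def mv (f : P → ℝ) (K : P → P → ℂ) (p : P) : ℝ := ∑ q, cc K p q * (f q - f p)
/-- the gain of one halving -/
def Gn {ι : Type} [Fintype ι] (Φ : ι → P → ℝ) (K : P → P → ℂ) (p : P) : ℝ :=
  (∑ j, mv (Φ j) K p ^ 2) / nu K p
/-- `S = 1 + K` -/
def Sm (K : P → P → ℂ) (p q : P) : ℂ := (if p = q then 1 else 0) + K p q
/-- `T = S* f S - f` -/
def Tm (f : P → ℝ) (K : P → P → ℂ) (p q : P) : ℂ :=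
  ∑ r, conj (Sm K r p) * (f r : ℂ) * Sm K r q - if p = q then (f p : ℂ) else 0
/-- measurable and bounded on port matrices -/
structure Nice (F : (P → P → ℂ) → ℝ) : Prop where
  meas : Measurable F
  bdd : ∃ M, ∀ K, IsPort K → |F K| ≤ M

/-- the cubic form that controls first-order bias terms -/
def Th3 (h : P → ℝ) (U : P → ℂ) (K : P → P → ℂ) (y : P) : ℂ :=
  ∑ p, ∑ q, (h p : ℂ) * conj (K p q) * K p y * K q y * ((‖U p - U q‖ ^ 4 : ℝ) : ℂ)
def zz (s : ℂ) (a γ : ℝ) : ℂ := 1 / ((a : ℂ) - I * γ - s)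

/-- cavity at the port `y`: `K(a,γ) = K0 + 2i z v vᵀ`, `z = 1/(a - iγ - s)`, `v = ρ + √γ e_y` -/
structure Cav (y : P) where
  K0 : P → P → ℂ
  rho : P → ℂ
  s : ℂ
  port0 : IsPort K0
  K0_y : ∀ p, K0 p y = 0
  rho_y : rho y = 0
  im_s : s.im = ∑ p, ‖rho p‖ ^ 2
  s_pos : 0 < s.im
  fix : ∀ p, ∑ q, K0 p q * conj (rho q) = rho p - conj (rho p)

namespace Cav
variable {y : P} (c : Cav y)
def z (a γ : ℝ) : ℂ := zz c.s a γ
def J (γ : ℝ) : ℝ := γ + c.s.im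
def vec (γ : ℝ) (p : P) : ℂ := if p = y then (Real.sqrt γ : ℂ) else c.rho p
def K (a γ : ℝ) (p q : P) : ℂ := c.K0 p q + 2 * I * c.z a γ * c.vec γ p * c.vec γ q
def V (w : P → P → ℝ) : ℝ := ∑ p, ‖c.rho p‖ ^ 2 * w y p
/-- the bias quantity `(γ/b) Γ_y(reference)` -/
def Bq (a0 b γ : ℝ) (w : P → P → ℝ) : ℝ := 4 * γ * ‖c.z a0 b‖ ^ 2 * c.V w
end Cav
end mat

/-! ### one-dimensional objects -/

/-- the smooth site law: centre `a0`, half-width `b` -/
def lawD (a0 b a : ℝ) : ℝ := 15 / (16 * b) * (max (1 - ((a - a0) / b) ^ 2) 0) ^ 2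
def law (a0 b : ℝ) : Measure ℝ := volume.withDensity fun a => ENNReal.ofReal (lawD a0 b a)
/-- Cauchy density of scale `δ` -/
def cau (δ x : ℝ) : ℝ := δ / (Real.pi * (x ^ 2 + δ ^ 2))
/-- the point of the circle `|u - i/2| = 1/2` -/
def uu (t : ℝ) : ℂ := 1 / ((t : ℂ) - I)
/-- real affine function of `uu t` -/
def IsAff (q : ℝ → ℝ) (qb : ℝ) : Prop := ∃ β : ℂ, ∀ t, q t = qb + (β * (uu t - I / 2)).re
/-- good site: resonance well inside the window, `a` near the resonance -/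
def Good (a0 b γ : ℝ) (s : ℂ) (a : ℝ) : Prop :=
  0 < b - |s.re - a0| ∧ 2 * (γ + s.im) * b ≤ (b - |s.re - a0|) ^ 2 ∧
    |a - s.re| ≤ (b - |s.re - a0|) / 2

/-- bounded and measurable -/
structure BM {α : Type} [MeasurableSpace α] (F : α → ℝ) : Prop where
  meas : Measurable F
  bdd : ∃ M, ∀ a, |F a| ≤ M
/-- partial derivatives of `f(n,d) = -n log (n/d + ε)` at `θ = n/d`, and the Bregman remainder -/
def fn (ε θ : ℝ) : ℝ := -Real.log (θ + ε) - θ / (θ + ε)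
def fd (ε θ : ℝ) : ℝ := θ ^ 2 / (θ + ε)
def Br (ε n d n' d' : ℝ) : ℝ := fn ε (n / d) * n' + fd ε (n / d) * d' + n' * Real.log (n' / d' + ε)

namespace Lat
variable (L : Lat)

abbrev P : Type := L.X × Bool
abbrev Mat : Type := L.P → L.P → ℂ

/-! ### geometry -/
def del (m : ℕ) (i : Fin 2) (x y : L.X) : ℝ := ‖L.U m i x - L.U m i y‖ ^ 2
def rx (x y : L.X) : ℝ := 4 ^ L.N * ∑ i, L.del L.N i x y
def rho2 (m : ℕ) (p q : L.P) : ℝ := 4 ^ m * ∑ i, L.del m i p.1 q.1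
/-- squared chordal distance -/
def r2 (p q : L.P) : ℝ := L.rho2 L.N p q
def s4 (m : ℕ) (p q : L.P) : ℝ := ∑ i, L.del (m + 1) i p.1 q.1 ^ 2
def Phi (m : ℕ) (j : Fin 2 × Bool) (p : L.P) : ℝ :=
  2 ^ m * if j.2 then (L.U m j.1 p.1).re else (L.U m j.1 p.1).im
def al0 (m m' : ℕ) : ℝ := if m' ≤ m then (1 / 16) ^ (m - m') else (1 / 2) ^ (m' - m)
def al (m m' : ℕ) : ℝ := al0 m m' * 4 ^ m' / ∑ k ∈ range L.N, 4 ^ k * al0 k m'
/-- smoothed indicator of `distance ≳ 2^m`; `∑_{m<N} 4^m wh m = r2` -/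
def wh (m : ℕ) (p q : L.P) : ℝ := ∑ m' ∈ range L.N, L.al m m' * L.s4 m' p q
/-- the dyadic scale of a squared length -/
def sc (x : ℝ) : ℕ := min (L.N - 1) (Nat.log 4 ⌊x⌋₊)
/-- weight of the inverse stereographic map with centre `c` and squared radius `R2` -/
def wF (c : L.X) (R2 : ℝ) (p q : L.P) : ℝ :=
  4 * (L.r2 p q / R2) / ((1 + L.rx p.1 c / R2) * (1 + L.rx q.1 c / R2))

/-! ### depth -/
def nn (K : L.Mat) (p : L.P) (m : ℕ) : ℝ := Gam (L.wh m) K p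
def th (K : L.Mat) (p : L.P) (m : ℕ) : ℝ := L.nn K p m / dd K p
def gd (Y : Finset L.X) (i : ℝ) (K : L.Mat) (p : L.P) (m : ℕ) : ℝ :=
  if p.2 = true ∧ p.1 ∈ Y then -Real.log (L.th K p m + Real.exp (-i)) else i
def Pot (Y : Finset L.X) (i : ℝ) (K : L.Mat) : ℝ :=
  ∑ p, ∑ m ∈ range L.N, 4 ^ m * (L.nn K p m * L.gd Y i K p m)
def Red (Y : Finset L.X) (i : ℝ) (K : L.Mat) (y : L.P) : ℝ :=
  ∑ m ∈ range L.N, 4 ^ m * L.nn K y m *
    ∑ p ∈ univ.erase y, cc K y p / nu K y * (L.gd Y i K p m - L.gd Y i K y m)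
def Hub (Y1 Y : Finset L.X) (i j j' : ℝ) (K : L.Mat) : ℝ :=
  ∑ y ∈ Y1, ∑ m ∈ range L.N, if L.gd Y i K (y, true) m ≤ j then
    4 ^ m * L.th K (y, true) m * ∑ p, if j' ≤ L.gd Y i K p m then cc K (y, true) p else 0 else 0
/-- energy at shallow scales of the port `p` -/
def Sh (i1 : ℝ) (K : L.Mat) (p : L.P) : ℝ :=
  ∑ m ∈ range L.N, if Real.exp (-i1) ≤ L.th K p m then 4 ^ m * L.nn K p m else 0
def GN (K : L.Mat) (p : L.P) : ℝ := Gn (L.Phi L.N) K p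
def T2 (K : L.Mat) (p q : L.P) : ℝ := ∑ j, ‖Tm (L.Phi L.N j) K p q‖ ^ 2
def psi (K : L.Mat) (p : L.P) (m : ℕ) : ℝ :=
  (4 ^ m * dd K p * Gam L.r2 K p / (4 ^ m * dd K p + Gam L.r2 K p) ^ 2) ^ (1 / 8 : ℝ)
def ph (K : L.Mat) (x y : L.P) : ℝ := cc K x y * L.T2 K x y / (dd K x * dd K y + cc K x y)
def XX (K : L.Mat) (x y z : L.P) : ℝ :=
  cc K x y * cc K x z * L.T2 K z y /
    (dd K x * (dd K y + cc K x y / dd K x) * (dd K z + cc K x z / dd K x))
def Om (i : ℝ) (K : L.Mat) (m : ℕ) (x z : L.P) : ℝ :=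
  (Real.exp i * L.nn K z m + cc K x z / dd K x) / (dd K z + cc K x z / dd K x)
/-- main term of the rigidity estimate in the cell `(c, m)`; `Gd` = good sites -/
def Main (Y Gd : Finset L.X) (i Λ2 : ℝ) (K : L.Mat) (c : L.X) (m : ℕ) : ℝ :=
  ∑ y ∈ Y.filter (fun y => L.rx y c ≤ 4 ^ m), L.psi K (y, true) m * (L.GN K (y, true) +
    ∑ x ∈ (Gd.erase y).filter
        (fun x => L.rx x c ≤ Λ2 * 4 ^ m ∧ Real.exp (-i) ≤ L.th K (x, true) m),
      (L.ph K (x, true) (y, true) +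
        ∑ z ∈ ((Y.erase y).erase x).filter (fun z => L.rx z c ≤ Λ2 * 4 ^ m),
          L.Om i K m (x, true) (z, true) * L.XX K (x, true) (y, true) (z, true)))
/-- local energy of the cell `(c, m)` -/
def kap (Λ2 : ℝ) (c : L.X) (m : ℕ) (K : L.Mat) : ℝ := En (L.wF c (Λ2 * 4 ^ m)) K

/-! ### the model -/
def Gr (w : L.X → ℂ) : Matrix L.X L.X ℂ := (L.A.map Complex.ofReal + Matrix.diagonal w)⁻¹
def wv (E η : ℝ) (γ a : L.X → ℝ) (x : L.X) : ℂ := (a x : ℂ) - E - I * (η + γ x)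
def str (η : ℝ) (γ : L.X → ℝ) (p : L.P) : ℝ := if p.2 then γ p.1 else η
def Km (E η : ℝ) (γ a : L.X → ℝ) : L.Mat := fun p q =>
  2 * I * (Real.sqrt (L.str η γ p) : ℂ) * (Real.sqrt (L.str η γ q) : ℂ) *
    L.Gr (L.wv E η γ a) p.1 q.1
/-- cavity self-energy at `y` -/
def sE (E η : ℝ) (γ a : L.X → ℝ) (y : L.X) : ℂ :=
  (a y : ℂ) - I * γ y - 1 / L.Gr (L.wv E η γ a) y y
/-- the matrix with the site `y` at the reference value `a0 - i b` -/
def Kref (E η : ℝ) (γ a : L.X → ℝ) (y : L.X) (a0 b : ℝ) : L.Mat :=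
  L.Km E η (Function.update γ y b) (Function.update a y a0)
end Lat

/-- static ensemble: strengths `γ` fixed, potentials independent; sites of `Y` have a smooth law -/
structure Stat (L : Lat) where
  E : ℝ
  η : ℝ
  η_pos : 0 < η
  η_le : η ≤ 1
  Y : Finset L.X
  mu : L.X → Measure ℝ
  [prob : ∀ x, IsProbabilityMeasure (mu x)]
  a0 : L.X → ℝ
  b : L.X → ℝ
  γ : L.X → ℝ
  γ_nonneg : ∀ x, 0 ≤ γ x
  γ_le : ∀ x, γ x ≤ 1
  hY : ∀ x ∈ Y, mu x = law (a0 x) (b x) ∧ 0 < b x ∧ b x ≤ 1 ∧ γ x ≤ b x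

attribute [instance] Stat.prob

namespace Stat
variable {L : Lat} (st : Stat L)
def Ia (F : (L.X → ℝ) → ℝ) : ℝ := ∫ a, F a ∂Measure.pi st.mu
def Ig (γ : L.X → ℝ) (F : L.Mat → ℝ) : ℝ := st.Ia fun a => F (L.Km st.E st.η γ a)
def I0 (F : L.Mat → ℝ) : ℝ := st.Ig st.γ F
/-- drift: the sites of `Y1` move one at a time from `γ y` to `γ' y` -/
def dr (Y1 : Finset L.X) (γ' : L.X → ℝ) (F : L.Mat → ℝ) : ℝ :=
  ∑ y ∈ Y1, (st.Ig (Function.update st.γ y (γ' y)) F - st.I0 F)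
def half : L.X → ℝ := fun x => st.γ x / 2
def Kr (a : L.X → ℝ) (y : L.X) : L.Mat := L.Kref st.E st.η st.γ a y (st.a0 y) (st.b y)
/-- total bias with a tempered weight `W` evaluated at the reference matrix -/
def IB (Y1 : Finset L.X) (W : L.Mat → ℝ) (w : L.P → L.P → ℝ) : ℝ :=
  st.Ia fun a => ∑ y ∈ Y1, W (st.Kr a y) * (st.γ y / st.b y * Gam w (st.Kr a y) (y, true))
open Classical in
def Gd (a : L.X → ℝ) : Finset L.X :=
  st.Y.filter fun y => Good (st.a0 y) (st.b y) (st.γ y) (L.sE st.E st.η st.γ a y) (a y)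
end Stat

/-! ### ensembles with random levels -/

/-- levels: `none` = closed, `some j` = strength `g0 * 2^{-j}` -/
abbrev Lv (n : ℕ) : Type := Option (Fin (n + 1))
def fac {n : ℕ} : Lv n → ℝ
  | none => 0
  | some j => (1 / 2) ^ (j : ℕ)
def hlf {n : ℕ} : Lv n → Lv n
  | none => none
  | some j => if h : (j : ℕ) + 1 < n + 1 then some ⟨j + 1, h⟩ else some j

/-- a finite mixture (labels) of static ensembles; `(S l).γ` is the strength at level `0` -/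
structure Ens (L : Lat) where
  Ω : Type
  [fin : Fintype Ω]
  pr : Ω → ℝ
  pr_nonneg : ∀ l, 0 ≤ pr l
  pr_sum : ∑ l, pr l = 1
  S : Ω → Stat L

attribute [instance] Ens.fin

/-- the static ensemble at the levels `lam` -/
def Stat.lev {L : Lat} (st : Stat L) {n : ℕ} (lam : L.X → Lv n) : Stat L :=
  { st with
    γ := fun x => st.γ x * fac (lam x)
    γ_nonneg := fun x => mul_nonneg (st.γ_nonneg x) (by cases lam x <;> simp [fac])
    γ_le := fun x => mul_le_one₀ (st.γ_le x) (by cases lam x <;> simp [fac])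
      (by cases lam x <;> simp [fac, inv_le_one_iff₀, one_le_pow₀])
    hY := fun x hx => ⟨(st.hY x hx).1, (st.hY x hx).2.1, (st.hY x hx).2.2.1,
      (mul_le_of_le_one_right (st.γ_nonneg x)
        (by cases lam x <;> simp [fac, inv_le_one_iff₀, one_le_pow₀])).trans
        (st.hY x hx).2.2.2⟩ }

/-- average over labels and independent levels -/
def Ens.Ex {L : Lat} (e : Ens L) {n : ℕ} (q : e.Ω → L.X → Lv n → ℝ)
    (Q : e.Ω → (L.X → Lv n) → ℝ) : ℝ :=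
  ∑ l, e.pr l * ∑ lam : L.X → Lv n, (∏ x, q l x (lam x)) * Q l lam
/-- average of a quantity of the static ensemble -/
def Ens.ExS {L : Lat} (e : Ens L) {n : ℕ} (q : e.Ω → L.X → Lv n → ℝ) (Q : Stat L → ℝ) : ℝ :=
  e.Ex q fun l lam => Q ((e.S l).lev lam)
/-- bias principle for the energy -/
def Ens.BPq {L : Lat} (e : Ens L) {n : ℕ} (q : e.Ω → L.X → Lv n → ℝ) (ε err : ℝ) : Prop :=
  e.ExS q (fun st => st.IB st.Y (fun _ => 1) L.r2) ≤
    ε * e.ExS q (fun st => st.I0 (En L.r2)) + err * Fintype.card L.X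
/-- tempered bias principle for the local energies -/
def Ens.BPk {L : Lat} (e : Ens L) {n : ℕ} (q : e.Ω → L.X → Lv n → ℝ) (ε lam : ℝ) (p : ℕ) : Prop :=
  ∀ (c : L.X) (R2 : ℝ), 1 ≤ R2 →
    e.ExS q (fun st => st.IB st.Y (fun K => (lam + En (L.wF c R2) K) ^ (p - 1)) (L.wF c R2)) ≤
      ε * e.ExS q (fun st => st.I0 fun K => (lam + En (L.wF c R2) K) ^ p)

/-- `q` is the law of a rate-one jump chain `l ↦ nxt l` -/
structure IsFlow {n : ℕ} (nxt : Lv n → Lv n) (q : ℝ → Lv n → ℝ) : Prop where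
  nonneg : ∀ t, 0 ≤ t → ∀ l, 0 ≤ q t l
  sum : ∀ t, ∑ l, q t l = 1
  deriv : ∀ t l, HasDerivAt (fun s => q s l)
    ((∑ l' ∈ univ.filter (fun l' => nxt l' = l), q t l') - q t l) t

end Crest.Agent.N334.G
end
private theorem rz_4772c072e8 : type_of% @_root_.Crest.Agent.N334.G.fac.eq_1 := @_root_.Crest.Agent.N334.G.fac.eq_1 -- L243
private theorem rz_d373f54c9e : type_of% @_root_.Crest.Agent.N334.G.hlf.eq_1 := @_root_.Crest.Agent.N334.G.hlf.eq_1 -- L246
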