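import Crest.Agent.N334.G.Law

-- ▼ part N334/G/Qs0
section

/-!
# Row 334, S0519 GAIN: regularity of the smooth law against even and odd kernels (for `G/Qs`)
-/

set_option autoImplicit false

open MeasureTheory Finset Complex
open scoped BigOperators ComplexConjugate

noncomputable section

namespace Crest.Agent.N334.G.Qs

/-- the profile of the law -/
def ph (u : ℝ) : ℝ := (max (1 - u ^ 2) 0) ^ 2

theorem lawD_eq (a0 b a : ℝ) : lawD a0 b a = 15 / (16 * b) * ph ((a - a0) / b) := rfl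

theorem max_le_one (u : ℝ) : max (1 - u ^ 2) 0 ≤ 1 :=
  max_le (by nlinarith [sq_nonneg u]) zero_le_one

theorem ph_nonneg (u : ℝ) : 0 ≤ ph u := sq_nonneg _

theorem ph_le (u : ℝ) : ph u ≤ 1 := by
  have h0 : 0 ≤ max (1 - u ^ 2) 0 := le_max_right _ _
  have := max_le_one u
  unfold ph; nlinarith

theorem ph_zero {u : ℝ} (h : 1 ≤ |u|) : ph u = 0 := by
  unfold ph
  have : 1 ≤ u ^ 2 := by rw [← sq_abs]; nlinarith
  rw [max_eq_right (by linarith)]; simp

theorem taylor (t t' : ℝ) :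
    |(max t' 0) ^ 2 - (max t 0) ^ 2 - 2 * max t 0 * (t' - t)| ≤ (t' - t) ^ 2 := by
  rw [abs_le]
  rcases le_total t 0 with h | h <;> rcases le_total t' 0 with h' | h' <;>
    simp only [max_eq_left, max_eq_right, h, h'] <;> constructor <;>
    nlinarith [sq_nonneg t, sq_nonneg t', sq_nonneg (t' - t)]

theorem ph_two (u c : ℝ) : |ph (u + c) + ph (u - c) - 2 * ph u| ≤ 76 * c ^ 2 / (1 + c ^ 2) := by
  rw [le_div_iff₀ (by positivity)]
  by_cases hc : 1 ≤ c ^ 2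
  · have : |ph (u + c) + ph (u - c) - 2 * ph u| ≤ 2 := by
      rw [abs_le]
      constructor <;>
        linarith [ph_nonneg (u + c), ph_nonneg (u - c), ph_nonneg u, ph_le (u + c), ph_le (u - c),
          ph_le u]
    nlinarith
  push Not at hc
  have hc1 : |c| ≤ 1 := by rw [← sq_abs] at hc; nlinarith [abs_nonneg c]
  suffices h : |ph (u + c) + ph (u - c) - 2 * ph u| ≤ 38 * c ^ 2 by
    nlinarith [sq_nonneg c, abs_nonneg (ph (u + c) + ph (u - c) - 2 * ph u)]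
  by_cases hu : 2 ≤ |u|
  · have h1 : 1 ≤ |u + c| := by
      have := abs_sub (u + c) c
      rw [add_sub_cancel_right] at this; linarith
    have h2 : 1 ≤ |u - c| := by
      have := abs_add_le (u - c) c
      rw [sub_add_cancel] at this; linarith
    rw [ph_zero h1, ph_zero h2, ph_zero (u := u) (by linarith)]
    simp; positivity
  push Not at hu
  have hu2 : u ^ 2 ≤ 4 := by rw [← sq_abs]; nlinarith [abs_nonneg u]
  have t1 := abs_le.1 (taylor (1 - u ^ 2) (1 - (u + c) ^ 2))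
  have t2 := abs_le.1 (taylor (1 - u ^ 2) (1 - (u - c) ^ 2))
  have h0 : 0 ≤ max (1 - u ^ 2) 0 := le_max_right _ _
  have h1 := max_le_one u
  have e : (1 - (u + c) ^ 2 - (1 - u ^ 2)) ^ 2 + (1 - (u - c) ^ 2 - (1 - u ^ 2)) ^ 2 =
      8 * (u ^ 2 * c ^ 2) + 2 * (c ^ 2 * c ^ 2) := by ring
  have e2 : 2 * max (1 - u ^ 2) 0 * (1 - (u + c) ^ 2 - (1 - u ^ 2)) +
      2 * max (1 - u ^ 2) 0 * (1 - (u - c) ^ 2 - (1 - u ^ 2)) =
      -4 * (max (1 - u ^ 2) 0 * c ^ 2) := by ring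
  have b1 : u ^ 2 * c ^ 2 ≤ 4 * c ^ 2 := by gcongr
  have b2 : c ^ 2 * c ^ 2 ≤ 1 * c ^ 2 := by gcongr
  have b3 : max (1 - u ^ 2) 0 * c ^ 2 ≤ 1 * c ^ 2 := by gcongr
  have b4 : 0 ≤ max (1 - u ^ 2) 0 * c ^ 2 := by positivity
  unfold ph
  rw [abs_le]
  constructor <;> nlinarith [sq_nonneg c]

theorem ph_lip (u v : ℝ) : |ph v - ph u| ≤ 10 * |v - u| := by
  by_cases hc : 1 ≤ |v - u|
  · have : |ph v - ph u| ≤ 1 := by
      rw [abs_le]
      constructor <;> linarith [ph_nonneg u, ph_nonneg v, ph_le u, ph_le v]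
    linarith
  push Not at hc
  have hv := abs_sub v (v - u)
  have hv' := abs_add_le u (v - u)
  rw [sub_sub_cancel] at hv
  rw [add_sub_cancel] at hv'
  by_cases hu : 2 ≤ |u|
  · rw [ph_zero (u := v) (by linarith), ph_zero (u := u) (by linarith)]
    simp
  push Not at hu
  have h1 : |max (1 - v ^ 2) 0 - max (1 - u ^ 2) 0| ≤ 5 * |v - u| := by
    refine (abs_max_sub_max_le_abs _ _ _).trans ?_
    have e : 1 - v ^ 2 - (1 - u ^ 2) = -((v + u) * (v - u)) := by ring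
    rw [e, abs_neg, abs_mul]
    have := abs_add_le v u
    gcongr
    linarith
  have h2 : |max (1 - v ^ 2) 0 + max (1 - u ^ 2) 0| ≤ 2 := by
    rw [abs_of_nonneg (by positivity)]
    linarith [max_le_one u, max_le_one v]
  have e : ph v - ph u = (max (1 - v ^ 2) 0 + max (1 - u ^ 2) 0) *
      (max (1 - v ^ 2) 0 - max (1 - u ^ 2) 0) := by unfold ph; ring
  rw [e, abs_mul]
  calc _ ≤ 2 * (5 * |v - u|) := by gcongr
    _ = _ := by ring

theorem lawD_two (a0 : ℝ) {b : ℝ} (hb : 0 < b) (x c : ℝ) :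
    |lawD a0 b (x + c) + lawD a0 b (x - c) - 2 * lawD a0 b x| ≤
      72 * c ^ 2 / (b * (c ^ 2 + b ^ 2)) := by
  have h := ph_two ((x - a0) / b) (c / b)
  have e1 : (x + c - a0) / b = (x - a0) / b + c / b := by ring
  have e2 : (x - c - a0) / b = (x - a0) / b - c / b := by ring
  have e : lawD a0 b (x + c) + lawD a0 b (x - c) - 2 * lawD a0 b x = 15 / (16 * b) *
      (ph ((x - a0) / b + c / b) + ph ((x - a0) / b - c / b) - 2 * ph ((x - a0) / b)) := by
    simp only [lawD_eq, e1, e2]; ring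
  rw [e, abs_mul, abs_of_pos (by positivity : 0 < 15 / (16 * b))]
  calc _ ≤ 15 / (16 * b) * (76 * (c / b) ^ 2 / (1 + (c / b) ^ 2)) := by gcongr
    _ = (285 / 4) * c ^ 2 / (b * (c ^ 2 + b ^ 2)) := by field_simp; ring
    _ ≤ _ := by gcongr; norm_num

theorem lawD_lip (a0 : ℝ) {b : ℝ} (hb : 0 < b) (x c : ℝ) :
    |lawD a0 b (x + c) - lawD a0 b x| ≤ 10 / b ^ 2 * |c| := by
  have h := ph_lip ((x - a0) / b) ((x + c - a0) / b)
  have e1 : (x + c - a0) / b - (x - a0) / b = c / b := by ring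
  rw [e1, abs_div, abs_of_pos hb] at h
  rw [lawD_eq, lawD_eq, ← mul_sub, abs_mul, abs_of_pos (by positivity : 0 < 15 / (16 * b))]
  calc _ ≤ 15 / (16 * b) * (10 * (|c| / b)) := by gcongr
    _ = (75 / 8) / b ^ 2 * |c| := by field_simp; ring
    _ ≤ _ := by gcongr; norm_num

theorem int_shift (a0 : ℝ) {b : ℝ} (hb : 0 < b) {k : ℝ → ℝ} (hk : Integrable k) {g : ℝ → ℝ}
    (hg : Continuous g) : Integrable fun c => lawD a0 b (g c) * k c :=
  hk.bdd_mul (c := 1 / b) ((continuous_lawD a0 b).comp hg).aestronglyMeasurable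
    (ae_of_all _ fun c => by
      rw [Real.norm_eq_abs, abs_of_nonneg (lawD_nonneg a0 hb _)]; exact lawD_le a0 hb _)

/-- even kernels see only second differences -/
theorem even_ker (a0 : ℝ) {b : ℝ} (hb : 0 < b) (x : ℝ) {k : ℝ → ℝ} (hk : Integrable k)
    (he : ∀ c, k (-c) = k c) {κ : ℝ} (hκ : ∀ c, c ^ 2 * |k c| ≤ κ) :
    |(∫ c, lawD a0 b (x + c) * k c) - lawD a0 b x * ∫ c, k c| ≤ 36 * Real.pi * κ / b ^ 2 := by
  have i1 := int_shift a0 hb hk (g := fun c => x + c) (by fun_prop)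
  have i2 := int_shift a0 hb hk (g := fun c => x - c) (by fun_prop)
  have i3 : Integrable fun c => lawD a0 b (x + c) * k c + lawD a0 b (x - c) * k c := i1.add i2
  have e1 : ∫ c, lawD a0 b (x - c) * k c = ∫ c, lawD a0 b (x + c) * k c := by
    rw [← integral_neg_eq_self]
    simp only [he, sub_neg_eq_add]
  have e2 : ∫ c, (lawD a0 b (x + c) + lawD a0 b (x - c) - 2 * lawD a0 b x) * k c =
      2 * ((∫ c, lawD a0 b (x + c) * k c) - lawD a0 b x * ∫ c, k c) := by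
    have : (fun c => (lawD a0 b (x + c) + lawD a0 b (x - c) - 2 * lawD a0 b x) * k c) = fun c =>
        (lawD a0 b (x + c) * k c + lawD a0 b (x - c) * k c) - 2 * lawD a0 b x * k c := by
      funext c; ring
    rw [this, integral_sub i3 (hk.const_mul _), integral_add i1 i2, e1, integral_const_mul]
    ring
  have h := norm_integral_le_of_norm_le
    (f := fun c => (lawD a0 b (x + c) + lawD a0 b (x - c) - 2 * lawD a0 b x) * k c)
    ((Law.pois hb 0).1.const_mul (72 * κ / b ^ 2)) (ae_of_all _ fun c => by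
      rw [Real.norm_eq_abs, abs_mul]
      calc _ ≤ 72 * c ^ 2 / (b * (c ^ 2 + b ^ 2)) * |k c| := by
            gcongr; exact lawD_two a0 hb x c
        _ = 72 / (b * (c ^ 2 + b ^ 2)) * (c ^ 2 * |k c|) := by ring
        _ ≤ 72 / (b * (c ^ 2 + b ^ 2)) * κ := by gcongr; exact hκ c
        _ = _ := by rw [sub_zero]; field_simp)
  rw [e2, integral_const_mul, (Law.pois hb 0).2, Real.norm_eq_abs, abs_mul, abs_two] at h
  have e3 : 72 * κ / b ^ 2 * Real.pi = 2 * (36 * Real.pi * κ / b ^ 2) := by ring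
  linarith

/-- odd kernels see only first differences -/
theorem odd_ker (a0 : ℝ) {b : ℝ} (hb : 0 < b) (x : ℝ) {k h : ℝ → ℝ} (hk : Integrable k)
    (ho : ∀ c, k (-c) = -k c) (hh : Integrable h) (hκ : ∀ c, |c| * |k c| ≤ h c) :
    |∫ c, lawD a0 b (x + c) * k c| ≤ 10 / b ^ 2 * ∫ c, h c := by
  have i1 := int_shift a0 hb hk (g := fun c => x + c) (by fun_prop)
  have e1 : ∫ c, k c = 0 := by
    have := integral_neg_eq_self k volume
    simp only [ho, integral_neg] at this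
    linarith
  have e2 : ∫ c, (lawD a0 b (x + c) - lawD a0 b x) * k c = ∫ c, lawD a0 b (x + c) * k c := by
    simp only [sub_mul]
    rw [integral_sub i1 (hk.const_mul _), integral_const_mul, e1]; simp
  have h1 := norm_integral_le_of_norm_le
    (f := fun c => (lawD a0 b (x + c) - lawD a0 b x) * k c)
    (hh.const_mul (10 / b ^ 2)) (ae_of_all _ fun c => by
      rw [Real.norm_eq_abs, abs_mul]
      calc _ ≤ 10 / b ^ 2 * |c| * |k c| := by gcongr; exact lawD_lip a0 hb x c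
        _ = 10 / b ^ 2 * (|c| * |k c|) := by ring
        _ ≤ _ := by gcongr; exact hκ c)
  rwa [e2, integral_const_mul, Real.norm_eq_abs] at h1

/-- Fubini for the ideal step -/
theorem fub (a0 : ℝ) {b δ : ℝ} (hb : 0 < b) (hδ : 0 < δ) {F : ℝ → ℝ} (hF : BM F) :
    Integrable (fun a' => (∫ a, lawD a0 b a * cau δ (a' - a)) * F a') ∧
    Integrable (fun a => ∫ a', cau δ (a' - a) * F a') (law a0 b) ∧
    ∫ a', (∫ a, lawD a0 b a * cau δ (a' - a)) * F a' =
      ∫ a, (∫ a', cau δ (a' - a) * F a') ∂law a0 b := by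
  obtain ⟨M, hM⟩ := hF.bdd
  have hc : Integrable (cau δ) := by simpa using (cau_integral hδ 0).1
  have h0 := (Law.integrable_lawD a0 hb).convolution_integrand (ContinuousLinearMap.mul ℝ ℝ) hc
  simp only [ContinuousLinearMap.mul_apply'] at h0
  have h1 : Integrable (fun p : ℝ × ℝ => lawD a0 b p.2 * cau δ (p.1 - p.2) * F p.1)
      (volume.prod volume) :=
    h0.mul_bdd (c := M) (hF.meas.comp measurable_fst).aestronglyMeasurable
      (ae_of_all _ fun p => hM p.1)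
  have e1 : ∀ a', ∫ a, lawD a0 b a * cau δ (a' - a) * F a' =
      (∫ a, lawD a0 b a * cau δ (a' - a)) * F a' := fun a' => integral_mul_const _ _
  have e2 : ∀ a, ∫ a', lawD a0 b a * cau δ (a' - a) * F a' =
      lawD a0 b a * ∫ a', cau δ (a' - a) * F a' := fun a => by
    simp only [mul_assoc]; exact integral_const_mul _ _
  refine ⟨?_, ?_, ?_⟩
  · simpa only [e1] using h1.integral_prod_left
  · rw [Law.integrable_law_iff a0 hb]
    simpa only [e2, smul_eq_mul] using h1.integral_prod_right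
  · rw [integral_law a0 hb]
    have := integral_integral_swap (f := fun a' a => lawD a0 b a * cau δ (a' - a) * F a') h1
    simpa only [e1, e2] using this

end Crest.Agent.N334.G.Qs
end
end

-- ▼ part N334/G/Qs

/-!
# Row 334, S0519 GAIN: the quadratic step lemma (true law versus ideal Cauchy step)
-/

set_option autoImplicit false

open MeasureTheory Finset Complex
open scoped BigOperators ComplexConjugate

noncomputable section

namespace Crest.Agent.N334.G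

/-- the signed defect of the ideal step -/
def sig (a0 b δ a' : ℝ) : ℝ := lawD a0 b a' - ∫ a, lawD a0 b a * cau δ (a' - a)

namespace Qs

theorem cau_neg (δ c : ℝ) : cau δ (-c) = cau δ c := by unfold cau; rw [neg_sq]

theorem cau_sq_le {δ : ℝ} (hδ : 0 < δ) (c : ℝ) : c ^ 2 * |cau δ c| ≤ δ / Real.pi := by
  rw [abs_of_nonneg (Law.cau_nonneg hδ.le c), Law.cau_eq]
  have h1 : c ^ 2 * (δ / (c ^ 2 + δ ^ 2)) ≤ δ := by
    rw [← mul_div_assoc, div_le_iff₀ (by positivity)]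
    nlinarith [sq_nonneg c, pow_pos hδ 3]
  have := Real.pi_pos
  calc _ = Real.pi⁻¹ * (c ^ 2 * (δ / (c ^ 2 + δ ^ 2))) := by ring
    _ ≤ Real.pi⁻¹ * δ := by gcongr
    _ = _ := by rw [div_eq_inv_mul]

theorem sig_in (a0 : ℝ) {b δ : ℝ} (hb : 0 < b) (hδ : 0 < δ) (a' : ℝ) :
    |sig a0 b δ a'| ≤ 36 * δ / b ^ 2 := by
  have hc := cau_integral hδ 0
  simp only [sub_zero] at hc
  have h := even_ker a0 hb a' hc.1 (cau_neg δ) (cau_sq_le hδ)
  have e : ∫ a, lawD a0 b a * cau δ (a' - a) = ∫ c, lawD a0 b (a' + c) * cau δ c := by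
    rw [← integral_add_left_eq_self _ a']
    simp only [sub_add_cancel_left, cau_neg]
  have := Real.pi_pos
  have e2 : 36 * Real.pi * (δ / Real.pi) / b ^ 2 = 36 * δ / b ^ 2 := by field_simp
  rw [hc.2, mul_one, e2] at h
  unfold sig
  rwa [e, abs_sub_comm]

theorem P_nonneg (a0 : ℝ) {b δ : ℝ} (hb : 0 < b) (hδ : 0 < δ) (a' : ℝ) :
    0 ≤ ∫ a, lawD a0 b a * cau δ (a' - a) :=
  integral_nonneg fun a => mul_nonneg (lawD_nonneg a0 hb a) (Law.cau_nonneg hδ.le _)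

theorem sig_out (a0 : ℝ) {b δ : ℝ} (hb : 0 < b) (hδ : 0 < δ) {a' : ℝ} (h : 2 * b ≤ |a' - a0|) :
    |sig a0 b δ a'| ≤ 4 * δ / (a' - a0) ^ 2 := by
  unfold sig
  rw [lawD_zero hb (by linarith), zero_sub, abs_neg, ← integral_law a0 hb]
  have := law_prob a0 hb
  have h1 := norm_integral_le_of_norm_le_const (μ := law a0 b) (f := fun a => cau δ (a' - a))
    (C := 4 * δ / (a' - a0) ^ 2) (by
      filter_upwards [law_ae a0 hb] with a ha
      have h2 := abs_add_le (a' - a) (a - a0)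
      rw [sub_add_sub_cancel] at h2
      have h3 : (a' - a0) ^ 2 ≤ 4 * (a' - a) ^ 2 := by
        rw [← sq_abs (a' - a0), ← sq_abs (a' - a)]
        nlinarith [abs_nonneg (a' - a0), abs_nonneg (a' - a)]
      have h4 : 0 < (a' - a0) ^ 2 := by rw [← sq_abs]; nlinarith
      have h5 := cau_sq_le hδ (a' - a)
      have h6 : δ / Real.pi ≤ δ := div_le_self hδ.le (by linarith [Real.pi_gt_three])
      rw [Real.norm_eq_abs, le_div_iff₀ h4]
      nlinarith [abs_nonneg (cau δ (a' - a))])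
  simpa using h1

theorem sig_abs' (a0 : ℝ) {b δ : ℝ} (hb : 0 < b) (hδ : 0 < δ) (a' : ℝ) :
    |sig a0 b δ a'| ≤ 180 * δ / (b ^ 2 + (a' - a0) ^ 2) := by
  by_cases h : 2 * b ≤ |a' - a0|
  · refine (sig_out a0 hb hδ h).trans ?_
    have h4 : 4 * b ^ 2 ≤ (a' - a0) ^ 2 := by rw [← sq_abs (a' - a0)]; nlinarith
    rw [div_le_div_iff₀ (by nlinarith [pow_pos hb 2]) (by positivity)]
    nlinarith [pow_pos hb 2]
  · refine (sig_in a0 hb hδ a').trans ?_
    have h4 : (a' - a0) ^ 2 ≤ 4 * b ^ 2 := by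
      rw [← sq_abs (a' - a0)]; nlinarith [abs_nonneg (a' - a0)]
    rw [div_le_div_iff₀ (by positivity) (by positivity)]
    nlinarith

theorem sig_le_cau' (a0 : ℝ) {b δ a : ℝ} (hδ : 0 < δ) (hδb : δ ≤ b) (ha : |a - a0| ≤ b) (a' : ℝ) :
    sig a0 b δ a' ≤ 720 * cau δ (a' - a) := by
  have hb : 0 < b := by linarith
  by_cases h : b ≤ |a' - a0|
  · unfold sig
    rw [lawD_zero hb h]
    linarith [P_nonneg a0 hb hδ a', Law.cau_nonneg hδ.le (a' - a)]
  · refine (le_abs_self _).trans ((sig_in a0 hb hδ a').trans ?_)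
    have h2 := abs_sub (a' - a0) (a - a0)
    rw [sub_sub_sub_cancel_right] at h2
    have h3 : (a' - a) ^ 2 ≤ 4 * b ^ 2 := by
      rw [← sq_abs (a' - a)]; nlinarith [abs_nonneg (a' - a)]
    have h4 : δ ^ 2 ≤ b ^ 2 := by gcongr
    have h5 : Real.pi * ((a' - a) ^ 2 + δ ^ 2) ≤ 4 * (5 * b ^ 2) := by
      gcongr
      · exact Real.pi_le_four
      · linarith
    have := Real.pi_pos
    unfold cau
    rw [← mul_div_assoc, div_le_div_iff₀ (by positivity) (by positivity)]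
    nlinarith

theorem zz_im {s : ℂ} (c γ : ℝ) :
    (zz s (s.re + c) γ).im = (γ + s.im) / ((c - 0) ^ 2 + (γ + s.im) ^ 2) := by
  rw [im_zz, Law.norm_zz_sq]; simp [div_eq_mul_inv]

theorem zz_re {s : ℂ} (c γ : ℝ) : (zz s (s.re + c) γ).re = c / (c ^ 2 + (γ + s.im) ^ 2) := by
  have h := Law.normSq_w s (s.re + c) γ
  rw [Complex.sq_norm] at h
  unfold zz
  rw [one_div, Complex.inv_re, h]; simp

theorem int_zz {s : ℂ} {γ : ℝ} (h : 0 < γ + s.im) (μ : Measure ℝ) [IsFiniteMeasure μ] :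
    Integrable (fun a => zz s a γ) μ :=
  Integrable.of_bound (measurable_zz s γ).aestronglyMeasurable (1 / (γ + s.im))
    (ae_of_all _ fun a => by rw [le_div_iff₀ h, mul_comm]; exact norm_zz_le h a)

theorem zz_sub_near {s : ℂ} {b γ γ' : ℝ} (a0 : ℝ) (hs : 0 < s.im) (h0 : 0 ≤ γ') (h : γ' < γ)
    (hb : 0 < b) : ‖∫ a, (zz s a γ' - zz s a γ) ∂law a0 b‖ ≤ 224 * (γ - γ') / b ^ 2 := by
  have := law_prob a0 hb
  have hJ : 0 < γ + s.im := by linarith
  have hJ' : 0 < γ' + s.im := by linarith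
  have hi : Integrable (fun a => zz s a γ' - zz s a γ) (law a0 b) :=
    (int_zz hJ' _).sub (int_zz hJ _)
  have hre := integral_re hi
  have him := integral_im hi
  simp only [RCLike.re_to_complex, RCLike.im_to_complex] at hre him
  rw [integral_law a0 hb, ← integral_add_left_eq_self _ s.re] at hre him
  simp only [sub_re, sub_im, zz_re, zz_im] at hre him
  have hδ : γ - γ' = (γ + s.im) - (γ' + s.im) := by ring
  have hJJ : γ' + s.im < γ + s.im := by linarith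
  rw [hδ]
  generalize γ + s.im = J at *
  generalize γ' + s.im = J' at *
  have hpi := Real.pi_pos
  have hpi4 := Real.pi_le_four
  have h1 := even_ker a0 hb s.re ((Law.pois hJ' 0).1.sub (Law.pois hJ 0).1) (κ := J - J')
    (fun c => by simp) (fun c => by
      simp only [Pi.sub_apply, sub_zero]
      have e : J' / (c ^ 2 + J' ^ 2) - J / (c ^ 2 + J ^ 2) =
          (J - J') * ((J * J' - c ^ 2) / ((c ^ 2 + J ^ 2) * (c ^ 2 + J' ^ 2))) := by
        field_simp; ring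
      have h3 : c ^ 2 * |(J * J' - c ^ 2) / ((c ^ 2 + J ^ 2) * (c ^ 2 + J' ^ 2))| ≤ 1 := by
        rw [abs_div, abs_of_pos (by positivity : 0 < (c ^ 2 + J ^ 2) * (c ^ 2 + J' ^ 2)),
          ← mul_div_assoc, div_le_one (by positivity)]
        have h4 : |J * J' - c ^ 2| ≤ c ^ 2 + (J ^ 2 + J' ^ 2) := by
          rw [abs_le]; constructor <;> nlinarith [sq_nonneg c, sq_nonneg (J - J'), mul_pos hJ hJ']
        calc _ ≤ c ^ 2 * (c ^ 2 + (J ^ 2 + J' ^ 2)) := by gcongr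
          _ ≤ _ := by nlinarith [sq_nonneg (J * J')]
      rw [e, abs_mul, abs_of_pos (by linarith : 0 < J - J'), mul_left_comm]
      exact mul_le_of_le_one_right (by linarith) h3)
  simp only [Pi.sub_apply] at h1
  rw [integral_sub (Law.pois hJ' 0).1 (Law.pois hJ 0).1, (Law.pois hJ' 0).2, (Law.pois hJ 0).2,
    sub_self, mul_zero, sub_zero, him] at h1
  have e : ∀ c : ℝ, c / (c ^ 2 + J' ^ 2) - c / (c ^ 2 + J ^ 2) =
      (J - J') * (c * (J + J') / ((c ^ 2 + J ^ 2) * (c ^ 2 + J' ^ 2))) := fun c => by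
    field_simp; ring
  have hab : ∀ c : ℝ, |c / (c ^ 2 + J' ^ 2) - c / (c ^ 2 + J ^ 2)| =
      (J - J') * ((J + J') / (c ^ 2 + J ^ 2)) * (|c| / (c ^ 2 + J' ^ 2)) := fun c => by
    rw [e, abs_mul, abs_of_pos (by linarith : 0 < J - J'), abs_div, abs_mul,
      abs_of_pos (by positivity : 0 < (c ^ 2 + J ^ 2) * (c ^ 2 + J' ^ 2)),
      abs_of_pos (by positivity : 0 < J + J')]
    field_simp
  have hle : ∀ c : ℝ, (J - J') * ((J + J') / (c ^ 2 + J ^ 2)) ≤
      2 * (J - J') * (J / ((c - 0) ^ 2 + J ^ 2)) := fun c => by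
    have : (J + J') / (c ^ 2 + J ^ 2) ≤ 2 * J / (c ^ 2 + J ^ 2) := by gcongr; linarith
    rw [sub_zero]
    calc _ ≤ (J - J') * (2 * J / (c ^ 2 + J ^ 2)) := by gcongr
      _ = _ := by ring
  have hmaj := (Law.pois hJ 0).1.const_mul (2 * (J - J'))
  have h2 := odd_ker a0 hb s.re (k := fun c => c / (c ^ 2 + J' ^ 2) - c / (c ^ 2 + J ^ 2))
    ((hmaj.mul_const (1 / J')).mono' (Measurable.aestronglyMeasurable (by fun_prop))
      (ae_of_all _ fun c => by
        rw [Real.norm_eq_abs, hab]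
        have : |c| / (c ^ 2 + J' ^ 2) ≤ 1 / J' := by
          rw [div_le_div_iff₀ (by positivity) hJ', ← sq_abs c]
          nlinarith [sq_nonneg (|c| - J'), abs_nonneg c]
        exact mul_le_mul (hle c) this (by positivity)
          (mul_nonneg (by linarith) (by positivity))))
    (fun c => by simp only [neg_sq]; ring) hmaj (fun c => by
      rw [hab, mul_left_comm]
      have : |c| * (|c| / (c ^ 2 + J' ^ 2)) ≤ 1 := by
        rw [← mul_div_assoc, div_le_one (by positivity), abs_mul_abs_self]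
        nlinarith [sq_nonneg J']
      exact (mul_le_of_le_one_right (mul_nonneg (by linarith) (by positivity)) this).trans (hle c))
  rw [integral_const_mul, (Law.pois hJ 0).2, hre] at h2
  refine (Complex.norm_le_abs_re_add_abs_im _).trans ((add_le_add h2 h1).trans ?_)
  have e3 : 10 / b ^ 2 * (2 * (J - J') * Real.pi) + 36 * Real.pi * (J - J') / b ^ 2 =
      56 * Real.pi * (J - J') / b ^ 2 := by ring
  rw [e3]
  gcongr
  linarith

theorem zz_far {s : ℂ} {a0 b a γ : ℝ} (hγ : 0 ≤ γ) (hγb : γ ≤ b) (hb : 0 < b) (ha : |a - a0| ≤ b)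
    (h : 4 * b ≤ ‖(a0 : ℂ) - I * b - s‖) : ‖zz s a γ‖ ≤ 2 * ‖zz s a0 b‖ := by
  have h3 : ‖(a0 : ℂ) - I * b - s‖ ≤ ‖(a : ℂ) - I * γ - s‖ + 2 * b := by
    have e : (a0 : ℂ) - I * b - s =
        ((a : ℂ) - I * γ - s) + ((-(a - a0) : ℝ) : ℂ) + I * ((-(b - γ) : ℝ) : ℂ) := by
      push_cast; ring
    rw [e]
    refine (norm_add₃_le).trans ?_
    rw [norm_mul, Complex.norm_I, one_mul, Complex.norm_real, Complex.norm_real, Real.norm_eq_abs,
      Real.norm_eq_abs, abs_neg, abs_neg, abs_of_nonneg (by linarith : 0 ≤ b - γ)]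
    linarith
  unfold zz
  rw [norm_div, norm_div, norm_one, mul_one_div, div_le_div_iff₀ (by linarith) (by linarith)]
  linarith

theorem law_zz_sub' {s : ℂ} {b γ γ' : ℝ} (a0 : ℝ) (hs : 0 < s.im) (h0 : 0 ≤ γ') (h : γ' < γ)
    (hγb : γ ≤ b) :
    ‖∫ a, (zz s a γ' - zz s a γ) ∂law a0 b‖ ≤ 3584 * (γ - γ') * ‖zz s a0 b‖ ^ 2 := by
  have hb : 0 < b := by linarith
  have hδ : 0 < γ - γ' := by linarith
  by_cases hw : 4 * b ≤ ‖(a0 : ℂ) - I * b - s‖
  · have := law_prob a0 hb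
    have h1 := norm_integral_le_of_norm_le_const (μ := law a0 b)
      (f := fun a => zz s a γ' - zz s a γ) (C := 4 * (γ - γ') * ‖zz s a0 b‖ ^ 2) (by
        filter_upwards [law_ae a0 hb] with a ha
        have h2 := zz_far (by linarith) hγb hb ha hw
        have h3 := zz_far h0 (by linarith) hb ha hw
        rw [Law.zz_sub (by linarith) (by linarith), norm_mul, norm_mul, norm_neg, sub_self,
          Complex.ofReal_zero, zero_add, norm_mul, Complex.norm_I, one_mul, Complex.norm_real,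
          Real.norm_eq_abs, abs_of_pos hδ]
        calc _ ≤ (γ - γ') * ((2 * ‖zz s a0 b‖) * (2 * ‖zz s a0 b‖)) := by gcongr
          _ = _ := by ring)
    simp only [probReal_univ, mul_one] at h1
    refine h1.trans ?_
    gcongr; norm_num
  · refine (zz_sub_near a0 hs h0 h hb).trans ?_
    push Not at hw
    have hp := (show 0 < b + s.im by linarith).trans_le (Law.J_le_w s a0 b)
    have h1 : 1 / (4 * b) ≤ ‖zz s a0 b‖ := by
      unfold zz; rw [norm_div, norm_one]; gcongr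
    calc _ = 3584 * (γ - γ') * (1 / (4 * b)) ^ 2 := by field_simp; ring
      _ ≤ _ := by gcongr

theorem sig_mul (a0 : ℝ) {b δ : ℝ} (hb : 0 < b) (hδ : 0 < δ) {F : ℝ → ℝ} (hF : BM F) :
    Integrable (fun a' => sig a0 b δ a' * F a') ∧
      ∫ a', sig a0 b δ a' * F a' =
        ∫ a, F a ∂law a0 b - ∫ a, (∫ a', cau δ (a' - a) * F a') ∂law a0 b := by
  obtain ⟨h1, -, h3⟩ := fub a0 hb hδ hF
  obtain ⟨M, hM⟩ := hF.bdd
  have h4 : Integrable fun a' => lawD a0 b a' * F a' :=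
    (Law.integrable_lawD a0 hb).mul_bdd (c := M) hF.meas.aestronglyMeasurable (ae_of_all _ hM)
  simp only [sig, sub_mul]
  exact ⟨h4.sub h1, by rw [integral_sub h4 h1, h3, integral_law a0 hb F]⟩

theorem cau_mul {δ : ℝ} (hδ : 0 < δ) (a : ℝ) {F : ℝ → ℝ} (hF : BM F) :
    Integrable fun a' => cau δ (a' - a) * F a' := by
  obtain ⟨M, hM⟩ := hF.bdd
  exact (cau_integral hδ a).1.mul_bdd (c := M) hF.meas.aestronglyMeasurable (ae_of_all _ hM)

theorem BM_const (c : ℝ) : BM fun _ : ℝ => c := ⟨measurable_const, |c|, fun _ => le_rfl⟩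

theorem BM_add {F F' : ℝ → ℝ} (h : BM F) (h' : BM F') : BM fun a => F a + F' a := by
  obtain ⟨M, hM⟩ := h.bdd
  obtain ⟨M', hM'⟩ := h'.bdd
  exact ⟨h.meas.add h'.meas, M + M', fun a => (abs_add_le _ _).trans (add_le_add (hM a) (hM' a))⟩

theorem BM_mul (c : ℝ) {F : ℝ → ℝ} (h : BM F) : BM fun a => c * F a := by
  obtain ⟨M, hM⟩ := h.bdd
  exact ⟨h.meas.const_mul c, |c| * M, fun a => by rw [abs_mul]; gcongr; exact hM a⟩

theorem BM_sub {F F' : ℝ → ℝ} (h : BM F) (h' : BM F') : BM fun a => F a - F' a := by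
  simpa [sub_eq_add_neg] using BM_add h (BM_mul (-1) h')

theorem BM_int {F : ℝ → ℝ} (h : BM F) (μ : Measure ℝ) [IsFiniteMeasure μ] : Integrable F μ := by
  obtain ⟨M, hM⟩ := h.bdd
  exact Integrable.of_bound h.meas.aestronglyMeasurable M (ae_of_all _ hM)

theorem zz_sub_le {s : ℂ} {γ : ℝ} (h : 0 < γ + s.im) (w : ℂ) (a : ℝ) :
    ‖zz s a γ - w‖ ≤ 1 / (γ + s.im) + ‖w‖ := by
  refine (norm_sub_le _ _).trans ?_
  gcongr
  rw [le_div_iff₀ h, mul_comm]; exact norm_zz_le h a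

theorem BM_lin {s : ℂ} {γ : ℝ} (h : 0 < γ + s.im) (c w : ℂ) :
    BM fun a => (c * (zz s a γ - w)).re := by
  have := measurable_zz s γ
  refine ⟨by fun_prop, ‖c‖ * (1 / (γ + s.im) + ‖w‖), fun a => (Complex.abs_re_le_norm _).trans ?_⟩
  rw [norm_mul]; gcongr; exact zz_sub_le h w a

theorem BM_sq {s : ℂ} {γ : ℝ} (h : 0 < γ + s.im) (w : ℂ) : BM fun a => ‖zz s a γ - w‖ ^ 2 := by
  have := measurable_zz s γ
  refine ⟨by fun_prop, (1 / (γ + s.im) + ‖w‖) ^ 2, fun a => ?_⟩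
  rw [abs_of_nonneg (by positivity)]; gcongr; exact zz_sub_le h w a

theorem sig_const (a0 : ℝ) {b δ : ℝ} (hb : 0 < b) (hδ : 0 < δ) (c : ℝ) :
    ∫ a', sig a0 b δ a' * c = 0 := by
  rw [(sig_mul a0 hb hδ (BM_const c)).2]
  simp only [integral_mul_const, (cau_integral hδ _).2, one_mul, sub_self]

theorem sig_lin {s : ℂ} {b γ γ' : ℝ} (a0 : ℝ) (hs : 0 < s.im) (h0 : 0 ≤ γ') (h : γ' < γ)
    (hγb : γ ≤ b) (c w : ℂ) : |∫ a', sig a0 b (γ - γ') a' * (c * (zz s a' γ' - w)).re| ≤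
      3584 * ((γ - γ') * ‖zz s a0 b‖ ^ 2 * ‖c‖) := by
  have hb : 0 < b := by linarith
  have hδ : 0 < γ - γ' := by linarith
  have hJ : 0 < γ + s.im := by linarith
  have hJ' : 0 < γ' + s.im := by linarith
  have := law_prob a0 hb
  have e1 : ∀ a, ∫ a', cau (γ - γ') (a' - a) * (c * (zz s a' γ' - w)).re =
      (c * (zz s a γ - w)).re := by
    intro a
    have h1 := Law.cau_lin_re hs h0 h a c
    have h2 := cau_integral hδ a
    have e : (fun a' => cau (γ - γ') (a' - a) * (c * (zz s a' γ' - w)).re) = fun a' =>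
        cau (γ - γ') (a' - a) * (c * (zz s a' γ' - zz s a γ)).re +
          cau (γ - γ') (a' - a) * (c * (zz s a γ - w)).re := by
      funext a'
      rw [← mul_add, ← Complex.add_re, ← mul_add, sub_add_sub_cancel]
    rw [e, integral_add h1.1 (h2.1.mul_const _), h1.2, integral_mul_const, h2.2]; simp
  rw [(sig_mul a0 hb hδ (BM_lin hJ' c w)).2]
  simp only [e1]
  have hi : Integrable (fun a => zz s a γ' - zz s a γ) (law a0 b) :=
    (int_zz hJ' _).sub (int_zz hJ _)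
  have e2 := integral_re (hi.const_mul c)
  simp only [RCLike.re_to_complex] at e2
  rw [← integral_sub (BM_int (BM_lin hJ' c w) _) (BM_int (BM_lin hJ c w) _)]
  simp only [← Complex.sub_re, ← mul_sub, sub_sub_sub_cancel_right]
  rw [e2, integral_const_mul]
  refine (Complex.abs_re_le_norm _).trans ?_
  rw [norm_mul]
  calc _ ≤ ‖c‖ * (3584 * (γ - γ') * ‖zz s a0 b‖ ^ 2) := by
        gcongr; exact law_zz_sub' a0 hs h0 h hγb
    _ = _ := by ring

theorem sig_sq {s : ℂ} {a0 b γ γ' a : ℝ} (hs : 0 < s.im) (h0 : 0 ≤ γ') (h : γ' < γ)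
    (hγb : γ ≤ b) (ha : |a - a0| ≤ b) :
    |∫ a', sig a0 b (γ - γ') a' * ‖zz s a' γ' - zz s a γ‖ ^ 2| ≤
      2880 * ((γ - γ') * ‖zz s a0 b‖ ^ 2 * (1 / (γ' + s.im) + b * ‖zz s a γ‖ ^ 2)) := by
  have hb : 0 < b := by linarith
  have hδ : 0 < γ - γ' := by linarith
  have hJ : 0 < γ + s.im := by linarith
  have hJ' : 0 < γ' + s.im := by linarith
  have hJb : 0 < b + s.im := by linarith
  have i1 := (integral_J_zz hJ').1.const_mul (360 * (γ - γ') * ‖zz s a0 b‖ ^ 2 / (γ' + s.im))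
  have i2 := (Law.pois hb a0).1.const_mul (720 * (γ - γ') * ‖zz s a0 b‖ ^ 2 * (b * ‖zz s a γ‖ ^ 2))
  have i3 : Integrable fun a' =>
      360 * (γ - γ') * ‖zz s a0 b‖ ^ 2 / (γ' + s.im) * ((γ' + s.im) * ‖zz s a' γ'‖ ^ 2) +
      720 * (γ - γ') * ‖zz s a0 b‖ ^ 2 * (b * ‖zz s a γ‖ ^ 2) * (b / ((a' - a0) ^ 2 + b ^ 2)) :=
    i1.add i2
  have h2 : ‖zz s a γ - zz s a0 b‖ ^ 2 ≤ 2 * b ^ 2 * (‖zz s a0 b‖ ^ 2 * ‖zz s a γ‖ ^ 2) := by
    rw [Law.norm_zz_sub_sq hJb hJ]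
    gcongr
    have : (a - a0) ^ 2 ≤ b ^ 2 := by rw [← sq_abs]; gcongr
    nlinarith
  have h1 := norm_integral_le_of_norm_le
    (f := fun a' => sig a0 b (γ - γ') a' * ‖zz s a' γ' - zz s a γ‖ ^ 2) i3 (ae_of_all _ fun a' => by
      have h3 : ‖zz s a' γ' - zz s a0 b‖ ^ 2 ≤
          (b ^ 2 + (a' - a0) ^ 2) * (‖zz s a0 b‖ ^ 2 * ‖zz s a' γ'‖ ^ 2) := by
        rw [Law.norm_zz_sub_sq hJb hJ']
        gcongr ?_ * _
        nlinarith
      have h4 : ‖zz s a' γ' - zz s a γ‖ ≤ ‖zz s a' γ' - zz s a0 b‖ + ‖zz s a γ - zz s a0 b‖ := by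
        rw [← sub_sub_sub_cancel_right _ _ (zz s a0 b)]; exact norm_sub_le _ _
      have h5 : ‖zz s a' γ' - zz s a γ‖ ^ 2 ≤
          2 * ((b ^ 2 + (a' - a0) ^ 2) * (‖zz s a0 b‖ ^ 2 * ‖zz s a' γ'‖ ^ 2)) +
          2 * (2 * b ^ 2 * (‖zz s a0 b‖ ^ 2 * ‖zz s a γ‖ ^ 2)) := by
        have h6 := pow_le_pow_left₀ (norm_nonneg _) h4 2
        nlinarith [sq_nonneg (‖zz s a' γ' - zz s a0 b‖ - ‖zz s a γ - zz s a0 b‖)]
      rw [Real.norm_eq_abs, abs_mul, abs_of_nonneg (sq_nonneg ‖zz s a' γ' - zz s a γ‖)]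
      refine (mul_le_mul (sig_abs' a0 hb hδ a') h5 (by positivity) (by positivity)).trans_eq ?_
      field_simp
      ring)
  rw [integral_add i1 i2, integral_const_mul, (integral_J_zz hJ').2, integral_const_mul,
    (Law.pois hb a0).2, Real.norm_eq_abs] at h1
  refine h1.trans ?_
  have hpi4 := Real.pi_le_four
  have p1 : 0 ≤ (γ - γ') * ‖zz s a0 b‖ ^ 2 * (1 / (γ' + s.im)) := by positivity
  have p2 : 0 ≤ (γ - γ') * ‖zz s a0 b‖ ^ 2 * (b * ‖zz s a γ‖ ^ 2) := by positivity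
  calc _ = 360 * ((γ - γ') * ‖zz s a0 b‖ ^ 2 * (1 / (γ' + s.im))) * Real.pi +
        720 * ((γ - γ') * ‖zz s a0 b‖ ^ 2 * (b * ‖zz s a γ‖ ^ 2)) * Real.pi := by ring
    _ ≤ 360 * ((γ - γ') * ‖zz s a0 b‖ ^ 2 * (1 / (γ' + s.im))) * 4 +
        720 * ((γ - γ') * ‖zz s a0 b‖ ^ 2 * (b * ‖zz s a γ‖ ^ 2)) * 4 := by gcongr
    _ ≤ _ := by rw [mul_add]; linarith

end Qs

/-- log-free first-order bias -/
theorem law_zz_sub : ∃ C : ℝ, 0 < C ∧ ∀ (s : ℂ) (a0 b γ γ' : ℝ), 0 < s.im → 0 ≤ γ' → γ' < γ →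
    γ ≤ b → ‖∫ a, (zz s a γ' - zz s a γ) ∂law a0 b‖ ≤ C * (γ - γ') * ‖zz s a0 b‖ ^ 2 :=
  ⟨3584, by norm_num, fun _ a0 _ _ _ hs h0 h hb => Qs.law_zz_sub' a0 hs h0 h hb⟩

theorem qs : ∃ C : ℝ, 0 < C ∧ ∀ (s : ℂ) (a0 b γ γ' : ℝ), 0 < s.im → 0 ≤ γ' → γ' < γ → γ ≤ b →
    ∀ Ψ' Ψ H : ℝ → ℝ, BM Ψ' → BM Ψ → BM H →
    (∀ a, |a - a0| ≤ b → ∃ (c0 c2 ρ : ℝ) (c1 : ℂ),
      (∀ a', c0 + (c1 * (zz s a' γ' - zz s a γ)).re + c2 * ‖zz s a' γ' - zz s a γ‖ ^ 2 ≤
        Ψ' a' - Ψ a) ∧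
      ∫ a', cau (γ - γ') (a' - a) * (Ψ' a' - Ψ a -
        (c0 + (c1 * (zz s a' γ' - zz s a γ)).re + c2 * ‖zz s a' γ' - zz s a γ‖ ^ 2)) ≤ ρ ∧
      c0 + c2 * ((γ - γ') * ‖zz s a γ‖ ^ 2 / (γ' + s.im)) +
        C * ((γ - γ') * ‖zz s a0 b‖ ^ 2 *
          (‖c1‖ + |c2| * (1 / (γ' + s.im) + b * ‖zz s a γ‖ ^ 2)) + ρ) ≤ H a) →
    ∫ a, Ψ' a ∂law a0 b - ∫ a, Ψ a ∂law a0 b ≤ ∫ a, H a ∂law a0 b := by
  refine ⟨3584, by norm_num, fun s a0 b γ γ' hs h0 h hγb Ψ' Ψ H hΨ' hΨ hH hyp => ?_⟩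
  have hb : 0 < b := by linarith
  have hδ : 0 < γ - γ' := by linarith
  have hJ' : 0 < γ' + s.im := by linarith
  have := law_prob a0 hb
  obtain ⟨-, iA, -⟩ := Qs.fub a0 hb hδ hΨ'
  obtain ⟨iS, eS⟩ := Qs.sig_mul a0 hb hδ hΨ'
  have key : ∀ a, |a - a0| ≤ b → (∫ a', cau (γ - γ') (a' - a) * Ψ' a') +
      (∫ a', sig a0 b (γ - γ') a' * Ψ' a') - Ψ a ≤ H a := by
    intro a ha
    obtain ⟨c0, c2, ρ, c1, hge, hρ, hH⟩ := hyp a ha
    have bL := Qs.BM_lin hJ' c1 (zz s a γ)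
    have bS := Qs.BM_sq hJ' (zz s a γ)
    have bQ := Qs.BM_add (Qs.BM_add (Qs.BM_const c0) bL) (Qs.BM_mul c2 bS)
    have bR := Qs.BM_sub (Qs.BM_sub hΨ' (Qs.BM_const (Ψ a))) bQ
    have q1 := cau_quad hs h0 h a c0 c2 c1
    have l1 := abs_le.1 (Qs.sig_lin a0 hs h0 h hγb c1 (zz s a γ))
    have l2 := Qs.sig_sq hs h0 h hγb ha
    have q2 : ∫ a', sig a0 b (γ - γ') a' * (c0 + (c1 * (zz s a' γ' - zz s a γ)).re +
        c2 * ‖zz s a' γ' - zz s a γ‖ ^ 2) =
        (∫ a', sig a0 b (γ - γ') a' * (c1 * (zz s a' γ' - zz s a γ)).re) +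
          c2 * ∫ a', sig a0 b (γ - γ') a' * ‖zz s a' γ' - zz s a γ‖ ^ 2 := by
      have j1 := (Qs.sig_mul a0 hb hδ (Qs.BM_const c0)).1
      have j2 := (Qs.sig_mul a0 hb hδ bL).1
      have j3 := (Qs.sig_mul a0 hb hδ bS).1.const_mul c2
      have j4 : Integrable fun a' => sig a0 b (γ - γ') a' * c0 +
        sig a0 b (γ - γ') a' * (c1 * (zz s a' γ' - zz s a γ)).re := j1.add j2
      simp only [mul_add, mul_left_comm _ c2]
      rw [integral_add j4 j3, integral_add j1 j2, integral_const_mul, Qs.sig_const a0 hb hδ,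
        zero_add]
    have l3 : c2 * ∫ a', sig a0 b (γ - γ') a' * ‖zz s a' γ' - zz s a γ‖ ^ 2 ≤ |c2| *
        (2880 * ((γ - γ') * ‖zz s a0 b‖ ^ 2 * (1 / (γ' + s.im) + b * ‖zz s a γ‖ ^ 2))) := by
      refine (le_abs_self _).trans ?_
      rw [abs_mul]; gcongr
    have p1 : 0 ≤ |c2| * ((γ - γ') * ‖zz s a0 b‖ ^ 2 * (1 / (γ' + s.im) + b * ‖zz s a γ‖ ^ 2)) := by
      positivity
    set Q : ℝ → ℝ := fun a' => c0 + (c1 * (zz s a' γ' - zz s a γ)).re +
      c2 * ‖zz s a' γ' - zz s a γ‖ ^ 2 with hQ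
    have r0 : ∀ a', 0 ≤ Ψ' a' - Ψ a - Q a' := fun a' => sub_nonneg.2 (hge a')
    have iR := Qs.cau_mul hδ a bR
    have r1 : 0 ≤ ∫ a', cau (γ - γ') (a' - a) * (Ψ' a' - Ψ a - Q a') :=
      integral_nonneg fun a' => mul_nonneg (Law.cau_nonneg hδ.le _) (r0 a')
    have r2 : ∫ a', sig a0 b (γ - γ') a' * (Ψ' a' - Ψ a - Q a') ≤
        720 * ∫ a', cau (γ - γ') (a' - a) * (Ψ' a' - Ψ a - Q a') := by
      rw [← integral_const_mul]
      refine integral_mono (Qs.sig_mul a0 hb hδ bR).1 (iR.const_mul _) fun a' => ?_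
      simp only [← mul_assoc]
      exact mul_le_mul_of_nonneg_right (Qs.sig_le_cau' a0 hδ (by linarith) ha a') (r0 a')
    have d1 : ∫ a', cau (γ - γ') (a' - a) * (Ψ' a' - Ψ a - Q a') =
        (∫ a', cau (γ - γ') (a' - a) * Ψ' a') - Ψ a - ∫ a', cau (γ - γ') (a' - a) * Q a' := by
      have j1 := Qs.cau_mul hδ a hΨ'
      have j2 := (cau_integral hδ a).1.mul_const (Ψ a)
      have j3 : Integrable fun a' => cau (γ - γ') (a' - a) * Ψ' a' - cau (γ - γ') (a' - a) * Ψ a :=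
        j1.sub j2
      simp only [mul_sub]
      rw [integral_sub j3 (Qs.cau_mul hδ a bQ), integral_sub j1 j2, integral_mul_const,
        (cau_integral hδ a).2, one_mul]
    have d2 : ∫ a', sig a0 b (γ - γ') a' * (Ψ' a' - Ψ a - Q a') =
        (∫ a', sig a0 b (γ - γ') a' * Ψ' a') - ∫ a', sig a0 b (γ - γ') a' * Q a' := by
      have j2 := (Qs.sig_mul a0 hb hδ (Qs.BM_const (Ψ a))).1
      have j3 : Integrable fun a' => sig a0 b (γ - γ') a' * Ψ' a' - sig a0 b (γ - γ') a' * Ψ a :=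
        iS.sub j2
      simp only [mul_sub]
      rw [integral_sub j3 (Qs.sig_mul a0 hb hδ bQ).1, integral_sub iS j2, Qs.sig_const a0 hb hδ,
        sub_zero]
    change ∫ a', cau (γ - γ') (a' - a) * (Ψ' a' - Ψ a - Q a') ≤ ρ at hρ
    change ∫ a', cau (γ - γ') (a' - a) * Q a' = _ at q1
    change ∫ a', sig a0 b (γ - γ') a' * Q a' = _ at q2
    have e : (γ - γ') * ‖zz s a0 b‖ ^ 2 * (‖c1‖ + |c2| * (1 / (γ' + s.im) + b * ‖zz s a γ‖ ^ 2)) =
        (γ - γ') * ‖zz s a0 b‖ ^ 2 * ‖c1‖ +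
        |c2| * ((γ - γ') * ‖zz s a0 b‖ ^ 2 * (1 / (γ' + s.im) + b * ‖zz s a γ‖ ^ 2)) := by ring
    rw [e] at hH
    rw [mul_left_comm] at l3
    linarith [l1.2]
  have j1 : Integrable (fun a => (∫ a', cau (γ - γ') (a' - a) * Ψ' a') +
      ∫ a', sig a0 b (γ - γ') a' * Ψ' a') (law a0 b) := iA.add (integrable_const _)
  have j2 := Qs.BM_int hΨ (law a0 b)
  have m := integral_mono_ae (j1.sub j2) (Qs.BM_int hH _) ((law_ae a0 hb).mono key)
  simp only [Pi.sub_apply] at m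
  rw [integral_sub j1 j2, integral_add iA (integrable_const _), integral_const, eS] at m
  simp only [probReal_univ, smul_eq_mul, one_mul] at m
  linarith

end Crest.Agent.N334.G
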