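import Crest.Agent.N334.G.Lift
import Crest.Agent.N334.G.Qs

-- ▼ part N334/G/Quad0
section

/-!
# Row 334, S0519 GAIN: algebra of the energy in a cavity, one-site step, lifting (helper30)
-/

set_option autoImplicit false
set_option linter.unusedSectionVars false

open MeasureTheory Finset Complex
open scoped BigOperators ComplexConjugate

noncomputable section

namespace Crest.Agent.N334.G.Qd

section alg
variable {P : Type} [Fintype P] [DecidableEq P] {y : P} (c : Cav y)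

def AA (w : P → P → ℝ) : ℂ :=
  ∑ p, ∑ q, conj (c.K0 p q) * c.rho p * c.rho q * (w p q : ℂ)
def C2 (w : P → P → ℝ) (γ : ℝ) : ℝ :=
  4 * ∑ p, ∑ q, ‖c.vec γ p‖ ^ 2 * ‖c.vec γ q‖ ^ 2 * w p q
def c1 (w : P → P → ℝ) (a γ γ' : ℝ) : ℂ :=
  4 * I * AA c w + 2 * conj (c.z a γ) * (C2 c w γ' : ℂ)

theorem nsq_add (u v : ℂ) : ‖u + v‖ ^ 2 = ‖u‖ ^ 2 + 2 * (conj u * v).re + ‖v‖ ^ 2 := by
  simp only [ArcAux.nsq, add_re, add_im, mul_re, conj_re, conj_im]; ring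

theorem K0_y' (q : P) : c.K0 y q = 0 := by rw [c.port0.symm, c.K0_y]

theorem K0_vec (γ : ℝ) (p q : P) :
    conj (c.K0 p q) * c.vec γ p * c.vec γ q = conj (c.K0 p q) * c.rho p * c.rho q := by
  by_cases hp : p = y
  · subst hp; simp [K0_y']
  by_cases hq : q = y
  · subst hq; simp [c.K0_y]
  simp [Cav.vec, hp, hq]

theorem nv {γ : ℝ} (hγ : 0 ≤ γ) (p : P) :
    ‖c.vec γ p‖ ^ 2 = ‖c.rho p‖ ^ 2 + if p = y then γ else 0 := by
  by_cases hp : p = y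
  · subst hp; simp [Cav.vec, c.rho_y, Real.sq_sqrt hγ]
  · simp [Cav.vec, hp]

theorem V_nonneg {w : P → P → ℝ} (hw : ∀ p q, 0 ≤ w p q) : 0 ≤ c.V w :=
  sum_nonneg fun _ _ => mul_nonneg (sq_nonneg _) (hw _ _)

theorem C2_nonneg {w : P → P → ℝ} (hw : ∀ p q, 0 ≤ w p q) (γ : ℝ) : 0 ≤ C2 c w γ :=
  mul_nonneg (by norm_num) (sum_nonneg fun _ _ => sum_nonneg fun _ _ =>
    mul_nonneg (by positivity) (hw _ _))

theorem sum_nv {γ : ℝ} (hγ : 0 ≤ γ) {f : P → ℝ} (hf : f y = 0) :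
    ∑ p, ‖c.vec γ p‖ ^ 2 * f p = ∑ p, ‖c.rho p‖ ^ 2 * f p := by
  refine sum_congr rfl fun p _ => ?_
  rw [nv c hγ]
  by_cases hp : p = y
  · subst hp; simp [hf]
  · simp [hp]

theorem zJ {γ γ' : ℝ} (h0 : 0 ≤ γ') (h : γ' ≤ γ) (a : ℝ) : c.J γ' * ‖c.z a γ‖ ≤ 1 := by
  have h1 := norm_zz_le (s := c.s) (γ := γ) (by linarith [c.s_pos]) a
  refine le_trans (mul_le_mul_of_nonneg_right ?_ (norm_nonneg _)) h1
  unfold Cav.J; linarith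

theorem en_eq (w : P → P → ℝ) (a γ : ℝ) :
    En w (c.K a γ) = En w c.K0 + (4 * I * AA c w * c.z a γ).re + C2 c w γ * ‖c.z a γ‖ ^ 2 := by
  have h : ∀ p q, cc (c.K a γ) p q * w p q = cc c.K0 p q * w p q +
      (4 * I * (conj (c.K0 p q) * c.rho p * c.rho q * (w p q : ℂ)) * c.z a γ).re +
      4 * (‖c.vec γ p‖ ^ 2 * ‖c.vec γ q‖ ^ 2 * w p q) * ‖c.z a γ‖ ^ 2 := by
    intro p q
    have e1 : 4 * I * (conj (c.K0 p q) * c.rho p * c.rho q * (w p q : ℂ)) * c.z a γ =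
        ((2 * w p q : ℝ) : ℂ) *
          (conj (c.K0 p q) * (2 * I * c.z a γ * c.vec γ p * c.vec γ q)) := by
      rw [← K0_vec c γ]; push_cast; ring
    rw [e1, re_ofReal_mul]
    simp only [cc, Cav.K]
    rw [nsq_add]
    simp only [norm_mul, norm_I, Complex.norm_ofNat]
    ring
  simp only [En, Gam, h, sum_add_distrib, AA, C2, mul_sum, sum_mul, re_sum]

theorem C2_eq {w : P → P → ℝ} (hs : ∀ p q, w p q = w q p) (hy : w y y = 0) {γ : ℝ}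
    (hγ : 0 ≤ γ) : C2 c w γ =
      4 * (∑ p, ∑ q, ‖c.rho p‖ ^ 2 * ‖c.rho q‖ ^ 2 * w p q) + 8 * γ * c.V w := by
  have h1 : ∀ p, ∑ q, ‖c.vec γ p‖ ^ 2 * ‖c.vec γ q‖ ^ 2 * w p q =
      ∑ q, ‖c.rho p‖ ^ 2 * ‖c.rho q‖ ^ 2 * w p q + γ * (‖c.rho p‖ ^ 2 * w y p) +
        if p = y then γ * c.V w else 0 := by
    intro p
    simp only [nv c hγ, add_mul, mul_add, sum_add_distrib, mul_ite, ite_mul, mul_zero, zero_mul,
      sum_ite_eq', mem_univ, if_true]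
    by_cases hp : p = y
    · subst hp
      simp [hy, Cav.V, mul_sum, mul_assoc]
    · simp [hp, hs p y]; ring
  simp only [C2, h1, sum_add_distrib, sum_ite_eq', mem_univ, if_true, ← mul_sum]
  unfold Cav.V; ring

theorem expand {w : P → P → ℝ} (hs : ∀ p q, w p q = w q p) (hy : w y y = 0) {γ γ' : ℝ}
    (hγ : 0 ≤ γ) (hγ' : 0 ≤ γ') (a a' : ℝ) :
    En w (c.K a' γ') - En w (c.K a γ) =
      -(8 * (γ - γ') * ‖c.z a γ‖ ^ 2 * c.V w) + (c1 c w a γ γ' * (c.z a' γ' - c.z a γ)).re +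
        C2 c w γ' * ‖c.z a' γ' - c.z a γ‖ ^ 2 := by
  have e : C2 c w γ = C2 c w γ' + 8 * (γ - γ') * c.V w := by
    rw [C2_eq c hs hy hγ, C2_eq c hs hy hγ']; ring
  have e2 := nsq_add (c.z a γ) (c.z a' γ' - c.z a γ)
  rw [add_sub_cancel] at e2
  have e3 : c1 c w a γ γ' * (c.z a' γ' - c.z a γ) = 4 * I * AA c w * c.z a' γ' -
      4 * I * AA c w * c.z a γ +
      ((2 * C2 c w γ' : ℝ) : ℂ) * (conj (c.z a γ) * (c.z a' γ' - c.z a γ)) := by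
    unfold c1; push_cast; ring
  rw [en_eq, en_eq, e, e3, add_re, sub_re, re_ofReal_mul, e2]
  ring

variable {ι : Type} [Fintype ι]

theorem wt_nonneg (Φ : ι → P → ℝ) (p q : P) : 0 ≤ wt Φ p q := sum_nonneg fun _ _ => sq_nonneg _
theorem wt_symm (Φ : ι → P → ℝ) (p q : P) : wt Φ p q = wt Φ q p :=
  sum_congr rfl fun _ _ => by ring
theorem wt_self (Φ : ι → P → ℝ) (p : P) : wt Φ p p = 0 := by simp [wt]
theorem wt_le {F : ι → P → ℝ} (h : ∀ x, ∑ j, F j x ^ 2 = 1) (p q : P) : wt F p q ≤ 4 := by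
  calc wt F p q ≤ ∑ j, (2 * F j p ^ 2 + 2 * F j q ^ 2) :=
        sum_le_sum fun j _ => by nlinarith [sq_nonneg (F j p + F j q)]
    _ = 4 := by rw [sum_add_distrib, ← mul_sum, ← mul_sum, h, h]; norm_num

/-- the sum of the squared means -/
def mm (Φ : ι → P → ℝ) : ℝ := ∑ j, (∑ p, ‖c.rho p‖ ^ 2 * (Φ j p - Φ j y)) ^ 2

theorem mm_nonneg (Φ : ι → P → ℝ) : 0 ≤ mm c Φ := sum_nonneg fun _ _ => sq_nonneg _

theorem V_wt (Φ : ι → P → ℝ) :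
    c.V (wt Φ) = ∑ j, ∑ p, ‖c.rho p‖ ^ 2 * (Φ j p - Φ j y) ^ 2 := by
  simp only [Cav.V, wt, mul_sum]
  rw [sum_comm]
  exact sum_congr rfl fun j _ => sum_congr rfl fun p _ => by ring

theorem C2_wt (Φ : ι → P → ℝ) {γ : ℝ} (hγ : 0 ≤ γ) :
    C2 c (wt Φ) γ = 8 * c.J γ * c.V (wt Φ) - 8 * mm c Φ := by
  have h : ∀ j, ∑ p, ∑ q, ‖c.rho p‖ ^ 2 * ‖c.rho q‖ ^ 2 * (Φ j p - Φ j q) ^ 2 =
      2 * c.s.im * (∑ p, ‖c.rho p‖ ^ 2 * (Φ j p - Φ j y) ^ 2) -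
        2 * (∑ p, ‖c.rho p‖ ^ 2 * (Φ j p - Φ j y)) ^ 2 := by
    intro j
    have e : ∀ p q, ‖c.rho p‖ ^ 2 * ‖c.rho q‖ ^ 2 * (Φ j p - Φ j q) ^ 2 =
        (‖c.rho p‖ ^ 2 * (Φ j p - Φ j y) ^ 2) * ‖c.rho q‖ ^ 2 +
        ‖c.rho p‖ ^ 2 * (‖c.rho q‖ ^ 2 * (Φ j q - Φ j y) ^ 2) -
        2 * ((‖c.rho p‖ ^ 2 * (Φ j p - Φ j y)) * (‖c.rho q‖ ^ 2 * (Φ j q - Φ j y))) := by
      intro p q; ring
    simp only [e, sum_sub_distrib, sum_add_distrib, ← mul_sum, ← sum_mul, c.im_s]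
    ring
  have h2 : ∑ p, ∑ q, ‖c.rho p‖ ^ 2 * ‖c.rho q‖ ^ 2 * wt Φ p q =
      2 * c.s.im * c.V (wt Φ) - 2 * mm c Φ := by
    rw [V_wt, mm, mul_sum, mul_sum, ← sum_sub_distrib]
    simp only [← h]
    simp only [wt, mul_sum]
    rw [sum_comm (s := (univ : Finset ι))]
    refine sum_congr rfl fun p _ => ?_
    rw [sum_comm]
  rw [C2_eq c (wt_symm Φ) (wt_self Φ y) hγ, h2]
  unfold Cav.J; ring

theorem AA_one (f : P → ℝ) :
    ‖∑ p, ∑ q, conj (c.K0 p q) * c.rho p * c.rho q * (((f p - f q) ^ 2 : ℝ) : ℂ)‖ ≤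
      8 * ∑ p, ‖c.rho p‖ ^ 2 * f p ^ 2 := by
  have hfix : ∀ p, ∑ q, conj (c.K0 p q) * c.rho q = conj (c.rho p) - c.rho p := by
    intro p
    have := congrArg conj (c.fix p)
    simpa [map_sum] using this
  obtain ⟨T, hT⟩ : ∃ T : ℂ, T = ∑ p, c.rho p * (f p : ℂ) ^ 2 * (conj (c.rho p) - c.rho p) :=
    ⟨_, rfl⟩
  obtain ⟨b, hb⟩ : ∃ b : P → ℂ, ∀ p, b p = ∑ q, c.K0 p q * conj (c.rho q * f q) :=
    ⟨_, fun _ => rfl⟩
  have e1 : ∑ p, ∑ q, conj (c.K0 p q) * c.rho p * c.rho q * (f p : ℂ) ^ 2 = T := by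
    rw [hT]
    refine sum_congr rfl fun p _ => ?_
    rw [← hfix, mul_sum]
    exact sum_congr rfl fun q _ => by ring
  have e2 : ∑ p, ∑ q, conj (c.K0 p q) * c.rho p * c.rho q * (f q : ℂ) ^ 2 = T := by
    rw [← e1, sum_comm]
    exact sum_congr rfl fun p _ => sum_congr rfl fun q _ => by rw [c.port0.symm q p]; ring
  have e3 : ∑ p, ∑ q, conj (c.K0 p q) * c.rho p * c.rho q * (((f p - f q) ^ 2 : ℝ) : ℂ) =
      T + T - 2 * ∑ p, c.rho p * f p * conj (b p) := by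
    nth_rewrite 1 [← e1]
    rw [← e2, mul_sum, ← sum_add_distrib, ← sum_sub_distrib]
    refine sum_congr rfl fun p _ => ?_
    rw [hb, map_sum, mul_sum, mul_sum, ← sum_add_distrib, ← sum_sub_distrib]
    refine sum_congr rfl fun q _ => ?_
    simp only [map_mul, conj_conj]
    push_cast; ring
  have n1 : ‖T‖ ≤ 2 * ∑ p, ‖c.rho p‖ ^ 2 * f p ^ 2 := by
    rw [hT, mul_sum]
    refine (norm_sum_le _ _).trans (sum_le_sum fun p _ => ?_)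
    have h1 : ‖conj (c.rho p) - c.rho p‖ ≤ 2 * ‖c.rho p‖ := by
      refine (norm_sub_le _ _).trans ?_
      rw [Complex.norm_conj]; linarith
    rw [norm_mul, norm_mul, norm_pow, Complex.norm_real, Real.norm_eq_abs, sq_abs]
    calc _ ≤ ‖c.rho p‖ * f p ^ 2 * (2 * ‖c.rho p‖) := by gcongr
      _ = _ := by ring
  have hn : ∀ p, ‖c.rho p * f p‖ ^ 2 = ‖c.rho p‖ ^ 2 * f p ^ 2 := by
    intro p; rw [norm_mul, mul_pow, Complex.norm_real, Real.norm_eq_abs, sq_abs]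
  have n2 : ∑ p, ‖b p‖ ^ 2 ≤ 4 * ∑ p, ‖c.rho p‖ ^ 2 * f p ^ 2 := by
    have := c.port0.K_op fun q => conj (c.rho q * f q)
    simpa only [← hb, Complex.norm_conj, hn] using this
  have n3 : ‖∑ p, c.rho p * f p * conj (b p)‖ ≤ 2 * ∑ p, ‖c.rho p‖ ^ 2 * f p ^ 2 := by
    calc _ ≤ ∑ p, (‖c.rho p‖ ^ 2 * f p ^ 2 + ‖b p‖ ^ 2 / 4) := by
          refine (norm_sum_le _ _).trans (sum_le_sum fun p _ => ?_)
          rw [norm_mul, Complex.norm_conj, ← hn]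
          nlinarith [sq_nonneg (‖c.rho p * f p‖ - ‖b p‖ / 2)]
      _ ≤ _ := by rw [sum_add_distrib, ← sum_div]; linarith
  rw [e3]
  refine (norm_sub_le _ _).trans ?_
  rw [norm_mul, Complex.norm_ofNat]
  linarith [norm_add_le T T]

theorem AA_wt (Φ : ι → P → ℝ) : ‖AA c (wt Φ)‖ ≤ 8 * c.V (wt Φ) := by
  have e : AA c (wt Φ) = ∑ j, ∑ p, ∑ q, conj (c.K0 p q) * c.rho p * c.rho q *
      ((((Φ j p - Φ j y) - (Φ j q - Φ j y)) ^ 2 : ℝ) : ℂ) := by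
    simp only [AA, wt, sub_sub_sub_cancel_right, ofReal_sum, mul_sum]
    rw [sum_comm (s := (univ : Finset ι))]
    refine sum_congr rfl fun p _ => ?_
    rw [sum_comm]
  rw [e, V_wt, mul_sum]
  exact (norm_sum_le _ _).trans (sum_le_sum fun j _ => AA_one c fun p => Φ j p - Φ j y)

theorem C2_wt_le (Φ : ι → P → ℝ) {γ : ℝ} (hγ : 0 ≤ γ) :
    C2 c (wt Φ) γ ≤ 8 * c.J γ * c.V (wt Φ) := by
  rw [C2_wt c Φ hγ]; linarith [mm_nonneg c Φ]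

theorem c1_wt (Φ : ι → P → ℝ) {γ γ' : ℝ} (h0 : 0 ≤ γ') (h : γ' ≤ γ) (a : ℝ) :
    ‖c1 c (wt Φ) a γ γ'‖ ≤ 48 * c.V (wt Φ) := by
  have hV := V_nonneg c (wt_nonneg Φ)
  have h1 := AA_wt c Φ
  have h2 := C2_wt_le c Φ h0
  have h3 := zJ c h0 h a
  have h4 := C2_nonneg c (wt_nonneg Φ) γ'
  refine (norm_add_le _ _).trans ?_
  simp only [norm_mul, norm_I, Complex.norm_ofNat, Complex.norm_conj, Complex.norm_real,
    Real.norm_eq_abs, abs_of_nonneg h4]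
  have h5 : ‖c.z a γ‖ * C2 c (wt Φ) γ' ≤ 8 * c.V (wt Φ) :=
    calc _ ≤ ‖c.z a γ‖ * (8 * c.J γ' * c.V (wt Φ)) := by gcongr
      _ = (c.J γ' * ‖c.z a γ‖) * (8 * c.V (wt Φ)) := by ring
      _ ≤ 1 * (8 * c.V (wt Φ)) := by gcongr
      _ = _ := one_mul _
  nlinarith

theorem ideal_wt (Φ : ι → P → ℝ) {γ γ' : ℝ} (h0 : 0 ≤ γ') (a : ℝ) :
    -(8 * (γ - γ') * ‖c.z a γ‖ ^ 2 * c.V (wt Φ)) +
      C2 c (wt Φ) γ' * ((γ - γ') * ‖c.z a γ‖ ^ 2 / c.J γ') =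
      -(8 * (γ - γ') * ‖c.z a γ‖ ^ 2 / c.J γ' * mm c Φ) := by
  have := (c.J_pos h0).ne'
  rw [C2_wt c Φ h0]; field_simp; ring

theorem osc0 (Φ : ι → P → ℝ) (h4 : ∀ p q, wt Φ p q ≤ 4) {γ : ℝ} (hγ : 0 ≤ γ) (a : ℝ) :
    |En (wt Φ) (c.K a γ) - En (wt Φ) c.K0| ≤ 160 := by
  have hV := V_nonneg c (wt_nonneg Φ)
  have hJ := c.J_pos hγ
  have hVJ : c.V (wt Φ) ≤ 4 * c.J γ := by
    have : c.V (wt Φ) ≤ ∑ p, ‖c.rho p‖ ^ 2 * 4 := sum_le_sum fun p _ => by gcongr; exact h4 _ _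
    rw [← sum_mul, ← c.im_s] at this
    unfold Cav.J; linarith
  have h3 := zJ c hγ le_rfl a
  have hz := norm_nonneg (c.z a γ)
  have h1 : |(4 * I * AA c (wt Φ) * c.z a γ).re| ≤ 128 := by
    refine (abs_re_le_norm _).trans ?_
    simp only [norm_mul, norm_I, Complex.norm_ofNat]
    calc _ ≤ 4 * 1 * (8 * (4 * c.J γ)) * ‖c.z a γ‖ := by
          gcongr; exact (AA_wt c Φ).trans (by linarith)
      _ = 128 * (c.J γ * ‖c.z a γ‖) := by ring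
      _ ≤ 128 := by linarith
  have h2 : C2 c (wt Φ) γ * ‖c.z a γ‖ ^ 2 ≤ 32 :=
    calc _ ≤ (8 * c.J γ * (4 * c.J γ)) * ‖c.z a γ‖ ^ 2 := by
          gcongr; exact (C2_wt_le c Φ hγ).trans (by gcongr)
      _ = 32 * (c.J γ * ‖c.z a γ‖) ^ 2 := by ring
      _ ≤ 32 * 1 ^ 2 := by gcongr
      _ = 32 := by norm_num
  have h5 : 0 ≤ C2 c (wt Φ) γ * ‖c.z a γ‖ ^ 2 :=
    mul_nonneg (C2_nonneg c (wt_nonneg Φ) γ) (sq_nonneg _)
  rw [en_eq, abs_le] at *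
  constructor <;> linarith [h1.1, h1.2]

theorem osc (Φ : ι → P → ℝ) (h4 : ∀ p q, wt Φ p q ≤ 4) {γ γ' : ℝ} (hγ' : 0 ≤ γ') (hγ : 0 ≤ γ)
    (a a' : ℝ) : |En (wt Φ) (c.K a' γ') - En (wt Φ) (c.K a γ)| ≤ 320 := by
  have h1 := abs_le.1 (osc0 c Φ h4 hγ a)
  have h2 := abs_le.1 (osc0 c Φ h4 hγ' a')
  rw [abs_le]; constructor <;> linarith [h1.1, h1.2, h2.1, h2.2]

theorem bm_K {F : (P → P → ℂ) → ℝ} (hF : Nice F) {γ : ℝ} (hγ : 0 ≤ γ) :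
    BM fun t => F (c.K t γ) := hF.bm (c.measurable_K γ) fun a => c.port a hγ

theorem bm_z {γ : ℝ} (hγ : 0 ≤ γ) : BM fun t => ‖c.z t γ‖ ^ 2 := by
  refine ⟨(measurable_zz c.s γ).norm.pow_const 2, (1 / c.J γ) ^ 2, fun t => ?_⟩
  rw [abs_of_nonneg (sq_nonneg _)]
  gcongr
  rw [le_div_iff₀ (c.J_pos hγ), mul_comm]
  exact zJ c hγ le_rfl t

theorem Bq_nonneg (a0 b : ℝ) {γ : ℝ} (hγ : 0 ≤ γ) {w : P → P → ℝ} (hw : ∀ p q, 0 ≤ w p q) :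
    0 ≤ c.Bq a0 b γ w := mul_nonneg (by positivity) (V_nonneg c hw)

theorem zr_sq {a0 b a γ : ℝ} (hγ : 0 ≤ γ) (hb : γ ≤ b) (ha : |a - a0| ≤ b) :
    ‖c.z a0 b‖ ^ 2 ≤ 9 * ‖c.z a γ‖ ^ 2 :=
  calc _ ≤ (3 * ‖c.z a γ‖) ^ 2 := by gcongr; exact zref_le c.s_pos hγ hb ha
    _ = _ := by ring

theorem Bq_le {a0 b a γ : ℝ} (hγ : 0 ≤ γ) (hb : γ ≤ b) (ha : |a - a0| ≤ b) {w : P → P → ℝ}
    (hw : ∀ p q, 0 ≤ w p q) (hy : w y y = 0) : c.Bq a0 b γ w ≤ 9 * Gam w (c.K a γ) y := by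
  have hV := V_nonneg c hw
  rw [c.Gam_y a γ hγ hy]
  calc c.Bq a0 b γ w ≤ 4 * γ * (9 * ‖c.z a γ‖ ^ 2) * c.V w := by
        unfold Cav.Bq; gcongr; exact zr_sq c hγ hb ha
    _ = _ := by ring

/-- the one-site step with the `c2`-bias integrated out -/
theorem step : ∃ C : ℝ, 0 < C ∧ ∀ (P : Type) [Fintype P] [DecidableEq P] (y : P) (c : Cav y)
    (a0 b γ γ' D : ℝ), 0 ≤ γ' → γ' < γ → γ ≤ b → 0 ≤ D →
    ∀ Ψ' Ψ H : ℝ → ℝ, BM Ψ' → BM Ψ → BM H →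
    (∀ a, |a - a0| ≤ b → ∃ (c0 c2 ρ : ℝ) (c1 : ℂ),
      (∀ a', c0 + (c1 * (c.z a' γ' - c.z a γ)).re + c2 * ‖c.z a' γ' - c.z a γ‖ ^ 2 ≤
        Ψ' a' - Ψ a) ∧
      ∫ a', cau (γ - γ') (a' - a) * (Ψ' a' - Ψ a -
        (c0 + (c1 * (c.z a' γ' - c.z a γ)).re + c2 * ‖c.z a' γ' - c.z a γ‖ ^ 2)) ≤ ρ ∧
      |c2| ≤ D * c.J γ' ∧
      c0 + c2 * ((γ - γ') * ‖c.z a γ‖ ^ 2 / c.J γ') +
        C * ((γ - γ') * ‖c.z a0 b‖ ^ 2 * ‖c1‖ + ρ) ≤ H a) →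
    ∫ a, Ψ' a ∂law a0 b - ∫ a, Ψ a ∂law a0 b ≤
      ∫ a, H a ∂law a0 b + 5 * C * ((γ - γ') * ‖c.z a0 b‖ ^ 2 * D) := by
  obtain ⟨C, hC, h⟩ := qs
  refine ⟨C, hC, fun P _ _ y c a0 b γ γ' D h0 h1 h2 hD Ψ' Ψ H b1 b2 b3 hh => ?_⟩
  have hγ : 0 ≤ γ := by linarith
  have hb : 0 < b := by linarith
  have hJ := c.J_pos hγ
  have hJ' := c.J_pos h0
  have := law_prob a0 hb
  obtain ⟨k, hk⟩ : ∃ k, k = C * ((γ - γ') * ‖c.z a0 b‖ ^ 2 * D) := ⟨_, rfl⟩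
  have hδ : 0 ≤ γ - γ' := by linarith
  have hk0 : 0 ≤ k := by rw [hk]; positivity
  have b4 : BM fun a => b * c.J γ * ‖c.z a γ‖ ^ 2 := (bm_z c hγ).const_mul _
  have b5 : BM fun a => k + k * (b * c.J γ * ‖c.z a γ‖ ^ 2) := (BM.const k).add (b4.const_mul k)
  refine (h c.s a0 b γ γ' c.s_pos h0 h1 h2 Ψ' Ψ _ b1 b2 (b3.add b5) fun a ha => ?_).trans ?_
  · obtain ⟨c0, c2, ρ, c1, e1, e2, e3, e4⟩ := hh a ha
    refine ⟨c0, c2, ρ, c1, e1, e2, ?_⟩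
    have e5 : |c2| * (1 / c.J γ' + b * ‖c.z a γ‖ ^ 2) ≤
        D * (1 + b * c.J γ * ‖c.z a γ‖ ^ 2) := by
      have hJJ : c.J γ' ≤ c.J γ := by unfold Cav.J; linarith
      calc _ ≤ D * c.J γ' * (1 / c.J γ' + b * ‖c.z a γ‖ ^ 2) := by gcongr
        _ = D * (1 + b * c.J γ' * ‖c.z a γ‖ ^ 2) := by field_simp
        _ ≤ _ := by gcongr
    have e6 := mul_le_mul_of_nonneg_left e5
      (show 0 ≤ C * ((γ - γ') * ‖c.z a0 b‖ ^ 2) by positivity)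
    change c0 + c2 * ((γ - γ') * ‖c.z a γ‖ ^ 2 / c.J γ') + C * ((γ - γ') * ‖c.z a0 b‖ ^ 2 *
      (‖c1‖ + |c2| * (1 / c.J γ' + b * ‖c.z a γ‖ ^ 2)) + ρ) ≤ _
    rw [hk]; nlinarith
  · rw [integral_add (b3.integrable _) (b5.integrable _),
      integral_add (integrable_const _) ((b4.const_mul k).integrable _), integral_const_mul]
    have e7 : ∫ a, b * c.J γ * ‖c.z a γ‖ ^ 2 ∂law a0 b ≤ 4 :=
      (law_J_zz (s := c.s) (γ := γ) hJ a0 hb).trans Real.pi_le_four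
    have e8 := mul_le_mul_of_nonneg_left e7 hk0
    simp only [integral_const, probReal_univ, smul_eq_mul, one_mul]
    linarith

end alg

section lift
variable {L : Lat} (st : Stat L) {Y1 : Finset L.X}

theorem sum_lift (hY : Y1 ⊆ st.Y) {F G : L.X → (L.X → ℝ) → ℝ} (hF : ∀ y ∈ Y1, BM (F y))
    (hG : ∀ y ∈ Y1, BM (G y))
    (h : ∀ y ∈ Y1, ∀ a, ∫ t, F y (Function.update a y t) ∂law (st.a0 y) (st.b y) ≤
      ∫ t, G y (Function.update a y t) ∂law (st.a0 y) (st.b y)) :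
    st.Ia (fun a => ∑ y ∈ Y1, F y a) ≤ st.Ia fun a => ∑ y ∈ Y1, G y a := by
  rw [st.Ia_sum _ hF, st.Ia_sum _ hG]
  refine sum_le_sum fun y hy => st.lift (hF y hy) (hG y hy) y fun a => ?_
  rw [(st.hY y (hY hy)).1]; exact h y hy a


theorem dr_le (hY : Y1 ⊆ st.Y) {F : L.Mat → ℝ} (hF : Nice F) {γ' : L.X → ℝ}
    (hγ' : ∀ y ∈ Y1, 0 ≤ γ' y) (σ : ℝ) {G : L.X → (L.X → ℝ) → ℝ} (hG : ∀ y ∈ Y1, BM (G y))
    (h : ∀ y ∈ Y1, ∀ (a : L.X → ℝ) (c : Cav ((y, true) : L.P)),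
      (∀ t, L.Km st.E st.η st.γ (Function.update a y t) = c.K t (st.γ y)) →
      (∀ t, st.Kr (Function.update a y t) y = c.K (st.a0 y) (st.b y)) →
      σ * (∫ t, F (c.K t (γ' y)) ∂law (st.a0 y) (st.b y) -
        ∫ t, F (c.K t (st.γ y)) ∂law (st.a0 y) (st.b y)) ≤
      ∫ t, G y (Function.update a y t) ∂law (st.a0 y) (st.b y)) :
    σ * st.dr Y1 γ' F ≤ st.Ia fun a => ∑ y ∈ Y1, G y a := by
  have b1 : ∀ y ∈ Y1, BM fun a => F (L.Km st.E st.η (Function.update st.γ y (γ' y)) a) :=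
    fun y hy => st.bm_Km hF (st.update_nonneg y (hγ' y hy))
  have b2 := st.bm_Km hF st.γ_nonneg
  have b3 : ∀ y ∈ Y1, BM fun a => σ * (F (L.Km st.E st.η (Function.update st.γ y (γ' y)) a) -
      F (L.Km st.E st.η st.γ a)) := fun y hy => ((b1 y hy).sub b2).const_mul σ
  have e : σ * st.dr Y1 γ' F = st.Ia fun a => ∑ y ∈ Y1,
      σ * (F (L.Km st.E st.η (Function.update st.γ y (γ' y)) a) - F (L.Km st.E st.η st.γ a)) := by
    rw [st.Ia_sum _ b3, Stat.dr, mul_sum]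
    refine sum_congr rfl fun y hy => ?_
    rw [st.Ia_mul, st.Ia_sub (b1 y hy) b2]; rfl
  rw [e]
  refine sum_lift st hY b3 hG fun y hy a => ?_
  obtain ⟨c, e1, e2, e3, -⟩ := st.cav a (hY hy)
  have := law_prob (st.a0 y) (st.hY y (hY hy)).2.1
  simp only [e1 _ _ (hγ' y hy), e2]
  rw [integral_const_mul, integral_sub ((bm_K c hF (hγ' y hy)).integrable _)
    ((bm_K c hF (st.γ_nonneg y)).integrable _)]
  exact h y hy a c e2 e3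

theorem bm_bias (hY : Y1 ⊆ st.Y) {W : L.Mat → ℝ} (hW : Nice W) (w : L.P → L.P → ℝ) :
    ∀ y ∈ Y1, BM fun a => W (st.Kr a y) * (st.γ y / st.b y * Gam w (st.Kr a y) (y, true)) :=
  fun y hy => (st.bm_Kr hW (hY hy)).mul
    ((st.bm_Kr (nice_Gam w (y, true)) (hY hy)).const_mul _)

theorem mul_IB (k : ℝ) (W : L.Mat → ℝ) (w : L.P → L.P → ℝ) : k * st.IB Y1 W w =
    st.Ia fun a => ∑ y ∈ Y1,
      k * (W (st.Kr a y) * (st.γ y / st.b y * Gam w (st.Kr a y) (y, true))) := by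
  simp only [← mul_sum]; rw [st.Ia_mul]; rfl

theorem sum_true_le (Y1 : Finset L.X) {f : L.P → ℝ} (hf : ∀ p, 0 ≤ f p) :
    ∑ y ∈ Y1, f (y, true) ≤ ∑ p, f p := by
  rw [← sum_image (s := Y1) (g := fun y : L.X => ((y, true) : L.P)) (f := f)
    (fun _ _ _ _ h => (Prod.ext_iff.1 h).1)]
  exact sum_le_sum_of_subset_of_nonneg (subset_univ _) fun p _ _ => hf p

end lift

end Crest.Agent.N334.G.Qd
end
end

-- ▼ part N334/G/Quad

/-!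
# Row 334, S0519 GAIN: energies of vector-valued functions: expansion, drift, trivial bias, bad share
-/

set_option autoImplicit false

open MeasureTheory Finset Complex
open scoped BigOperators ComplexConjugate

noncomputable section

namespace Crest.Agent.N334.G

theorem en_osc : ∃ C : ℝ, 0 < C ∧ ∀ (P : Type) [Fintype P] [DecidableEq P] (y : P) (c : Cav y)
    (ι : Type) [Fintype ι] (Φ : ι → P → ℝ) (a a' γ γ' : ℝ), 0 ≤ γ' → 0 ≤ γ →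
    (∀ p q, wt Φ p q ≤ 4) → |En (wt Φ) (c.K a' γ') - En (wt Φ) (c.K a γ)| ≤ C :=
  ⟨320, by norm_num, fun _ _ _ _ c _ _ Φ a a' _ _ h' h h4 => Qd.osc c Φ h4 h' h a a'⟩

namespace Qd

/-- the one-site drift of the energy, both signs -/
theorem siteQ : ∃ C : ℝ, 0 < C ∧ ∀ (P : Type) [Fintype P] [DecidableEq P] (y : P) (c : Cav y)
    (ι : Type) [Fintype ι] (Φ : ι → P → ℝ) (a0 b γ γ' σ : ℝ), 0 ≤ γ' → γ' ≤ γ → γ ≤ b → 0 < b →
    |σ| = 1 →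
    σ * (∫ t, En (wt Φ) (c.K t γ') ∂law a0 b - ∫ t, En (wt Φ) (c.K t γ) ∂law a0 b) ≤
      ∫ t, (C * c.Bq a0 b γ (wt Φ) -
        σ * (8 * (γ - γ') * ‖c.z t γ‖ ^ 2 / c.J γ' * mm c Φ)) ∂law a0 b := by
  obtain ⟨C, hC, h⟩ := step
  refine ⟨22 * C, by positivity, fun P _ _ y c ι _ Φ a0 b γ γ' σ h0 h1 h2 hb hσ => ?_⟩
  have := law_prob a0 hb
  have hγ := h0.trans h1
  have hB := Bq_nonneg c a0 b hγ (wt_nonneg Φ)
  have hV := V_nonneg c (wt_nonneg Φ)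
  rcases h1.eq_or_lt with rfl | h1'
  · simp only [sub_self, mul_zero, zero_mul, zero_div, sub_zero]
    exact integral_nonneg fun _ => by positivity
  have bz : BM fun t => σ * (8 * (γ - γ') * ‖c.z t γ‖ ^ 2 / c.J γ' * mm c Φ) := by
    have := (bm_z c hγ).const_mul (σ * (8 * (γ - γ') / c.J γ' * mm c Φ))
    convert this using 2; ring
  obtain ⟨k, hk⟩ : ∃ k, k = (γ - γ') * ‖c.z a0 b‖ ^ 2 * c.V (wt Φ) := ⟨_, rfl⟩
  have hk2 : 4 * k ≤ c.Bq a0 b γ (wt Φ) := by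
    have : 0 ≤ γ' * ‖c.z a0 b‖ ^ 2 * c.V (wt Φ) := by positivity
    rw [hk]; unfold Cav.Bq; nlinarith
  have key := h P y c a0 b γ γ' (8 * c.V (wt Φ)) h0 h1' h2 (by positivity)
    (fun t => σ * En (wt Φ) (c.K t γ')) (fun t => σ * En (wt Φ) (c.K t γ))
    (fun t => 48 * C * k - σ * (8 * (γ - γ') * ‖c.z t γ‖ ^ 2 / c.J γ' * mm c Φ))
    ((bm_K c (nice_En _) h0).const_mul σ) ((bm_K c (nice_En _) hγ).const_mul σ)
    ((BM.const _).sub bz) fun a _ => by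
      have e : ∀ a', σ * -(8 * (γ - γ') * ‖c.z a γ‖ ^ 2 * c.V (wt Φ)) +
          ((σ * c1 c (wt Φ) a γ γ') * (c.z a' γ' - c.z a γ)).re +
          σ * C2 c (wt Φ) γ' * ‖c.z a' γ' - c.z a γ‖ ^ 2 =
          σ * En (wt Φ) (c.K a' γ') - σ * En (wt Φ) (c.K a γ) := by
        intro a'
        rw [← mul_sub σ, expand c (wt_symm Φ) (wt_self Φ y) hγ h0 a a', mul_assoc (σ : ℂ),
          re_ofReal_mul]
        ring
      refine ⟨_, _, 0, _, fun a' => (e a').le, by simp only [e, sub_self, mul_zero]; simp, ?_, ?_⟩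
      · rw [abs_mul, hσ, one_mul, abs_of_nonneg (C2_nonneg c (wt_nonneg Φ) γ')]
        linarith [C2_wt_le c Φ h0]
      · have e2 := congrArg (σ * ·) (ideal_wt c Φ (γ := γ) h0 a)
        have e3 : ‖(σ : ℂ) * c1 c (wt Φ) a γ γ'‖ ≤ 48 * c.V (wt Φ) := by
          rw [norm_mul, Complex.norm_real, Real.norm_eq_abs, hσ, one_mul]
          exact c1_wt c Φ h0 h1 a
        have e4 := mul_le_mul_of_nonneg_left e3
          (show 0 ≤ C * ((γ - γ') * ‖c.z a0 b‖ ^ 2) by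
            have : 0 ≤ γ - γ' := by linarith
            positivity)
        beta_reduce at e2
        rw [hk]; nlinarith
  rw [integral_const_mul, integral_const_mul,
    integral_sub (integrable_const _) (bz.integrable _)] at key
  rw [integral_sub (integrable_const _) (bz.integrable _)]
  simp only [integral_const, probReal_univ, smul_eq_mul, one_mul] at key ⊢
  have e5 : 5 * C * ((γ - γ') * ‖c.z a0 b‖ ^ 2 * (8 * c.V (wt Φ))) = 40 * C * k := by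
    rw [hk]; ring
  have e6 := mul_le_mul_of_nonneg_left hk2 hC.le
  rw [e5] at key
  nlinarith

theorem Gn_eq {P : Type} [Fintype P] [DecidableEq P] {y : P} (c : Cav y) {ι : Type} [Fintype ι]
    (Φ : ι → P → ℝ) {γ : ℝ} (hγ : 0 ≤ γ) (t : ℝ) :
    2 * Gn Φ (c.K t γ) y = 8 * (γ - γ / 2) * ‖c.z t γ‖ ^ 2 / c.J (γ / 2) * mm c Φ := by
  have e : ∀ j, mv (Φ j) (c.K t γ) y =
      4 * γ * ‖c.z t γ‖ ^ 2 * ∑ p, ‖c.rho p‖ ^ 2 * (Φ j p - Φ j y) := by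
    intro j
    rw [← sum_nv c hγ (f := fun p => Φ j p - Φ j y) (sub_self _), mul_sum]
    exact sum_congr rfl fun q _ => by rw [c.cc_y t γ hγ]; ring
  have hJ := (c.J_pos (γ := γ / 2) (by linarith)).ne'
  have e2 : 2 * c.J γ - γ = 2 * c.J (γ / 2) := by unfold Cav.J; ring
  simp only [Gn, e, mul_pow, ← mul_sum, c.nu_y t γ hγ, e2]
  change _ = _ * ∑ j, _
  by_cases h0 : γ = 0
  · simp [h0]
  by_cases h1 : ‖c.z t γ‖ = 0
  · simp [h1]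
  field_simp
  ring

end Qd

theorem driftQ : ∃ C : ℝ, 0 < C ∧ ∀ (L : Lat) (st : Stat L) (Y1 : Finset L.X), Y1 ⊆ st.Y →
    ∀ (ι : Type) [Fintype ι] (Φ : ι → L.P → ℝ) (γ' : L.X → ℝ),
    (∀ y ∈ Y1, 0 ≤ γ' y ∧ γ' y ≤ st.γ y) →
    st.dr Y1 γ' (En (wt Φ)) ≤ C * st.IB Y1 (fun _ => 1) (wt Φ) := by
  obtain ⟨C, hC, h⟩ := Qd.siteQ
  refine ⟨C, hC, fun L st Y1 hY ι _ Φ γ' hγ' => ?_⟩
  rw [Qd.mul_IB, ← one_mul (st.dr _ _ _)]
  refine Qd.dr_le st hY (nice_En _) (fun y hy => (hγ' y hy).1) 1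
    (fun y hy => (Qd.bm_bias st hY (Nice.const 1) _ y hy).const_mul C) fun y hy a c e2 e3 => ?_
  obtain ⟨-, hb, -, hγb⟩ := st.hY y (hY hy)
  have := law_prob (st.a0 y) hb
  refine (h _ _ c ι Φ _ _ _ _ 1 (hγ' y hy).1 (hγ' y hy).2 hγb hb abs_one).trans ?_
  simp only [e3, one_mul, c.Bq_eq hb (Qd.wt_self Φ _)]
  have bz : BM fun t => 8 * (st.γ y - γ' y) * ‖c.z t (st.γ y)‖ ^ 2 / c.J (γ' y) * Qd.mm c Φ := by
    have := (Qd.bm_z c (st.γ_nonneg y)).const_mul (8 * (st.γ y - γ' y) / c.J (γ' y) * Qd.mm c Φ)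
    convert this using 2; ring
  refine integral_mono (((BM.const _).sub bz).integrable _) (integrable_const _) fun t => ?_
  have h1 := sub_nonneg.2 (hγ' y hy).2
  have h2 := c.J_pos (hγ' y hy).1
  have h3 := Qd.mm_nonneg c Φ
  exact sub_le_self _ (by positivity)
theorem driftQ_half : ∃ C : ℝ, 0 < C ∧ ∀ (L : Lat) (st : Stat L) (Y1 : Finset L.X), Y1 ⊆ st.Y →
    ∀ (ι : Type) [Fintype ι] (Φ : ι → L.P → ℝ),
    |st.dr Y1 st.half (En (wt Φ)) + 2 * st.I0 (fun K => ∑ y ∈ Y1, Gn Φ K (y, true))| ≤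
      C * st.IB Y1 (fun _ => 1) (wt Φ) := by
  obtain ⟨C, hC, h⟩ := Qd.siteQ
  refine ⟨C, hC, fun L st Y1 hY ι _ Φ => ?_⟩
  have b1 := fun y hy => (Qd.bm_bias st hY (Nice.const 1) (wt Φ) y hy).const_mul C
  have b2 : ∀ σ : ℝ, ∀ y ∈ Y1, BM fun a => σ * (2 * Gn Φ (L.Km st.E st.η st.γ a) (y, true)) :=
    fun σ y _ => ((st.bm_Km (nice_Gn Φ (y, true)) st.γ_nonneg).const_mul 2).const_mul σ
  have key : ∀ σ : ℝ, |σ| = 1 → σ * st.dr Y1 st.half (En (wt Φ)) ≤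
      C * st.IB Y1 (fun _ => 1) (wt Φ) -
        σ * (2 * st.I0 (fun K => ∑ y ∈ Y1, Gn Φ K (y, true))) := by
    intro σ hσ
    have e : σ * (2 * st.I0 (fun K => ∑ y ∈ Y1, Gn Φ K (y, true))) = st.Ia fun a =>
        ∑ y ∈ Y1, σ * (2 * Gn Φ (L.Km st.E st.η st.γ a) (y, true)) := by
      simp only [← mul_sum]; rw [st.Ia_mul, st.Ia_mul]; rfl
    rw [Qd.mul_IB, e, ← st.Ia_sub (BM.sum _ b1) (BM.sum _ (b2 σ))]
    simp only [← sum_sub_distrib]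
    have hh : ∀ y, 0 ≤ st.half y := fun y => div_nonneg (st.γ_nonneg y) two_pos.le
    refine Qd.dr_le st hY (nice_En _) (fun y _ => hh y) σ
      (fun y hy => (b1 y hy).sub (b2 σ y hy)) fun y hy a c e2 e3 => ?_
    obtain ⟨-, hb, -, hγb⟩ := st.hY y (hY hy)
    refine (h _ _ c ι Φ _ _ _ _ σ (hh y) (half_le_self (st.γ_nonneg y)) hγb hb hσ).trans
      (le_of_eq ?_)
    simp only [e2, e3, one_mul, c.Bq_eq hb (Qd.wt_self Φ _), Qd.Gn_eq c Φ (st.γ_nonneg y),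
      Stat.half]
  have k1 := key 1 abs_one
  have k2 := key (-1) (by simp)
  rw [abs_le]; constructor <;> linarith
theorem badShare : ∃ C : ℝ, 0 < C ∧ ∀ (L : Lat) (st : Stat L) (w : L.P → L.P → ℝ),
    (∀ p q, 0 ≤ w p q) → (∀ p, w p p = 0) →
    st.Ia (fun a => ∑ y ∈ st.Y \ st.Gd a, Gam w (L.Km st.E st.η st.γ a) (y, true)) ≤
      C * st.IB st.Y (fun _ => 1) w := by
  classical
  obtain ⟨C, hC, h⟩ := bad1
  refine ⟨C, hC, fun L st w hw hs => ?_⟩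
  have e : ∀ a, ∑ y ∈ st.Y \ st.Gd a, Gam w (L.Km st.E st.η st.γ a) (y, true) =
      ∑ y ∈ st.Y, if y ∈ st.Gd a then 0 else Gam w (L.Km st.E st.η st.γ a) (y, true) := by
    intro a
    rw [sdiff_eq_filter, sum_filter]
    exact sum_congr rfl fun y _ => by split_ifs <;> simp_all
  simp only [e]
  rw [Qd.mul_IB]
  refine Qd.sum_lift st subset_rfl (fun y _ => BM.ite (st.measurableSet_Gd y) (BM.const 0)
    (st.bm_Km (nice_Gam w (y, true)) st.γ_nonneg))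
    (fun y hy => (Qd.bm_bias st subset_rfl (Nice.const 1) w y hy).const_mul C) fun y hy a => ?_
  obtain ⟨-, hb, -, hγb⟩ := st.hY y hy
  obtain ⟨c, -, e2, e3, e4⟩ := st.cav a hy
  have := law_prob (st.a0 y) hb
  have hγ := st.γ_nonneg y
  have hV := Qd.V_nonneg c hw
  have e5 : ∀ t, (if y ∈ st.Gd (Function.update a y t) then 0 else
      Gam w (L.Km st.E st.η st.γ (Function.update a y t)) (y, true)) = 4 * st.γ y * c.V w *
      (if Good (st.a0 y) (st.b y) (st.γ y) c.s t then 0 else ‖zz c.s t (st.γ y)‖ ^ 2) := by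
    intro t
    rw [e2, c.Gam_y t _ hγ (hs _)]
    by_cases hg : Good (st.a0 y) (st.b y) (st.γ y) c.s t
    · rw [if_pos hg, if_pos ((e4 t).2 hg), mul_zero]
    · rw [if_neg hg, if_neg fun h' => hg ((e4 t).1 h')]; unfold Cav.z; ring
  simp only [e5, e3, one_mul, c.Bq_eq hb (hs _)]
  rw [integral_const_mul]
  simp only [integral_const, probReal_univ, smul_eq_mul, one_mul]
  calc _ ≤ 4 * st.γ y * c.V w * (C * ‖zz c.s (st.a0 y) (st.b y)‖ ^ 2) :=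
        mul_le_mul_of_nonneg_left (h c.s _ _ _ c.s_pos hγ hγb hb) (by positivity)
    _ = _ := by unfold Cav.Bq Cav.z; ring

end Crest.Agent.N334.G
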