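import Crest.Agent.N334.G.B0
import Crest.Agent.N334.G.Lift
import Crest.Agent.N334.G.Trace
import Crest.Agent.N334.G.Geo2
import Crest.Agent.N334.G.Defs
import Crest.Agent.N334.G.Quad

-- ▼ part N334/G/B0a
section

/-!
# Row 334, S0519 GAIN (B), part 0a: linearisation coefficients of the depth potential and the
cubic bias functional (helper83)
-/

set_option autoImplicit false

open MeasureTheory Finset Complex
open scoped BigOperators ComplexConjugate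

noncomputable section

namespace Crest.Agent.N334.G.B0

variable (L : Lat)

def Fc (Y : Finset L.X) (i : ℝ) (K : L.Mat) (p : L.P) (m : ℕ) : ℝ :=
  if p.2 = true ∧ p.1 ∈ Y then fn (Real.exp (-i)) (L.th K p m) else i
def Dc (Y : Finset L.X) (i : ℝ) (K : L.Mat) (p : L.P) (m : ℕ) : ℝ :=
  if p.2 = true ∧ p.1 ∈ Y then fd (Real.exp (-i)) (L.th K p m) else 0
def Wt (Y : Finset L.X) (i : ℝ) (K : L.Mat) (p q : L.P) : ℝ :=
  ∑ m ∈ range L.N, 4 ^ m * Fc L Y i K p m * L.wh m p q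
def hK (Y : Finset L.X) (i : ℝ) (K : L.Mat) (m' : ℕ) (p : L.P) : ℝ :=
  (∑ m ∈ range L.N, 4 ^ m * L.al m m' * Fc L Y i K p m) / 4 ^ m'
def Uj (m : ℕ) (j : Fin 2) : L.P → ℂ := fun p => L.U (m + 1) j p.1
def TT (Y : Finset L.X) (i : ℝ) (K : L.Mat) (y : L.P) : ℝ :=
  ∑ m ∈ range L.N, ∑ j, 4 ^ m * (‖Th3 (hK L Y i K m) (Uj L m j) K y‖ ^ 2 /
    Gam (fun p q => ‖Uj L m j p - Uj L m j q‖ ^ 4) K y)
def EE (K : L.Mat) (y : L.P) : ℝ := ∑ p, cc K y p * (Gam L.r2 K p / dd K p)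

variable {L}

theorem r2_nonneg (p q : L.P) : 0 ≤ L.r2 p q := L.rx_nonneg _ _
theorem r2_symm (p q : L.P) : L.r2 p q = L.r2 q p := L.rx_symm _ _
theorem r2_self (p : L.P) : L.r2 p p = 0 := L.rx_self _
theorem r2_tri (y p q : L.P) : L.r2 p q ≤ 2 * L.r2 y p + 2 * L.r2 y q := by
  rw [r2_symm y p]; exact L.rx_le_two _ _ _

theorem Fc_bd (Y : Finset L.X) (i : ℝ) (K : L.Mat) (p : L.P) (m : ℕ) :
    L.gd Y i K p m - 1 ≤ Fc L Y i K p m ∧ Fc L Y i K p m ≤ L.gd Y i K p m := by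
  unfold Fc Lat.gd fn
  split_ifs
  · have h0 := L.th_nonneg K p m
    have he := Real.exp_pos (-i)
    have h1 : 0 ≤ L.th K p m / (L.th K p m + Real.exp (-i)) := by positivity
    have h2 : L.th K p m / (L.th K p m + Real.exp (-i)) ≤ 1 := by
      rw [div_le_one (by positivity)]; linarith
    constructor <;> linarith
  · constructor <;> linarith

theorem Fc_abs (Y : Finset L.X) {i : ℝ} (hi : 1 ≤ i) (K : L.Mat) (p : L.P) (m : ℕ) :
    |Fc L Y i K p m| ≤ 7 * i := by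
  have h1 := Fc_bd Y i K p m
  have h2 := L.gd_bdd Y (show 0 ≤ i by linarith) K p m
  rw [abs_le]; constructor <;> linarith [h1.1, h1.2, h2.1, h2.2]

theorem Dc_bd (Y : Finset L.X) (i : ℝ) (K : L.Mat) (p : L.P) (m : ℕ) :
    0 ≤ Dc L Y i K p m ∧ Dc L Y i K p m ≤ L.th K p m := by
  have h0 := L.th_nonneg K p m
  unfold Dc fd
  split_ifs
  · have he := Real.exp_pos (-i)
    refine ⟨by positivity, ?_⟩
    rw [div_le_iff₀ (by positivity)]; nlinarith
  · exact ⟨le_rfl, h0⟩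

theorem sum_th (K : L.Mat) (p : L.P) :
    ∑ m ∈ range L.N, 4 ^ m * L.th K p m = Gam L.r2 K p / dd K p := by
  rw [← L.sum_nn, sum_div]
  exact sum_congr rfl fun m _ => by unfold Lat.th; ring

theorem sum_Dc (Y : Finset L.X) (i : ℝ) (K : L.Mat) (p : L.P) :
    |∑ m ∈ range L.N, 4 ^ m * Dc L Y i K p m| ≤ Gam L.r2 K p / dd K p := by
  rw [abs_of_nonneg (sum_nonneg fun m _ => mul_nonneg (by positivity) (Dc_bd Y i K p m).1),
    ← sum_th]
  exact sum_le_sum fun m _ => mul_le_mul_of_nonneg_left (Dc_bd Y i K p m).2 (by positivity)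

theorem Wt_abs (Y : Finset L.X) {i : ℝ} (hi : 1 ≤ i) (K : L.Mat) (p q : L.P) :
    |Wt L Y i K p q| ≤ 7 * i * L.r2 p q := by
  unfold Wt
  rw [← L.sum_wh, mul_sum]
  refine (abs_sum_le_sum_abs _ _).trans (sum_le_sum fun m _ => ?_)
  have := L.wh_nonneg m p q
  rw [abs_mul, abs_mul, abs_of_nonneg this, abs_of_nonneg (by positivity : (0 : ℝ) ≤ 4 ^ m)]
  calc _ ≤ 4 ^ m * (7 * i) * L.wh m p q := by gcongr; exact Fc_abs Y hi K p m
    _ = _ := by ring

theorem hK_abs (Y : Finset L.X) {i : ℝ} (hi : 1 ≤ i) (K : L.Mat) {m' : ℕ} (hm : m' < L.N)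
    (p : L.P) : |hK L Y i K m' p| ≤ 7 * i := by
  unfold hK
  rw [abs_div, abs_of_nonneg (by positivity : (0 : ℝ) ≤ 4 ^ m'), div_le_iff₀ (by positivity),
    ← L.sum_al hm, mul_sum]
  refine (abs_sum_le_sum_abs _ _).trans (sum_le_sum fun m _ => ?_)
  have h0 : 0 ≤ 4 ^ m * L.al m m' := mul_nonneg (by positivity) (L.al_nonneg m m')
  rw [abs_mul, abs_of_nonneg h0, mul_comm]
  exact mul_le_mul_of_nonneg_right (Fc_abs Y hi K p m) h0

theorem s4_eq (m : ℕ) (p q : L.P) : L.s4 m p q = ∑ j, ‖Uj L m j p - Uj L m j q‖ ^ 4 := by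
  unfold Lat.s4 Lat.del Uj
  exact sum_congr rfl fun j _ => by ring

theorem Wt_eq (Y : Finset L.X) (i : ℝ) (K : L.Mat) (p q : L.P) :
    Wt L Y i K p q = ∑ m ∈ range L.N, ∑ j,
      4 ^ m * (hK L Y i K m p * ‖Uj L m j p - Uj L m j q‖ ^ 4) := by
  unfold Wt Lat.wh hK
  simp only [mul_sum]
  rw [sum_comm]
  refine sum_congr rfl fun m' _ => ?_
  rw [s4_eq, ← mul_sum, ← mul_sum, ← mul_assoc, mul_div_cancel₀ _ (by positivity), sum_mul]
  exact sum_congr rfl fun m _ => by ring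

theorem T3_eq (Y : Finset L.X) (i : ℝ) (K : L.Mat) (y : L.P) :
    T3 (Wt L Y i K) K y = ∑ m ∈ range L.N, ∑ j,
      ((4 ^ m : ℝ) : ℂ) * Th3 (hK L Y i K m) (Uj L m j) K y := by
  unfold T3 Th3
  simp only [Wt_eq, ofReal_sum, sum_mul, mul_sum]
  calc _ = ∑ p, ∑ m ∈ range L.N, ∑ q, ∑ j, _ := sum_congr rfl fun p _ => sum_comm
    _ = ∑ m ∈ range L.N, ∑ p, ∑ q, ∑ j, _ := sum_comm
    _ = ∑ m ∈ range L.N, ∑ p, ∑ j, ∑ q, _ :=
        sum_congr rfl fun m _ => sum_congr rfl fun p _ => sum_comm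
    _ = ∑ m ∈ range L.N, ∑ j, ∑ p, ∑ q, _ := sum_congr rfl fun m _ => sum_comm
    _ = _ := by
        refine sum_congr rfl fun m _ => sum_congr rfl fun j _ => sum_congr rfl fun p _ =>
          sum_congr rfl fun q _ => ?_
        push_cast; ring

theorem sum_Gam4 (K : L.Mat) (y : L.P) : ∑ m ∈ range L.N, ∑ j,
    4 ^ m * Gam (fun p q => ‖Uj L m j p - Uj L m j q‖ ^ 4) K y = Gam L.r2 K y := by
  unfold Gam
  simp only [L.r2_eq_sum, s4_eq, mul_sum]
  calc _ = ∑ m ∈ range L.N, ∑ q, ∑ j, _ := sum_congr rfl fun m _ => sum_comm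
    _ = ∑ q, ∑ m ∈ range L.N, ∑ j, _ := sum_comm
    _ = _ := by
        refine sum_congr rfl fun q _ => sum_congr rfl fun m _ => sum_congr rfl fun j _ => ?_
        ring

theorem amgm {x t G i : ℝ} (hi : 1 ≤ i) (hG : 0 ≤ G) (h0 : G = 0 → t = 0) :
    x * t ≤ t ^ 2 / G / i ^ 2 + i ^ 2 * x ^ 2 * G := by
  rcases hG.eq_or_lt with h | h
  · rw [h0 h.symm, ← h]; simp
  · have hi2 : 0 < i ^ 2 := by positivity
    have : t ^ 2 / G / i ^ 2 + i ^ 2 * x ^ 2 * G - x * t =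
        ((t - i ^ 2 * x * G / 2) ^ 2 + 3 / 4 * (i ^ 2 * x * G) ^ 2) / (G * i ^ 2) := by
      field_simp; ring
    have h2 : 0 ≤ ((t - i ^ 2 * x * G / 2) ^ 2 + 3 / 4 * (i ^ 2 * x * G) ^ 2) / (G * i ^ 2) := by
      positivity
    linarith

theorem norm_Uj (m : ℕ) (j : Fin 2) (p : L.P) : ‖Uj L m j p‖ = 1 := L.norm_U _ _ _

theorem T3_le (Y : Finset L.X) {i : ℝ} (hi : 1 ≤ i) {K : L.Mat} (hKp : IsPort K) (y : L.P)
    {x : ℝ} (hx : 0 ≤ x) :
    x * ‖T3 (Wt L Y i K) K y‖ ≤ TT L Y i K y / i ^ 2 + i ^ 2 * x ^ 2 * Gam L.r2 K y := by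
  obtain ⟨C, -, hC⟩ := trace3
  rw [T3_eq, ← sum_Gam4, TT, sum_div, mul_sum, ← sum_add_distrib]
  refine (mul_le_mul_of_nonneg_left (norm_sum_le _ _) hx).trans ?_
  rw [mul_sum]
  refine sum_le_sum fun m hm => ?_
  rw [sum_div, mul_sum, ← sum_add_distrib]
  refine (mul_le_mul_of_nonneg_left (norm_sum_le _ _) hx).trans ?_
  rw [mul_sum]
  refine sum_le_sum fun j _ => ?_
  have h1 := (hC L.P K hKp (Uj L m j) (hK L Y i K m) (7 * i) (norm_Uj m j)
    (hK_abs Y hi K (mem_range.1 hm))).1 y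
  have h2 := amgm (x := x) (t := ‖Th3 (hK L Y i K m) (Uj L m j) K y‖) hi
    (Gam_nonneg (w := fun p q => ‖Uj L m j p - Uj L m j q‖ ^ 4) (fun p q => by positivity) K y)
    (fun h => by rw [h1 h, norm_zero])
  rw [norm_mul, Complex.norm_real, Real.norm_eq_abs, abs_of_nonneg (by positivity)]
  have h4 : (0 : ℝ) ≤ 4 ^ m := by positivity
  calc _ = 4 ^ m * (x * ‖Th3 (hK L Y i K m) (Uj L m j) K y‖) := by ring
    _ ≤ _ := (mul_le_mul_of_nonneg_left h2 h4).trans (le_of_eq (by ring))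

theorem TT_nonneg (Y : Finset L.X) (i : ℝ) (K : L.Mat) (y : L.P) : 0 ≤ TT L Y i K y :=
  sum_nonneg fun _ _ => sum_nonneg fun _ _ => mul_nonneg (by positivity)
    (div_nonneg (sq_nonneg _) (Gam_nonneg (fun _ _ => by positivity) K y))

theorem sum_TT : ∃ C : ℝ, 0 < C ∧ ∀ (L : Lat) (Y : Finset L.X) (i : ℝ), 1 ≤ i →
    ∀ K : L.Mat, IsPort K → ∑ y, TT L Y i K y / i ^ 2 ≤ C * En L.r2 K := by
  obtain ⟨C, hC0, hC⟩ := trace3
  refine ⟨49 * C, by positivity, fun L Y i hi K hKp => ?_⟩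
  rw [← sum_div, div_le_iff₀ (by positivity)]
  have hE : En L.r2 K = ∑ m ∈ range L.N, ∑ j,
      4 ^ m * En (fun p q => ‖Uj L m j p - Uj L m j q‖ ^ 4) K := by
    unfold En
    simp only [← sum_Gam4, mul_sum]
    calc _ = ∑ m ∈ range L.N, ∑ p, ∑ j, _ := sum_comm
      _ = _ := sum_congr rfl fun m _ => sum_comm
  unfold TT
  rw [sum_comm, hE, mul_sum, sum_mul]
  refine sum_le_sum fun m hm => ?_
  rw [sum_comm, mul_sum, sum_mul]
  refine sum_le_sum fun j _ => ?_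
  have h1 := (hC L.P K hKp (Uj L m j) (hK L Y i K m) (7 * i) (norm_Uj m j)
    (hK_abs Y hi K (mem_range.1 hm))).2
  rw [← mul_sum]
  have h4 : (0 : ℝ) ≤ 4 ^ m := by positivity
  exact (mul_le_mul_of_nonneg_left h1 h4).trans (le_of_eq (by ring))

theorem EE_nonneg (K : L.Mat) (y : L.P) : 0 ≤ EE L K y :=
  sum_nonneg fun _ _ => mul_nonneg (cc_nonneg _ _ _)
    (div_nonneg (Gam_nonneg r2_nonneg _ _) (dd_nonneg _ _))

theorem sum_EE {K : L.Mat} (hKp : IsPort K) : ∑ y, EE L K y ≤ En L.r2 K := by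
  unfold EE En
  rw [sum_comm]
  refine sum_le_sum fun p _ => ?_
  simp only [fun y => hKp.cc_symm y p]
  rw [← sum_mul]
  change dd K p * _ ≤ _
  rcases (dd_nonneg K p).eq_or_lt with h | h
  · rw [← h, zero_mul]; exact Gam_nonneg r2_nonneg _ _
  · rw [mul_div_cancel₀ _ h.ne']

theorem sum_act_le (Y1 : Finset L.X) {f : L.P → ℝ} (hf : ∀ p, 0 ≤ f p) :
    ∑ y ∈ Y1, f (y, true) ≤ ∑ p, f p := by
  rw [Fintype.sum_prod_type]
  refine (sum_le_sum fun y _ => ?_).trans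
    (sum_le_sum_of_subset_of_nonneg (subset_univ Y1) fun y _ _ => sum_nonneg fun b _ => hf _)
  exact single_le_sum (f := fun b => f (y, b)) (fun b _ => hf _) (mem_univ true)

theorem nice_EE (y : L.P) : Nice fun K => EE L K y := by
  unfold EE
  refine Nice.sum _ fun p _ => (nice_cc y p).mul ?_
  simp only [← sum_th]
  exact Nice.sum _ fun m _ => (Nice.const _).mul (L.nice_th p m)

theorem measurable_hK (Y : Finset L.X) (i : ℝ) (m' : ℕ) (p : L.P) :
    Measurable fun K => hK L Y i K m' p := by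
  unfold hK
  refine Measurable.div_const (Finset.measurable_sum _ fun m _ => Measurable.const_mul ?_ _) _
  unfold Fc fn
  have h := (L.nice_th p m).meas
  split_ifs
  · exact (h.add_const _).log.neg.sub (h.div (h.add_const _))
  · exact measurable_const

theorem nice_TT (Y : Finset L.X) {i : ℝ} (hi : 1 ≤ i) (y : L.P) :
    Nice fun K => TT L Y i K y / i ^ 2 := by
  obtain ⟨C, hC0, hC⟩ := sum_TT
  constructor
  · unfold TT
    refine Measurable.div_const (Finset.measurable_sum _ fun m _ =>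
      Finset.measurable_sum _ fun j _ => Measurable.const_mul (Measurable.div
        (Measurable.pow_const (Measurable.norm ?_) _) (nice_Gam _ y).meas) _) _
    unfold Th3
    have hm : ∀ p q : L.P, Measurable fun K : L.Mat => K p q := fun p q =>
      (measurable_pi_apply q).comp (measurable_pi_apply p)
    refine Finset.measurable_sum _ fun p _ => Finset.measurable_sum _ fun q _ => ?_
    exact ((((Complex.measurable_ofReal.comp (measurable_hK Y i m p)).mul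
      (Complex.continuous_conj.measurable.comp (hm p q))).mul (hm p y)).mul (hm q y)).mul_const _
  · obtain ⟨B, hB⟩ := (nice_En L.r2).bdd
    refine ⟨C * B, fun K hKp => ?_⟩
    have h0 : ∀ y, 0 ≤ TT L Y i K y / i ^ 2 := fun y =>
      div_nonneg (TT_nonneg Y i K y) (by positivity)
    rw [abs_of_nonneg (h0 y)]
    calc _ ≤ ∑ y, TT L Y i K y / i ^ 2 :=
          single_le_sum (f := fun y => TT L Y i K y / i ^ 2) (fun y _ => h0 y) (mem_univ y)
      _ ≤ C * En L.r2 K := hC L Y i hi K hKp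
      _ ≤ _ := mul_le_mul_of_nonneg_left ((le_abs_self _).trans (hB K hKp)) hC0.le

end Crest.Agent.N334.G.B0
end
end

-- ▼ part N334/G/B1
section

/-!
# Row 334, S0519 GAIN: (B) redistribution and falls (deterministic)
-/

set_option autoImplicit false

open MeasureTheory Finset Complex
open scoped BigOperators ComplexConjugate

noncomputable section

namespace Crest.Agent.N334.G

namespace B1

/-- Lipschitz in the scale -/
lemma lip {g : ℕ → ℝ} (h : ∀ m, |g (m + 1) - g m| ≤ 3) (m n : ℕ) :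
    |g m - g n| ≤ 3 * |(m : ℝ) - n| := by
  have key : ∀ a k : ℕ, |g (a + k) - g a| ≤ 3 * k := fun a k => by
    induction k with
    | zero => simp
    | succ k ih =>
      have := abs_sub_le (g (a + k + 1)) (g (a + k)) (g a)
      have := h (a + k)
      rw [← add_assoc]; push_cast; linarith
  rcases le_total n m with hle | hle <;> obtain ⟨k, rfl⟩ := Nat.exists_eq_add_of_le hle
  · simpa using key n k
  · rw [abs_sub_comm]; simpa using key m k

lemma sc_range (L : Lat) (p q : L.P) (h : L.r2 p q ≠ 0) :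
    4 ^ L.sc (L.r2 p q) ≤ L.r2 p q ∧ L.r2 p q ≤ 128 * 4 ^ L.sc (L.r2 p q) := by
  have h1 := (L.r2_gap p q).resolve_left h
  have h2 : L.r2 p q ≤ 8 * 4 ^ L.N := L.rho2_le_pow L.N p q
  have h3 : (0 : ℝ) ≤ 4 ^ L.N := by positivity
  exact L.sc_spec (by linarith) (by linarith)

lemma sc_aux {x z : ℝ} {m k : ℕ} (hx : x ≤ 128 * 4 ^ m) (hz : 4 ^ (m + k) ≤ z) :
    (k : ℝ) ^ 2 * x ≤ 128 * z := by
  have h1 : (k : ℝ) ≤ 2 ^ k := by exact_mod_cast (Nat.lt_two_pow_self (n := k)).le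
  have h2 : (k : ℝ) ^ 2 ≤ 4 ^ k := by
    calc (k : ℝ) ^ 2 ≤ (2 ^ k) ^ 2 := by gcongr
      _ = 4 ^ k := by rw [← pow_mul, mul_comm, pow_mul]; norm_num
  calc (k : ℝ) ^ 2 * x ≤ (k : ℝ) ^ 2 * (128 * 4 ^ m) := by gcongr
    _ ≤ 4 ^ k * (128 * 4 ^ m) := by gcongr
    _ = 128 * 4 ^ (m + k) := by ring
    _ ≤ 128 * z := by gcongr

/-- the scales of two lengths differ logarithmically -/
lemma sc_diff {a b : ℝ} {m n : ℕ} (ha : 0 ≤ a) (hb : 0 ≤ b)
    (h1 : a ≠ 0 → 4 ^ m ≤ a ^ 2 ∧ a ^ 2 ≤ 128 * 4 ^ m)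
    (h2 : b ≠ 0 → 4 ^ n ≤ b ^ 2 ∧ b ^ 2 ≤ 128 * 4 ^ n) :
    |(m : ℝ) - n| * (a * b) ≤ 12 * (a ^ 2 + b ^ 2) := by
  wlog hle : m ≤ n generalizing a b m n
  · have := this hb ha h2 h1 (not_le.1 hle).le
    rw [abs_sub_comm, mul_comm a b, add_comm (a ^ 2)]; exact this
  rcases eq_or_ne a 0 with rfl | ha0
  · simp; positivity
  rcases eq_or_ne b 0 with rfl | hb0
  · simp; positivity
  obtain ⟨k, rfl⟩ := Nat.exists_eq_add_of_le hle
  have h := sc_aux (h1 ha0).2 (h2 hb0).1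
  have h3 : (k : ℝ) * a ≤ 12 * b :=
    (abs_le_of_sq_le_sq' (by nlinarith [sq_nonneg b]) (by positivity)).2
  have : |(m : ℝ) - (m + k : ℕ)| = k := by push_cast; simp
  rw [this]
  nlinarith [mul_le_mul_of_nonneg_right h3 hb, sq_nonneg a]

/-- three lengths of a triangle -/
lemma tri {a b d ga gb gd : ℝ} (ha : 0 ≤ a) (hb : 0 ≤ b) (hd : 0 ≤ d) (h1 : d ≤ a + b)
    (h2 : b ≤ a + d) (hab : |gb - ga| * (a * b) ≤ 36 * (a ^ 2 + b ^ 2))
    (had : |gd - ga| * (a * d) ≤ 36 * (a ^ 2 + d ^ 2))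
    (hbd : |gd - gb| * (b * d) ≤ 36 * (b ^ 2 + d ^ 2)) :
    -(500 * (a ^ 2 + b ^ 2)) ≤ d ^ 2 * (gd - ga) - b ^ 2 * (gb - ga) := by
  rcases le_total b a with h | h
  · have e1 : d ^ 2 * |gd - ga| ≤ 2 * (a * d) * |gd - ga| := by gcongr; nlinarith
    have e2 : b ^ 2 * |gb - ga| ≤ a * b * |gb - ga| := by gcongr; nlinarith
    have e3 := mul_le_mul_of_nonneg_left (neg_abs_le (gd - ga)) (sq_nonneg d)
    have e4 := mul_le_mul_of_nonneg_left (le_abs_self (gb - ga)) (sq_nonneg b)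
    have e5 : d ^ 2 ≤ 4 * a ^ 2 := by nlinarith
    nlinarith [sq_nonneg a, sq_nonneg b]
  · have e1 : d ^ 2 * |gd - gb| ≤ 2 * (b * d) * |gd - gb| := by gcongr; nlinarith
    have e0 : |d ^ 2 - b ^ 2| ≤ 3 * (a * b) := abs_le.2 ⟨by nlinarith, by nlinarith⟩
    have e2 : |(d ^ 2 - b ^ 2) * (gb - ga)| ≤ 3 * (a * b) * |gb - ga| := by
      rw [abs_mul]; gcongr
    have e3 := mul_le_mul_of_nonneg_left (neg_abs_le (gd - gb)) (sq_nonneg d)
    have e4 := neg_abs_le ((d ^ 2 - b ^ 2) * (gb - ga))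
    have e5 : d ^ 2 ≤ 4 * b ^ 2 := by nlinarith
    nlinarith [sq_nonneg a, sq_nonneg b]

lemma r2_nonneg (L : Lat) (p q : L.P) : 0 ≤ L.r2 p q := L.rho2_nonneg _ p q
lemma r2_symm (L : Lat) (p q : L.P) : L.r2 p q = L.r2 q p := L.rx_symm p.1 q.1

lemma sc_diff' (L : Lat) {g : ℕ → ℝ} (h : ∀ m, |g (m + 1) - g m| ≤ 3) (p q p' q' : L.P) :
    |g (L.sc (L.r2 p' q')) - g (L.sc (L.r2 p q))| * (√(L.r2 p q) * √(L.r2 p' q')) ≤
      36 * (√(L.r2 p q) ^ 2 + √(L.r2 p' q') ^ 2) := by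
  have k : ∀ a b : L.P, √(L.r2 a b) ≠ 0 → 4 ^ L.sc (L.r2 a b) ≤ √(L.r2 a b) ^ 2 ∧
      √(L.r2 a b) ^ 2 ≤ 128 * 4 ^ L.sc (L.r2 a b) := fun a b h0 => by
    rw [Real.sq_sqrt (r2_nonneg L a b)]
    exact sc_range L a b fun h1 => h0 (by simp [h1])
  have h1 := sc_diff (Real.sqrt_nonneg _) (Real.sqrt_nonneg _) (k p q) (k p' q')
  have h2 := mul_le_mul_of_nonneg_right (lip h (L.sc (L.r2 p q)) (L.sc (L.r2 p' q')))
    (mul_nonneg (Real.sqrt_nonneg (L.r2 p q)) (Real.sqrt_nonneg (L.r2 p' q')))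
  rw [abs_sub_comm]; linarith

lemma conc {C : ℝ} {L : Lat} (hC : ∀ p q : L.P,
      ∑ m ∈ range L.N, 4 ^ m * L.wh m p q * |(m : ℝ) - L.sc (L.r2 p q)| ≤ C * L.r2 p q)
    {g : ℕ → ℝ} (h : ∀ m, |g (m + 1) - g m| ≤ 3) (p q : L.P) :
    |∑ m ∈ range L.N, 4 ^ m * g m * L.wh m p q - L.r2 p q * g (L.sc (L.r2 p q))| ≤
      3 * C * L.r2 p q := by
  have e : ∑ m ∈ range L.N, 4 ^ m * g m * L.wh m p q - L.r2 p q * g (L.sc (L.r2 p q)) =
      ∑ m ∈ range L.N, 4 ^ m * L.wh m p q * (g m - g (L.sc (L.r2 p q))) := by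
    simp only [mul_sub, sum_sub_distrib, ← sum_mul, L.sum_wh]
    congr 1
    exact sum_congr rfl fun m _ => by ring
  rw [e, mul_assoc]
  refine (abs_sum_le_sum_abs _ _).trans (le_trans ?_ (mul_le_mul_of_nonneg_left (hC p q) (by norm_num)))
  rw [mul_sum]
  refine sum_le_sum fun m _ => ?_
  have h0 : 0 ≤ 4 ^ m * L.wh m p q := mul_nonneg (by positivity) (L.wh_nonneg m p q)
  rw [abs_mul, abs_of_nonneg h0]
  nlinarith [mul_le_mul_of_nonneg_left (lip h m (L.sc (L.r2 p q))) h0]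

/-- pointwise lower bound of the redistribution bracket -/
lemma bracket {C : ℝ} (hC0 : 0 ≤ C) {L : Lat} (hC : ∀ p q : L.P,
      ∑ m ∈ range L.N, 4 ^ m * L.wh m p q * |(m : ℝ) - L.sc (L.r2 p q)| ≤ C * L.r2 p q)
    {g : ℕ → ℝ} (h : ∀ m, |g (m + 1) - g m| ≤ 3) (y p q : L.P) :
    -(2 * ∑ j, g (L.sc (L.r2 y p)) * (L.Phi L.N j p - L.Phi L.N j y) *
        (L.Phi L.N j q - L.Phi L.N j y)) - (500 + 9 * C) * (L.r2 y p + L.r2 y q) ≤
      ∑ m ∈ range L.N, 4 ^ m * g m * (L.wh m p q - L.wh m p y - L.wh m y q) := by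
  have c1 := abs_le.1 (conc hC h p q)
  have c2 := abs_le.1 (conc hC h y p)
  have c3 := abs_le.1 (conc hC h y q)
  have t := tri (Real.sqrt_nonneg (L.r2 y p)) (Real.sqrt_nonneg (L.r2 y q))
    (Real.sqrt_nonneg (L.r2 p q))
    (by rw [r2_symm L y p]; exact L.rx_tri p.1 y.1 q.1) (L.rx_tri y.1 p.1 q.1)
    (sc_diff' L h y p y q) (sc_diff' L h y p p q) (sc_diff' L h y q p q)
  simp only [Real.sq_sqrt (r2_nonneg L _ _)] at t
  have w : ∀ a b : L.P, L.r2 a b = ∑ j, (L.Phi L.N j a - L.Phi L.N j b) ^ 2 := fun a b => by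
    rw [Lat.r2, ← L.wt_Phi]; rfl
  have e : 2 * ∑ j, g (L.sc (L.r2 y p)) * (L.Phi L.N j p - L.Phi L.N j y) *
      (L.Phi L.N j q - L.Phi L.N j y) =
      g (L.sc (L.r2 y p)) * (L.r2 y p + L.r2 y q - L.r2 p q) := by
    generalize g (L.sc (L.r2 y p)) = G
    rw [w y p, w y q, w p q, ← sum_add_distrib, ← sum_sub_distrib, mul_sum, mul_sum]
    exact sum_congr rfl fun j _ => by ring
  have tr : L.r2 p q ≤ 2 * L.r2 y p + 2 * L.r2 y q := by
    rw [r2_symm L y p]; exact L.rx_le_two p.1 y.1 q.1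
  have := mul_le_mul_of_nonneg_left tr hC0
  rw [e]
  simp only [mul_sub, sum_sub_distrib, L.wh_symm _ p y]
  nlinarith [c1.1, c2.2, c3.2]

end B1

open B1 in
theorem redist : ∃ C : ℝ, 0 < C ∧ ∀ (L : Lat) (K : L.Mat), IsPort K →
    ∀ (y : L.P) (g : L.P → ℕ → ℝ) (H : ℝ), 1 ≤ H → (∀ p m, |g p m| ≤ H) →
    (∀ p m, |g p (m + 1) - g p m| ≤ 3) →
    -(C * Gam L.r2 K y) - C * H ^ 2 * L.GN K y ≤
      ∑ p ∈ univ.erase y, ∑ q ∈ univ.erase y, cc K y p * cc K y q / nu K y *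
        ∑ m ∈ range L.N, 4 ^ m * g p m * (L.wh m p q - L.wh m p y - L.wh m y q) := by
  obtain ⟨C, hC0, hC⟩ := wh_conc
  refine ⟨1001 + 18 * C, by positivity, fun L K _ y g H hH hg hl => ?_⟩
  rw [sum_erase _ (by simp [L.wh_self]),
    sum_congr rfl fun p _ => sum_erase _ (by simp [L.wh_self])]
  have hd := dd_nonneg K y
  have hν := hd.trans (dd_le_nu K y)
  have hdν : dd K y / nu K y ≤ 1 := div_le_one_of_le₀ (dd_le_nu K y) hν
  have hΓ : 0 ≤ Gam L.r2 K y := Gam_nonneg (r2_nonneg L) K y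
  have hGN : 0 ≤ L.GN K y := Gn_nonneg _ K y
  set T : Fin 2 × Bool → ℝ := fun j =>
    ∑ p, cc K y p * (g p (L.sc (L.r2 y p)) * (L.Phi L.N j p - L.Phi L.N j y)) with hT
  have hT2 : ∑ j, T j ^ 2 ≤ dd K y * (H ^ 2 * Gam L.r2 K y) := by
    have h1 : ∀ j, T j ^ 2 ≤ dd K y *
        ∑ p, cc K y p * (H ^ 2 * (L.Phi L.N j y - L.Phi L.N j p) ^ 2) := fun j =>
      sum_sq_le_sum_mul_sum_of_sq_le_mul _ (fun p _ => cc_nonneg K y p)
        (fun p _ => mul_nonneg (cc_nonneg K y p) (by positivity)) fun p _ => by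
          have := sq_le_sq' (abs_le.1 (hg p (L.sc (L.r2 y p)))).1 (abs_le.1 (hg p _)).2
          have h2 := mul_le_mul_of_nonneg_left this
            (sq_nonneg (cc K y p * (L.Phi L.N j p - L.Phi L.N j y)))
          nlinarith
    refine (sum_le_sum fun j _ => h1 j).trans (le_of_eq ?_)
    rw [← mul_sum, sum_comm, Gam, mul_sum (a := H ^ 2)]
    congr 1
    refine sum_congr rfl fun p _ => ?_
    rw [← mul_sum, ← mul_sum, Lat.r2, ← L.wt_Phi, wt]; ring
  have hcr : 2 * ∑ j, T j * mv (L.Phi L.N j) K y ≤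
      dd K y * Gam L.r2 K y + H ^ 2 * ∑ j, mv (L.Phi L.N j) K y ^ 2 := by
    have hH2 : 0 < H ^ 2 := by positivity
    refine le_of_mul_le_mul_left ?_ hH2
    have : H ^ 2 * (2 * ∑ j, T j * mv (L.Phi L.N j) K y) ≤
        ∑ j, T j ^ 2 + H ^ 2 * (H ^ 2 * ∑ j, mv (L.Phi L.N j) K y ^ 2) := by
      simp only [mul_sum, ← sum_add_distrib]
      exact sum_le_sum fun j _ => by nlinarith [sq_nonneg (T j - H ^ 2 * mv (L.Phi L.N j) K y)]
    linarith
  refine le_trans ?_ (sum_le_sum fun p _ => sum_le_sum fun q _ =>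
    mul_le_mul_of_nonneg_left (bracket hC0.le (hC L) (hl p) y p q)
      (div_nonneg (mul_nonneg (cc_nonneg K y p) (cc_nonneg K y q)) hν))
  have e : ∑ p, ∑ q, cc K y p * cc K y q / nu K y *
      (-(2 * ∑ j, g p (L.sc (L.r2 y p)) * (L.Phi L.N j p - L.Phi L.N j y) *
        (L.Phi L.N j q - L.Phi L.N j y)) - (500 + 9 * C) * (L.r2 y p + L.r2 y q)) =
      -((2 * ∑ j, T j * mv (L.Phi L.N j) K y) / nu K y) -
        (1000 + 18 * C) * Gam L.r2 K y * (dd K y / nu K y) := by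
    have e1 : ∑ j, T j * mv (L.Phi L.N j) K y = ∑ p, ∑ q, cc K y p * cc K y q *
        ∑ j, g p (L.sc (L.r2 y p)) * (L.Phi L.N j p - L.Phi L.N j y) *
          (L.Phi L.N j q - L.Phi L.N j y) := by
      simp only [hT, mv, sum_mul_sum]
      rw [sum_comm]
      refine sum_congr rfl fun p _ => ?_
      rw [sum_comm]
      refine sum_congr rfl fun q _ => ?_
      rw [mul_sum]
      exact sum_congr rfl fun j _ => by ring
    have e2 : Gam L.r2 K y * dd K y = ∑ p, ∑ q, cc K y p * cc K y q * L.r2 y p := by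
      rw [Gam, dd, sum_mul_sum]
      exact sum_congr rfl fun p _ => sum_congr rfl fun q _ => by ring
    have e3 : Gam L.r2 K y * dd K y = ∑ p, ∑ q, cc K y p * cc K y q * L.r2 y q := by
      rw [mul_comm, Gam, dd, sum_mul_sum]
      exact sum_congr rfl fun p _ => sum_congr rfl fun q _ => by ring
    have e4 : (1000 + 18 * C) * Gam L.r2 K y * (dd K y / nu K y) =
        (500 + 9 * C) * (Gam L.r2 K y * dd K y + Gam L.r2 K y * dd K y) / nu K y := by ring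
    rw [e4, e1]
    nth_rewrite 1 [e2]
    rw [e3]
    simp only [← sum_add_distrib, mul_sum, sum_div, ← sum_neg_distrib, ← sum_sub_distrib]
    refine sum_congr rfl fun p _ => sum_congr rfl fun q _ => ?_
    simp only [← mul_sum, ← sum_div, sum_neg_distrib]
    ring
  rw [e]
  have f1 : (2 * ∑ j, T j * mv (L.Phi L.N j) K y) / nu K y ≤
      Gam L.r2 K y * (dd K y / nu K y) + H ^ 2 * L.GN K y :=
    (div_le_div_of_nonneg_right hcr hν).trans_eq (by rw [Lat.GN, Gn]; ring)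
  have f2 := mul_le_mul_of_nonneg_left hdν hΓ
  have f3 := mul_le_mul_of_nonneg_left f2 (show 0 ≤ 1000 + 18 * C by positivity)
  have f4 : 0 ≤ (1000 + 18 * C) * (H ^ 2 * L.GN K y) := by positivity
  nlinarith

theorem falls : ∃ C : ℝ, 0 < C ∧ ∀ (L : Lat) (K : L.Mat), IsPort K →
    ∀ (Y1 Y : Finset L.X) (i j j' : ℝ), Y1 ⊆ Y → 1 ≤ i → j < j' →
    (j' - j) / 2 * L.Hub Y1 Y i j j' K - C * En L.r2 K ≤ ∑ y ∈ Y1, L.Red Y i K (y, true) := by
  refine ⟨1, one_pos, fun L K hK Y1 Y i j j' hY hi hj => ?_⟩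
  have pt : ∀ y ∈ Y1, ∀ m p, (j' - j) / 2 * (if L.gd Y i K (y, true) m ≤ j then
      L.th K (y, true) m * (if j' ≤ L.gd Y i K p m then cc K (y, true) p else 0) else 0) -
      cc K p (y, true) * L.th K p m ≤ L.nn K (y, true) m * (cc K (y, true) p / nu K (y, true) *
        (L.gd Y i K p m - L.gd Y i K (y, true) m)) := fun y hy m p => by
    rw [← hK.cc_symm (y, true) p, ← L.th_mul]
    have hc := cc_nonneg K (y, true) p
    have hcd := cc_le_dd K (y, true) p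
    have hty := L.th_nonneg K (y, true) m
    have htp := L.th_nonneg K p m
    have h1 := dd_le_nu K (y, true)
    have h2 := nu_le K (y, true)
    have hgy : L.gd Y i K (y, true) m = -Real.log (L.th K (y, true) m + Real.exp (-i)) := by
      simp [Lat.gd, hY hy]
    have hlog : L.th K (y, true) m * (L.gd Y i K (y, true) m - L.gd Y i K p m) ≤ L.th K p m := by
      by_cases hp : p.2 = true ∧ p.1 ∈ Y
      · have hgp : L.gd Y i K p m = -Real.log (L.th K p m + Real.exp (-i)) := if_pos hp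
        have he := Real.exp_pos (-i)
        have hs : 0 < L.th K (y, true) m + Real.exp (-i) := by linarith
        have h3 := Real.log_le_sub_one_of_pos (div_pos (show 0 < L.th K p m + Real.exp (-i) by
          linarith) hs)
        rw [Real.log_div (by linarith) hs.ne', div_sub_one hs.ne', le_div_iff₀ hs] at h3
        rw [hgy, hgp]
        refine le_of_mul_le_mul_right ?_ hs
        nlinarith [mul_le_mul_of_nonneg_left h3 hty, mul_nonneg htp he.le, sq_nonneg (L.th K (y, true) m)]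
      · have hgp : L.gd Y i K p m = i := if_neg hp
        have := (L.gd_bdd Y (by linarith : 0 ≤ i) K (y, true) m).2
        nlinarith
    generalize L.gd Y i K (y, true) m = gy at *
    generalize L.gd Y i K p m = gp at *
    generalize L.th K (y, true) m = ty at *
    generalize L.th K p m = tp at *
    generalize cc K (y, true) p = c at *
    generalize dd K (y, true) = d at *
    generalize nu K (y, true) = ν at *
    rcases hc.eq_or_lt with rfl | hc0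
    · simp
    have hν : 0 < ν := by linarith
    have q1 : d / ν ≤ 1 := (div_le_one hν).2 h1
    have q2 : 1 / 2 ≤ d / ν := by rw [le_div_iff₀ hν]; linarith
    have e : ty * d * (c / ν * (gp - gy)) = c * (d / ν) * (ty * (gp - gy)) := by ring
    rw [e]
    generalize d / ν = κ at *
    have hct := mul_nonneg hc htp
    rcases le_total gy gp with hg | hg
    · have h3 : 0 ≤ c * (ty * (gp - gy)) := mul_nonneg hc (mul_nonneg hty (by linarith))
      have h4 := mul_le_mul_of_nonneg_left q2 h3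
      split_ifs with a1 a2
      · have : ty * c * (j' - j) ≤ ty * c * (gp - gy) :=
          mul_le_mul_of_nonneg_left (by linarith) (mul_nonneg hty hc)
        nlinarith
      · nlinarith
      · nlinarith
    · have h3 : 0 ≤ c * (ty * (gy - gp)) := mul_nonneg hc (mul_nonneg hty (by linarith))
      have h4 := mul_le_mul_of_nonneg_left q1 h3
      have h5 := mul_le_mul_of_nonneg_left hlog hc
      split_ifs with a1 a2
      · linarith
      · nlinarith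
      · nlinarith
  have hE : ∑ y ∈ Y1, ∑ m ∈ range L.N, ∑ p, 4 ^ m * (cc K p (y, true) * L.th K p m) ≤
      En L.r2 K := by
    simp only [En, ← L.sum_nn]
    rw [sum_comm, sum_comm (s := univ)]
    refine sum_le_sum fun m _ => ?_
    rw [sum_comm]
    refine sum_le_sum fun p _ => ?_
    rw [← mul_sum, ← sum_mul, ← L.th_mul, mul_comm (L.th K p m)]
    have : ∑ y ∈ Y1, cc K p (y, true) ≤ dd K p := by
      rw [dd, Fintype.sum_prod_type]
      refine (sum_le_sum_of_subset_of_nonneg (subset_univ _) fun x _ _ => cc_nonneg K p _).trans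
        (sum_le_sum fun x _ => single_le_sum (f := fun b => cc K p (x, b))
          (fun b _ => cc_nonneg K p _) (mem_univ _))
    have := L.th_nonneg K p m
    gcongr
  refine le_trans (sub_le_sub_left (hE.trans_eq (one_mul _).symm) _) ?_
  rw [Lat.Hub, mul_sum, ← sum_sub_distrib]
  refine sum_le_sum fun y hy => ?_
  rw [Lat.Red, mul_sum, ← sum_sub_distrib]
  refine sum_le_sum fun m _ => ?_
  rw [sum_erase _ (by simp), mul_assoc (4 ^ m) (L.nn _ _ _), mul_sum (a := L.nn _ _ _),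
    mul_sum (a := (4 : ℝ) ^ m)]
  refine le_trans (le_of_eq ?_) (sum_le_sum fun p _ =>
    mul_le_mul_of_nonneg_left (pt y hy m p) (by positivity : (0 : ℝ) ≤ 4 ^ m))
  simp only [mul_sub, sum_sub_distrib]
  congr 1
  split_ifs
  · rw [mul_sum, mul_sum]
    exact sum_congr rfl fun p _ => by ring
  · simp

end Crest.Agent.N334.G
end
end

-- ▼ part N334/G/B20
section

/-!
# Row 334, S0519 GAIN: (B) scalar lemmas for the Bregman remainder
-/

set_option autoImplicit false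

open MeasureTheory Finset Complex
open scoped BigOperators ComplexConjugate

noncomputable section

namespace Crest.Agent.N334.G.Bg

/-- a continuous majorant of `min M (20 / √x)` -/
def hf (M x : ℝ) : ℝ := 40 * M / (20 + M * Real.sqrt x)

theorem hf_den {M : ℝ} (hM : 0 ≤ M) (x : ℝ) : 0 < 20 + M * Real.sqrt x := by positivity

theorem hf_nonneg {M : ℝ} (hM : 0 ≤ M) (x : ℝ) : 0 ≤ hf M x := by
  unfold hf; positivity

theorem hf_le {M : ℝ} (hM : 0 ≤ M) (x : ℝ) : hf M x ≤ 2 * M := by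
  unfold hf
  rw [div_le_iff₀ (hf_den hM x)]
  have : 0 ≤ M * (M * Real.sqrt x) := by positivity
  linarith

theorem hf_sq {M x : ℝ} (hM : 0 ≤ M) (hx : 0 ≤ x) : hf M x ^ 2 * x ≤ 40 ^ 2 := by
  have h1 : hf M x * Real.sqrt x ≤ 40 := by
    unfold hf
    rw [div_mul_eq_mul_div, div_le_iff₀ (hf_den hM x)]
    linarith
  have h2 : 0 ≤ hf M x * Real.sqrt x := mul_nonneg (hf_nonneg hM x) (Real.sqrt_nonneg x)
  calc hf M x ^ 2 * x = (hf M x * Real.sqrt x) ^ 2 := by rw [mul_pow, Real.sq_sqrt hx]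
    _ ≤ 40 ^ 2 := pow_le_pow_left₀ h2 h1 2

theorem le_hf {M x l : ℝ} (hM : 0 ≤ M) (h1 : l ≤ M) (h2 : l * Real.sqrt x ≤ 20) : l ≤ hf M x := by
  unfold hf
  rw [le_div_iff₀ (hf_den hM x)]
  have := mul_le_mul_of_nonneg_left h2 hM
  linarith

theorem continuous_hf {M : ℝ} (hM : 0 ≤ M) : Continuous (hf M) := by
  unfold hf
  exact continuous_const.div (by fun_prop) fun x => (hf_den hM x).ne'

theorem log_sqrt {w x : ℝ} (hw : 0 < w) (hx : 0 ≤ x) (h : w * x ^ 2 ≤ 625) :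
    Real.log w * Real.sqrt x ≤ 20 := by
  set s := Real.sqrt (Real.sqrt w) with hs
  have hs0 : 0 < s := Real.sqrt_pos.2 (Real.sqrt_pos.2 hw)
  have h2 : s ^ 2 = Real.sqrt w := Real.sq_sqrt (Real.sqrt_nonneg w)
  have h4 : s ^ 4 = w := by
    calc s ^ 4 = (s ^ 2) ^ 2 := by ring
      _ = w := by rw [h2, Real.sq_sqrt hw.le]
  have hl : Real.log w ≤ 4 * s := by
    rw [← h4, Real.log_pow]
    have := Real.log_le_sub_one_of_pos hs0
    push_cast
    linarith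
  have hx4 : Real.sqrt x ^ 4 = x ^ 2 := by
    calc Real.sqrt x ^ 4 = (Real.sqrt x ^ 2) ^ 2 := by ring
      _ = x ^ 2 := by rw [Real.sq_sqrt hx]
  have h5 : s * Real.sqrt x ≤ 5 := by
    apply le_of_pow_le_pow_left₀ (n := 4) (by norm_num) (by norm_num)
    rw [mul_pow, h4, hx4]
    linarith
  have := mul_le_mul_of_nonneg_right hl (Real.sqrt_nonneg x)
  linarith

theorem le_hf_log {M x l w : ℝ} (hM : 0 ≤ M) (hx : 0 ≤ x) (hw : 0 < w) (h1 : l ≤ M)
    (h2 : l ≤ Real.log w) (h : w * x ^ 2 ≤ 625) : l ≤ hf M x :=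
  le_hf hM h1 ((mul_le_mul_of_nonneg_right h2 (Real.sqrt_nonneg x)).trans (log_sqrt hw hx h))

theorem Br_eq {ε θ d n d' θ' : ℝ} (hε : 0 < ε) (hθ : n / d = θ) (h0 : 0 ≤ θ) (h0' : 0 ≤ θ')
    (hd' : 0 < d') :
    Br ε n d (θ' * d') d' =
      d' * (θ' * Real.log ((θ' + ε) / (θ + ε)) - θ * (θ' - θ) / (θ + ε)) := by
  have h1 : 0 < θ + ε := by linarith
  have h2 : 0 < θ' + ε := by linarith
  unfold Br fn fd
  rw [hθ, mul_div_cancel_right₀ _ hd'.ne', Real.log_div h2.ne' h1.ne']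
  field_simp
  ring

theorem Br_nonneg {ε n d n' d' : ℝ} (hε : 0 < ε) (hn : 0 ≤ n) (hd : 0 ≤ d) (hn' : 0 ≤ n')
    (hd' : 0 ≤ d') (h0 : d' = 0 → n' = 0) : 0 ≤ Br ε n d n' d' := by
  rcases hd'.eq_or_lt with h | h
  · rw [h0 h.symm, ← h]; simp [Br]
  have hθ : 0 ≤ n / d := div_nonneg hn hd
  have hθ' : 0 ≤ n' / d' := div_nonneg hn' hd'
  have e : n' = n' / d' * d' := by field_simp
  rw [e, Br_eq hε rfl hθ hθ' h]
  generalize n / d = θ at hθ
  generalize n' / d' = θ' at hθ'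
  have h1 : 0 < θ + ε := by linarith
  have h2 : 0 < θ' + ε := by linarith
  refine mul_nonneg hd' ?_
  have hl := Real.one_sub_inv_le_log_of_pos (div_pos h2 h1)
  have h3 := mul_le_mul_of_nonneg_left hl hθ'
  have h4 : θ' * (1 - ((θ' + ε) / (θ + ε))⁻¹) - θ * (θ' - θ) / (θ + ε) =
      ε * (θ' - θ) ^ 2 / ((θ + ε) * (θ' + ε)) := by
    field_simp
    ring
  have h5 : 0 ≤ ε * (θ' - θ) ^ 2 / ((θ + ε) * (θ' + ε)) := by positivity
  linarith

theorem Br_self {ε n d : ℝ} (hε : 0 < ε) (hn : 0 ≤ n) (hd : 0 ≤ d) (h0 : d = 0 → n = 0) :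
    Br ε n d n d = 0 := by
  rcases hd.eq_or_lt with h | h
  · rw [h0 h.symm, ← h]; simp [Br]
  have hθ : 0 ≤ n / d := div_nonneg hn hd
  have e : n = n / d * d := by field_simp
  have := Br_eq (n := n) (d := d) hε rfl hθ hθ h
  rw [← e] at this
  rw [this, div_self (by linarith : n / d + ε ≠ 0)]
  simp

/-- the scalar upper bound -/
theorem Br_le {ε M θ d θ' d' x1 x2 c cw HA HD HN : ℝ} (hε : 0 < ε) (hε1 : ε ≤ 1)
    (hM : Real.log (68 / ε) ≤ M) (hθ : 0 ≤ θ) (hd : 0 ≤ d) (hθ' : 0 ≤ θ') (hd' : 0 ≤ d')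
    (h67 : θ' ≤ 67) (hθd : θ * d / d = θ)
    (hx1 : 0 ≤ x1) (hx2 : 0 ≤ x2) (hc : 0 ≤ c) (hcw : 0 ≤ cw) (hcn : cw ≤ θ * d)
    (hxn : (Real.sqrt (θ' * d') - Real.sqrt (θ * d)) ^ 2 ≤ x1 + cw)
    (hxd : (Real.sqrt d' - Real.sqrt d) ^ 2 ≤ x2 + c)
    (hA0 : 0 ≤ HA) (hD0 : 0 ≤ HD) (hN0 : 0 ≤ HN)
    (hA : d ≤ 100 * c → 0 < d → 0 < d' → ∀ l, l ≤ M → l ≤ Real.log (d / d') → l ≤ HA)
    (hD : 0 < d → 0 < d' → ∀ l, l ≤ M → l ≤ Real.log (d / d') → l ≤ HD)
    (hN : 0 < θ' * d' → θ' * d' ≤ 2 * x1 → ∀ l, l ≤ M →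
      (0 < θ * d → l ≤ Real.log (θ' * d' / (θ * d))) → l ≤ HN) :
    Br ε (θ * d) d (θ' * d') d' ≤ 64 * (x1 + cw + θ * (x2 + c)) + 10000 * (θ * c * HA) +
      200 * (θ * x2 * HD) + 2 * (x1 * (HN + HD)) := by
  have p1 : 0 ≤ x1 + cw + θ * (x2 + c) := by positivity
  have p2 : 0 ≤ θ * c * HA := by positivity
  have p3 : 0 ≤ θ * x2 * HD := by positivity
  have p4 : 0 ≤ x1 * (HN + HD) := by positivity
  rcases hd'.eq_or_lt with h | hd0
  · rw [← h]
    have : Br ε (θ * d) d (θ' * 0) 0 = 0 := by simp [Br]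
    rw [this]; positivity
  rw [Br_eq hε hθd hθ hθ' hd0]
  have h1 : 0 < θ + ε := by linarith
  have h2 : 0 < θ' + ε := by linarith
  set l := Real.log ((θ' + ε) / (θ + ε)) with hl
  set s := Real.sqrt θ
  set s' := Real.sqrt θ'
  set r := Real.sqrt d
  set r' := Real.sqrt d'
  have hs : s ^ 2 = θ := Real.sq_sqrt hθ
  have hs' : s' ^ 2 = θ' := Real.sq_sqrt hθ'
  have hr : r ^ 2 = d := Real.sq_sqrt hd
  have hr' : r' ^ 2 = d' := Real.sq_sqrt hd'
  have s0 : 0 ≤ s := Real.sqrt_nonneg _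
  have s0' : 0 ≤ s' := Real.sqrt_nonneg _
  have r0 : 0 ≤ r := Real.sqrt_nonneg _
  have r0' : 0 ≤ r' := Real.sqrt_nonneg _
  rw [Real.sqrt_mul hθ', Real.sqrt_mul hθ] at hxn
  change (s' * r' - s * r) ^ 2 ≤ x1 + cw at hxn
  have key : d' * (s' - s) ^ 2 ≤ 2 * (x1 + cw + θ * (x2 + c)) := by
    have e : d' * (s' - s) ^ 2 = 2 * (s' * r' - s * r) ^ 2 + 2 * (θ * (r' - r) ^ 2) -
        (s' * r' - s * r + s * (r' - r)) ^ 2 := by
      rw [← hr', ← hs]; ring
    have := mul_le_mul_of_nonneg_left hxd hθ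
    have := sq_nonneg (s' * r' - s * r + s * (r' - r))
    linarith
  by_cases h4 : θ' ≤ 4 * θ
  · have hl1 : l ≤ (θ' + ε) / (θ + ε) - 1 := Real.log_le_sub_one_of_pos (div_pos h2 h1)
    have h5 := mul_le_mul_of_nonneg_left hl1 hθ'
    have h6 : θ' * ((θ' + ε) / (θ + ε) - 1) - θ * (θ' - θ) / (θ + ε) = (θ' - θ) ^ 2 / (θ + ε) := by
      field_simp
      ring
    have h7 : s' ≤ 2 * s := by
      apply le_of_pow_le_pow_left₀ (n := 2) (by norm_num) (by positivity)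
      rw [mul_pow, hs, hs']; linarith
    have h8 : (θ' - θ) ^ 2 / (θ + ε) ≤ 9 * (s' - s) ^ 2 := by
      rw [div_le_iff₀ h1]
      have e : (θ' - θ) ^ 2 = (s' - s) ^ 2 * (s' + s) ^ 2 := by rw [← hs, ← hs']; ring
      have h9 : (s' + s) ^ 2 ≤ 9 * (θ + ε) := by
        have : (s' + s) ^ 2 ≤ (3 * s) ^ 2 := pow_le_pow_left₀ (by positivity) (by linarith) 2
        rw [mul_pow, hs] at this
        linarith
      have := mul_le_mul_of_nonneg_left h9 (sq_nonneg (s' - s))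
      rw [e]; linarith
    have h10 : θ' * l - θ * (θ' - θ) / (θ + ε) ≤ 9 * (s' - s) ^ 2 := by linarith
    have := mul_le_mul_of_nonneg_left h10 hd'
    linarith
  have h4 : 4 * θ < θ' := lt_of_not_ge h4
  have hθ0 : 0 < θ' := by linarith
  have hn0 : 0 < θ' * d' := mul_pos hθ0 hd0
  have hB : d' * (θ' * l - θ * (θ' - θ) / (θ + ε)) ≤ θ' * d' * l := by
    have : 0 ≤ θ * (θ' - θ) / (θ + ε) := div_nonneg (mul_nonneg hθ (by linarith)) h1.le
    have := mul_nonneg hd' this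
    linarith
  refine hB.trans ?_
  have hn8 : θ' * d' ≤ 8 * (x1 + cw + θ * (x2 + c)) := by
    have h7 : 2 * s ≤ s' := by
      apply le_of_pow_le_pow_left₀ (n := 2) (by norm_num) s0'
      rw [mul_pow, hs, hs']; linarith
    have h8 : s' ^ 2 ≤ (2 * (s' - s)) ^ 2 := pow_le_pow_left₀ s0' (by linarith) 2
    rw [hs', mul_pow] at h8
    have := mul_le_mul_of_nonneg_left h8 hd'
    linarith
  have hlM : l ≤ M := by
    refine le_trans (Real.log_le_log (div_pos h2 h1) ?_) hM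
    exact div_le_div₀ (by norm_num) (by linarith) hε (by linarith)
  have hsplit : 0 < θ * d → l ≤ Real.log (θ' * d' / (θ * d)) + Real.log (d / d') := by
    intro h
    have hθp : 0 < θ := by
      rcases hθ.eq_or_lt with h' | h'
      · rw [← h'] at h; simp at h
      · exact h'
    have hdp : 0 < d := (mul_pos_iff_of_pos_left hθp).1 h
    rw [← Real.log_mul (div_pos hn0 h).ne' (div_pos hdp hd0).ne']
    refine Real.log_le_log (div_pos h2 h1) ?_
    have e : θ' * d' / (θ * d) * (d / d') = θ' / θ := by field_simp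
    rw [e, div_le_div_iff₀ h1 hθp]
    have := mul_le_mul_of_nonneg_right (by linarith : θ ≤ θ') hε.le
    linarith
  by_cases h100 : θ' * d' ≤ 100 * (θ * d)
  · have hnp : 0 < θ * d := by linarith
    have hθp : 0 < θ := by
      rcases hθ.eq_or_lt with h' | h'
      · rw [← h'] at hnp; simp at hnp
      · exact h'
    have hdp : 0 < d := (mul_pos_iff_of_pos_left hθp).1 hnp
    have e1 : (2.7 : ℝ) ≤ Real.exp 1 := by have := Real.exp_one_gt_d9; linarith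
    have l100 : Real.log (θ' * d' / (θ * d)) ≤ 5 := by
      rw [Real.log_le_iff_le_exp (div_pos hn0 hnp), div_le_iff₀ hnp]
      have : (2.7 : ℝ) ^ 5 ≤ Real.exp 5 := by
        have := pow_le_pow_left₀ (by norm_num) e1 5
        rwa [← Real.exp_nat_mul, show ((5 : ℕ) : ℝ) * 1 = 5 by norm_num] at this
      have h' : (100 : ℝ) ≤ Real.exp 5 := le_trans (by norm_num) this
      have := mul_le_mul_of_nonneg_right h' hnp.le
      linarith
    have hl5 : l - 5 ≤ Real.log (d / d') := by have := hsplit hnp; linarith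
    by_cases h16 : d ≤ 16 * d'
    · have l16 : Real.log (d / d') ≤ 3 := by
        rw [Real.log_le_iff_le_exp (div_pos hdp hd0), div_le_iff₀ hd0]
        have : (2.7 : ℝ) ^ 3 ≤ Real.exp 3 := by
          have := pow_le_pow_left₀ (by norm_num) e1 3
          rwa [← Real.exp_nat_mul, show ((3 : ℕ) : ℝ) * 1 = 3 by norm_num] at this
        have h' : (16 : ℝ) ≤ Real.exp 3 := le_trans (by norm_num) this
        have := mul_le_mul_of_nonneg_right h' hd0.le
        linarith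
      have := mul_le_mul_of_nonneg_left (by linarith : l ≤ 8) hn0.le
      linarith
    have h16 : 16 * d' < d := lt_of_not_ge h16
    by_cases hcd : d ≤ 100 * c
    · have h9 := hA hcd hdp hd0 (l - 5) (by linarith) hl5
      have h10 := mul_le_mul_of_nonneg_left (by linarith : l ≤ 5 + HA) hn0.le
      have h11 := mul_le_mul_of_nonneg_right h100 hA0
      have h12 := mul_le_mul_of_nonneg_left hcd (mul_nonneg hθ hA0)
      linarith
    · have hcd : 100 * c < d := lt_of_not_ge hcd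
      have h9 := hD hdp hd0 (l - 5) (by linarith) hl5
      have h10 := mul_le_mul_of_nonneg_left (by linarith : l ≤ 5 + HD) hn0.le
      have h11 := mul_le_mul_of_nonneg_right h100 hD0
      have h13 : 4 * r' ≤ r := by
        apply le_of_pow_le_pow_left₀ (n := 2) (by norm_num) r0
        rw [mul_pow, hr, hr']; linarith
      have h14 : (3 / 4 * r) ^ 2 ≤ (r - r') ^ 2 := pow_le_pow_left₀ (by positivity) (by linarith) 2
      rw [mul_pow, hr] at h14
      have h15 : d ≤ 2 * x2 := by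
        have : (r - r') ^ 2 = (r' - r) ^ 2 := by ring
        linarith
      have h12 := mul_le_mul_of_nonneg_left h15 (mul_nonneg hθ hD0)
      linarith
  have h100 : 100 * (θ * d) < θ' * d' := lt_of_not_ge h100
  have h13 : 10 * (s * r) ≤ s' * r' := by
    apply le_of_pow_le_pow_left₀ (n := 2) (by norm_num) (by positivity)
    rw [mul_pow, mul_pow, mul_pow, hs, hs', hr, hr']; linarith
  have h14 : (9 / 10 * (s' * r')) ^ 2 ≤ (s' * r' - s * r) ^ 2 :=
    pow_le_pow_left₀ (by positivity) (by linarith) 2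
  rw [mul_pow, mul_pow, hs', hr'] at h14
  have h15 : θ' * d' ≤ 2 * x1 := by linarith
  have h16 : l ≤ HN + HD := by
    rcases (mul_nonneg hθ hd).eq_or_lt with h | hnp
    · have := hN hn0 h15 l hlM fun h' => absurd h' (by linarith)
      linarith
    have hθp : 0 < θ := by
      rcases hθ.eq_or_lt with h' | h'
      · rw [← h'] at hnp; simp at hnp
      · exact h'
    have hdp : 0 < d := (mul_pos_iff_of_pos_left hθp).1 hnp
    have a1 := hN hn0 h15 (min M (Real.log (θ' * d' / (θ * d)))) (min_le_left _ _)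
      fun _ => min_le_right _ _
    have a2 := hD hdp hd0 (min M (Real.log (d / d'))) (min_le_left _ _) (min_le_right _ _)
    have a3 := hsplit hnp
    rcases min_choice M (Real.log (θ' * d' / (θ * d))) with b1 | b1 <;>
      rcases min_choice M (Real.log (d / d')) with b2 | b2 <;> rw [b1] at a1 <;> rw [b2] at a2 <;>
      linarith
  have h17 := mul_le_mul_of_nonneg_left h16 hn0.le
  have h18 := mul_le_mul_of_nonneg_right h15 (add_nonneg hN0 hD0)
  linarith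

/-- reverse triangle inequality in weighted `ℓ²` -/
theorem sqrt_sub_sq {P : Type} [Fintype P] (u v : P → ℂ) (w : P → ℝ) (hw : ∀ q, 0 ≤ w q) :
    (Real.sqrt (∑ q, ‖u q‖ ^ 2 * w q) - Real.sqrt (∑ q, ‖v q‖ ^ 2 * w q)) ^ 2 ≤
      ∑ q, ‖u q - v q‖ ^ 2 * w q := by
  have hA : 0 ≤ ∑ q, ‖u q‖ ^ 2 * w q := sum_nonneg fun q _ => mul_nonneg (sq_nonneg _) (hw q)
  have hB : 0 ≤ ∑ q, ‖v q‖ ^ 2 * w q := sum_nonneg fun q _ => mul_nonneg (sq_nonneg _) (hw q)
  have cs := Real.sum_mul_le_sqrt_mul_sqrt univ (fun q => ‖u q‖ * Real.sqrt (w q))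
    (fun q => ‖v q‖ * Real.sqrt (w q))
  have e1 : ∀ (x : P → ℂ) (q : P), (‖x q‖ * Real.sqrt (w q)) ^ 2 = ‖x q‖ ^ 2 * w q := fun x q => by
    rw [mul_pow, Real.sq_sqrt (hw q)]
  simp only [e1] at cs
  have h1 : ∑ q, (‖u q‖ ^ 2 * w q + ‖v q‖ ^ 2 * w q -
      2 * (‖u q‖ * Real.sqrt (w q) * (‖v q‖ * Real.sqrt (w q)))) ≤ ∑ q, ‖u q - v q‖ ^ 2 * w q := by
    refine sum_le_sum fun q _ => ?_
    have h2 : (‖u q‖ - ‖v q‖) ^ 2 ≤ ‖u q - v q‖ ^ 2 := by
      rw [← sq_abs]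
      exact pow_le_pow_left₀ (abs_nonneg _) (abs_norm_sub_norm_le _ _) 2
    have h3 := mul_le_mul_of_nonneg_right h2 (hw q)
    have h4 : ‖u q‖ * Real.sqrt (w q) * (‖v q‖ * Real.sqrt (w q)) = ‖u q‖ * ‖v q‖ * w q := by
      calc _ = ‖u q‖ * ‖v q‖ * Real.sqrt (w q) ^ 2 := by ring
        _ = _ := by rw [Real.sq_sqrt (hw q)]
    rw [h4]; linarith
  rw [sum_sub_distrib, sum_add_distrib, ← mul_sum] at h1
  rw [sub_sq, Real.sq_sqrt hA, Real.sq_sqrt hB]
  linarith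

end Crest.Agent.N334.G.Bg
end
end

-- ▼ part N334/G/B21
section

/-!
# Row 334, S0519 GAIN: (B) Cauchy averages for the Bregman remainder
-/

set_option autoImplicit false

open MeasureTheory Finset Complex
open scoped BigOperators ComplexConjugate

noncomputable section

namespace Crest.Agent.N334.G.Bg

theorem cau_nonneg {δ : ℝ} (hδ : 0 < δ) (x : ℝ) : 0 ≤ cau δ x := by
  unfold cau; positivity

theorem int_cau {δ : ℝ} (hδ : 0 < δ) (a : ℝ) {F : ℝ → ℝ} (hF : BM F) :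
    Integrable fun a' => cau δ (a' - a) * F a' := by
  obtain ⟨M, hM⟩ := hF.bdd
  exact (cau_integral hδ a).1.mul_bdd hF.meas.aestronglyMeasurable
    (Filter.Eventually.of_forall fun x => by simpa using hM x)

theorem norm_zz_le' {s : ℂ} {γ : ℝ} (h : 0 < γ + s.im) (a : ℝ) : ‖zz s a γ‖ ≤ 1 / (γ + s.im) := by
  rw [le_div_iff₀ h, mul_comm]; exact norm_zz_le h a

theorem bm_zeta {s : ℂ} {γ : ℝ} (h : 0 < γ + s.im) (w : ℂ) : BM fun a => ‖zz s a γ - w‖ ^ 2 := by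
  refine ⟨((measurable_zz s γ).sub_const w).norm.pow_const 2, (1 / (γ + s.im) + ‖w‖) ^ 2, fun a => ?_⟩
  rw [abs_of_nonneg (sq_nonneg _)]
  refine pow_le_pow_left₀ (norm_nonneg _) ((norm_sub_le _ _).trans ?_) 2
  have := norm_zz_le' h a
  linarith

theorem bm_z {s : ℂ} {γ : ℝ} (h : 0 < γ + s.im) : BM fun a => ‖zz s a γ‖ ^ 2 := by
  simpa using bm_zeta h 0

theorem measurable_uu : Measurable uu :=
  measurable_const.div (Complex.measurable_ofReal.sub measurable_const)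

theorem bm_hf {M : ℝ} (hM : 0 ≤ M) (u0 : ℂ) : BM fun t => hf M ‖uu t - u0‖ :=
  ⟨(continuous_hf hM).measurable.comp (measurable_uu.sub_const u0).norm, 2 * M, fun _ => by
    rw [abs_of_nonneg (hf_nonneg hM _)]; exact hf_le hM _⟩

theorem bm_hf' {M : ℝ} (hM : 0 ≤ M) (u0 : ℂ) (u J : ℝ) :
    BM fun a => hf M ‖uu ((a - u) / J) - u0‖ :=
  (bm_hf hM u0).comp (g := fun a : ℝ => (a - u) / J) (by fun_prop)

theorem arc_hf : ∃ C : ℝ, 0 < C ∧ ∀ (M : ℝ) (u0 : ℂ), 0 ≤ M →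
    ∫ t, hf M ‖uu t - u0‖ / (1 + t ^ 2) ≤ C := by
  obtain ⟨C, hC, h⟩ := arc_sing
  exact ⟨C * 40, by positivity, fun M u0 hM => h u0 _ 40 (bm_hf hM u0) (by norm_num)
    (fun t => hf_nonneg hM _) fun t => hf_sq hM (norm_nonneg _)⟩

theorem int_change (g : ℝ → ℝ) (u : ℝ) {J : ℝ} (hJ : 0 < J) :
    ∫ a, g ((a - u) / J) = J * ∫ t, g t := by
  rw [integral_sub_right_eq_self (fun x => g (x / J)) u, Measure.integral_comp_div, abs_of_pos hJ,
    smul_eq_mul]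

theorem normSq_zz {s : ℂ} {γ : ℝ} (h : 0 < γ + s.im) (a : ℝ) :
    ‖zz s a γ‖ ^ 2 = 1 / (γ + s.im) ^ 2 * (1 / (1 + ((a - s.re) / (γ + s.im)) ^ 2)) := by
  have h1 := zz_eq_uu h ((a - s.re) / (γ + s.im))
  have e : s.re + (γ + s.im) * ((a - s.re) / (γ + s.im)) = a := by field_simp; ring
  rw [e] at h1
  rw [← (uu_normSq _).1, ← h1, norm_mul, mul_pow, Complex.norm_real, Real.norm_eq_abs, sq_abs]
  field_simp

theorem int_A {δ : ℝ} (hδ : 0 < δ) (a : ℝ) (f : ℝ → ℝ) :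
    ∫ a', cau δ (a' - a) * f ((a' - a) / δ) = 1 / Real.pi * ∫ t, f t / (1 + t ^ 2) := by
  have e : ∀ a', cau δ (a' - a) * f ((a' - a) / δ) =
      (fun t => 1 / (Real.pi * δ) * (f t / (1 + t ^ 2))) ((a' - a) / δ) := by
    intro a'
    unfold cau
    have := Real.pi_pos
    field_simp
    ring
  simp only [e]
  rw [int_change (fun t => 1 / (Real.pi * δ) * (f t / (1 + t ^ 2))) a hδ, integral_const_mul]
  have := Real.pi_pos
  field_simp

theorem int_D {s : ℂ} (hs : 0 < s.im) {γ γ' : ℝ} (h0 : 0 ≤ γ') (h : γ' < γ) (a : ℝ) (f : ℝ → ℝ) :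
    ∫ a', cau (γ - γ') (a' - a) *
        (‖zz s a' γ' - zz s a γ‖ ^ 2 * f ((a' - s.re) / (γ' + s.im))) =
      (γ - γ') * ‖zz s a γ‖ ^ 2 / (γ' + s.im) * (1 / Real.pi * ∫ t, f t / (1 + t ^ 2)) := by
  have hJ : 0 < γ' + s.im := by linarith
  have e : ∀ a', cau (γ - γ') (a' - a) *
      (‖zz s a' γ' - zz s a γ‖ ^ 2 * f ((a' - s.re) / (γ' + s.im))) =
      (fun t => (γ - γ') / Real.pi * ‖zz s a γ‖ ^ 2 * (1 / (γ' + s.im) ^ 2) * (f t / (1 + t ^ 2)))
        ((a' - s.re) / (γ' + s.im)) := by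
    intro a'
    rw [← mul_assoc, cau_mul_sq hs h0 h, normSq_zz hJ a']
    ring
  simp only [e]
  rw [int_change (fun t => (γ - γ') / Real.pi * ‖zz s a γ‖ ^ 2 * (1 / (γ' + s.im) ^ 2) *
    (f t / (1 + t ^ 2))) s.re hJ, integral_const_mul]
  have := Real.pi_pos
  field_simp

theorem int_0 {s : ℂ} (hs : 0 < s.im) {γ γ' : ℝ} (h0 : 0 ≤ γ') (h : γ' < γ) (a : ℝ) :
    ∫ a', cau (γ - γ') (a' - a) * ‖zz s a' γ' - zz s a γ‖ ^ 2 =
      (γ - γ') * ‖zz s a γ‖ ^ 2 / (γ' + s.im) := by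
  simpa using cau_quad hs h0 h a 0 1 0

/-- the ratio of two cavity values -/
theorem z_ratio {s : ℂ} (hs : 0 < s.im) {γ : ℝ} (hγ : 0 < γ) (a a' : ℝ) :
    ‖zz s a γ‖ ^ 2 * ‖uu ((a' - a) / (γ - γ / 2)) - 0‖ ^ 2 ≤ 3 * ‖zz s a' (γ / 2)‖ ^ 2 := by
  set t := (a' - a) / (γ - γ / 2) with ht
  have hA : (a : ℂ) - I * γ - s ≠ 0 := by
    intro h
    have := congrArg Complex.im h
    simp at this
    linarith
  have hA' : (a' : ℂ) - I * ((γ / 2 : ℝ) : ℂ) - s ≠ 0 := by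
    intro h
    have := congrArg Complex.im h
    simp at this
    linarith
  have hJ := norm_zz_le (by linarith : 0 < γ + s.im) a
  have hz : γ * ‖zz s a γ‖ ≤ 1 := by
    have := mul_nonneg hs.le (norm_nonneg (zz s a γ))
    linarith
  have e : zz s a γ = zz s a' (γ / 2) * (1 + (γ * zz s a γ) * (((t / 2 : ℝ) : ℂ) + I / 2)) := by
    have hg : (γ : ℂ) ≠ 0 := by exact_mod_cast hγ.ne'
    have e1 : (γ : ℂ) * ((t / 2 : ℝ) : ℂ) = a' - a := by
      rw [← Complex.ofReal_mul, ← Complex.ofReal_sub]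
      congr 1
      rw [ht]
      have : γ - γ / 2 = γ / 2 := by ring
      rw [this]
      field_simp
    have e2 : (γ * zz s a γ) * (((t / 2 : ℝ) : ℂ) + I / 2) =
        zz s a γ * ((a' : ℂ) - a + I * γ / 2) := by
      rw [← e1]; ring
    rw [e2]
    have e3 : (a' : ℂ) - a + I * γ / 2 =
        ((a' : ℂ) - I * ((γ / 2 : ℝ) : ℂ) - s) - ((a : ℂ) - I * γ - s) := by
      push_cast; ring
    rw [e3]
    unfold zz
    generalize (a' : ℂ) - I * ((γ / 2 : ℝ) : ℂ) - s = B at hA'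
    generalize (a : ℂ) - I * γ - s = A at hA
    field_simp
    ring
  have h1 : ‖(γ * zz s a γ) * (((t / 2 : ℝ) : ℂ) + I / 2)‖ ≤ |t| / 2 + 1 / 2 := by
    rw [norm_mul, norm_mul, Complex.norm_real, Real.norm_eq_abs, abs_of_pos hγ]
    have h2 : ‖((t / 2 : ℝ) : ℂ) + I / 2‖ ≤ |t| / 2 + 1 / 2 := by
      refine (norm_add_le _ _).trans (le_of_eq ?_)
      rw [Complex.norm_real, Real.norm_eq_abs, abs_div]
      simp
    have := mul_le_mul hz h2 (norm_nonneg _) zero_le_one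
    linarith
  have h3 : ‖zz s a γ‖ ≤ ‖zz s a' (γ / 2)‖ * (3 / 2 + |t| / 2) := by
    refine (congrArg norm e).le.trans ?_
    rw [norm_mul]
    refine mul_le_mul_of_nonneg_left ((norm_add_le _ _).trans ?_) (norm_nonneg _)
    rw [norm_one]
    linarith
  have h4 := pow_le_pow_left₀ (norm_nonneg _) h3 2
  have h5 : (3 / 2 + |t| / 2) ^ 2 ≤ 3 * (1 + t ^ 2) := by
    have := sq_abs t
    have := sq_nonneg (|t| - 1 / 3)
    nlinarith
  rw [sub_zero, (uu_normSq t).1, mul_one_div, div_le_iff₀ (by positivity)]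
  rw [mul_pow] at h4
  have := mul_le_mul_of_nonneg_left h5 (sq_nonneg ‖zz s a' (γ / 2)‖)
  linarith

variable {P : Type} [Fintype P] [DecidableEq P] {y : P} (c : Cav y)

theorem vec_ne (γ : ℝ) {p : P} (hp : p ≠ y) : c.vec γ p = c.rho p := by simp [Cav.vec, hp]

theorem cc_ne (a : ℝ) {γ : ℝ} (hγ : 0 ≤ γ) {p : P} (hp : p ≠ y) :
    cc (c.K a γ) y p = 4 * γ * ‖c.z a γ‖ ^ 2 * ‖c.rho p‖ ^ 2 := by
  rw [c.cc_y a γ hγ, vec_ne c γ hp]

theorem vec_mono {γ : ℝ} (hγ : 0 ≤ γ) (q : P) : ‖c.vec (γ / 2) q‖ ^ 2 ≤ ‖c.vec γ q‖ ^ 2 := by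
  unfold Cav.vec
  split_ifs
  · simp only [Complex.norm_real, Real.norm_eq_abs, sq_abs]
    rw [Real.sq_sqrt hγ, Real.sq_sqrt (by linarith)]
    linarith
  · exact le_rfl

/-- the change of a row -/
theorem row_diff (a a' : ℝ) {γ : ℝ} (hγ : 0 ≤ γ) {p : P} (hp : p ≠ y) (w : P → ℝ)
    (hw : ∀ q, 0 ≤ w q) :
    ∑ q, ‖c.K a' (γ / 2) p q - c.K a γ p q‖ ^ 2 * w q ≤
      8 * ‖c.z a' (γ / 2) - c.z a γ‖ ^ 2 * ‖c.rho p‖ ^ 2 * ∑ q, ‖c.vec (γ / 2) q‖ ^ 2 * w q +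
        cc (c.K a γ) y p * w y := by
  have h1 : ∀ q, ‖c.K a' (γ / 2) p q - c.K a γ p q‖ ^ 2 ≤
      8 * ‖c.z a' (γ / 2) - c.z a γ‖ ^ 2 * ‖c.rho p‖ ^ 2 * ‖c.vec (γ / 2) q‖ ^ 2 +
        if q = y then cc (c.K a γ) y p else 0 := by
    intro q
    have e : c.K a' (γ / 2) p q - c.K a γ p q =
        2 * I * (c.z a' (γ / 2) - c.z a γ) * c.rho p * c.vec (γ / 2) q +
          2 * I * c.z a γ * c.rho p * (c.vec (γ / 2) q - c.vec γ q) := by
      unfold Cav.K
      rw [vec_ne c _ hp, vec_ne c _ hp]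
      ring
    have h2 : ∀ u v : ℂ, ‖u + v‖ ^ 2 ≤ 2 * ‖u‖ ^ 2 + 2 * ‖v‖ ^ 2 := fun u v => by
      have := pow_le_pow_left₀ (norm_nonneg _) (norm_add_le u v) 2
      have := sq_nonneg (‖u‖ - ‖v‖)
      linarith
    rw [e]
    refine (h2 _ _).trans ?_
    have h3 : ‖c.vec (γ / 2) q - c.vec γ q‖ ^ 2 ≤ if q = y then γ / 2 else 0 := by
      unfold Cav.vec
      split_ifs
      · rw [← Complex.ofReal_sub, Complex.norm_real, Real.norm_eq_abs, sq_abs]
        have a1 := Real.sq_sqrt hγ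
        have a2 := Real.sq_sqrt (by linarith : 0 ≤ γ / 2)
        have a3 : Real.sqrt (γ / 2) ≤ Real.sqrt γ := Real.sqrt_le_sqrt (by linarith)
        have a4 := mul_le_mul_of_nonneg_left a3 (Real.sqrt_nonneg (γ / 2))
        linarith
      · simp
    rw [cc_ne c a hγ hp]
    simp only [norm_mul, mul_pow, Complex.norm_I, Complex.norm_ofNat]
    have h4 := mul_le_mul_of_nonneg_left h3
      (by positivity : 0 ≤ ‖c.z a γ‖ ^ 2 * ‖c.rho p‖ ^ 2)
    split_ifs at h4 ⊢ <;> linarith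
  calc _ ≤ ∑ q, (8 * ‖c.z a' (γ / 2) - c.z a γ‖ ^ 2 * ‖c.rho p‖ ^ 2 *
        (‖c.vec (γ / 2) q‖ ^ 2 * w q) + if q = y then cc (c.K a γ) y p * w y else 0) := by
        refine sum_le_sum fun q _ => ?_
        have := mul_le_mul_of_nonneg_right (h1 q) (hw q)
        split_ifs at this ⊢ with h
        · subst h; linarith
        · linarith
    _ = _ := by rw [sum_add_distrib, ← mul_sum]; simp

theorem arc_pt {γ : ℝ} (hγ : 0 ≤ γ) (a : ℝ) : c.s.re + c.J γ * ((a - c.s.re) / c.J γ) = a := by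
  have := (c.J_pos hγ).ne'
  field_simp
  ring

/-- lower bound on the arc for `d'` in terms of `d` -/
theorem dd_arc {γ : ℝ} (hγ : 0 < γ) {p : P} (hp : p ≠ y) : ∃ u0 : ℂ, ∀ a a',
    dd (c.K a γ) p * ‖uu ((a' - c.s.re) / c.J (γ / 2)) - u0‖ ^ 2 ≤ 2 * dd (c.K a' (γ / 2)) p := by
  have hγ' : 0 ≤ γ / 2 := by linarith
  obtain ⟨qb, h1, -⟩ := c.aff_Gam hγ' (w := fun _ _ => 1) (fun _ _ => zero_le_one) p
  have e : ∀ K : P → P → ℂ, Gam (fun _ _ => 1) K p = dd K p := fun K => by simp [Gam, dd]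
  simp only [e] at h1
  obtain ⟨h2, h3, u0, h4⟩ := h1.le_two fun t => dd_nonneg _ _
  refine ⟨u0, fun a a' => ?_⟩
  have h5 := h4 ((a' - c.s.re) / c.J (γ / 2))
  rw [arc_pt c hγ'] at h5
  have hδ : 0 < γ - γ / 2 := by linarith
  have h6 : dd (c.K a γ) p ≤ 2 * qb := by
    have h7 := cau_quad c.s_pos hγ' (by linarith : γ / 2 < γ) a (dd (c.K a γ) p) 0
      (-4 * I * c.rho p ^ 2)
    have h8 : ∀ b, dd (c.K a γ) p + (-4 * I * c.rho p ^ 2 * (zz c.s b (γ / 2) - zz c.s a γ)).re +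
        0 * ‖zz c.s b (γ / 2) - zz c.s a γ‖ ^ 2 = dd (c.K b (γ / 2)) p := fun b => by
      have := c.dd_sub a b hγ.le hγ' hp
      unfold Cav.z at this
      linarith
    simp only [h8] at h7
    rw [zero_mul, add_zero] at h7
    rw [← h7]
    have h9 : ∫ b, cau (γ - γ / 2) (b - a) * (2 * qb) = 2 * qb := by
      rw [integral_mul_const, (cau_integral hδ a).2, one_mul]
    rw [← h9]
    refine integral_mono_of_nonneg (Filter.Eventually.of_forall fun b =>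
      mul_nonneg (cau_nonneg hδ _) (dd_nonneg _ _)) ((cau_integral hδ a).1.mul_const _)
      (Filter.Eventually.of_forall fun b => mul_le_mul_of_nonneg_left ?_ (cau_nonneg hδ _))
    have := h3 ((b - c.s.re) / c.J (γ / 2))
    rwa [arc_pt c hγ'] at this
  have := mul_le_mul_of_nonneg_right h6 (sq_nonneg ‖uu ((a' - c.s.re) / c.J (γ / 2)) - u0‖)
  linarith

/-- lower bound on the arc for `n` in terms of the row change -/
theorem nn_arc {γ : ℝ} (hγ : 0 < γ) {w : P → P → ℝ} (hw : ∀ p q, 0 ≤ w p q) {p : P} (hp : p ≠ y) :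
    ∃ u0 : ℂ, ∀ a a', 8 * ‖c.z a' (γ / 2) - c.z a γ‖ ^ 2 * ‖c.rho p‖ ^ 2 *
      (∑ q, ‖c.vec (γ / 2) q‖ ^ 2 * w p q) * ‖uu ((a - c.s.re) / c.J γ) - u0‖ ^ 2 ≤
        72 * Gam w (c.K a γ) p := by
  obtain ⟨qb, h1, h0⟩ := c.aff_Gam hγ.le hw p
  obtain ⟨h2, -, u0, h4⟩ := h1.le_two fun t => Gam_nonneg hw _ _
  refine ⟨u0, fun a a' => ?_⟩
  have h5 := h4 ((a - c.s.re) / c.J γ)
  rw [arc_pt c hγ.le] at h5
  have hJ := c.J_pos hγ.le
  have hs := c.s_pos
  have h6 : ‖c.z a' (γ / 2) - c.z a γ‖ ≤ 3 / c.J γ := by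
    have a1 := norm_zz_le' (by linarith : 0 < γ + c.s.im) a
    have a2 := norm_zz_le' (by linarith : 0 < γ / 2 + c.s.im) a'
    have a3 : 1 / (γ / 2 + c.s.im) ≤ 2 / (γ + c.s.im) := by
      rw [div_le_div_iff₀ (by linarith) (by linarith)]; linarith
    have a4 := norm_sub_le (c.z a' (γ / 2)) (c.z a γ)
    have a5 : 3 / (γ + c.s.im) = 1 / (γ + c.s.im) + 2 / (γ + c.s.im) := by ring
    unfold Cav.z Cav.J at *
    linarith
  have h7 := pow_le_pow_left₀ (norm_nonneg _) h6 2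
  have h8 : ∑ q, ‖c.vec (γ / 2) q‖ ^ 2 * w p q ≤ ∑ q, ‖c.vec γ q‖ ^ 2 * w p q :=
    sum_le_sum fun q _ => mul_le_mul_of_nonneg_right (vec_mono c hγ.le q) (hw p q)
  have h9 : 0 ≤ ∑ q, ‖c.vec (γ / 2) q‖ ^ 2 * w p q :=
    sum_nonneg fun q _ => mul_nonneg (sq_nonneg _) (hw p q)
  rw [vec_ne c γ hp] at h0
  have h10 := mul_le_mul h7 (mul_le_mul_of_nonneg_left h8 (sq_nonneg ‖c.rho p‖))
    (mul_nonneg (sq_nonneg _) h9) (sq_nonneg _)
  have h11 : (3 / c.J γ) ^ 2 * (‖c.rho p‖ ^ 2 * ∑ q, ‖c.vec γ q‖ ^ 2 * w p q) =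
      9 * ((‖c.rho p‖ ^ 2 * ∑ q, ‖c.vec γ q‖ ^ 2 * w p q) / c.J γ ^ 2) := by
    field_simp
    ring
  have h12 : ‖c.z a' (γ / 2) - c.z a γ‖ ^ 2 *
      (‖c.rho p‖ ^ 2 * ∑ q, ‖c.vec (γ / 2) q‖ ^ 2 * w p q) ≤ 9 * qb := by linarith
  have := mul_le_mul_of_nonneg_right h12 (sq_nonneg ‖uu ((a - c.s.re) / c.J γ) - u0‖)
  linarith

end Crest.Agent.N334.G.Bg
end
end

-- ▼ part N334/G/B22
section

/-!
# Row 334, S0519 GAIN: (B) the Bregman remainder of one port at one scale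
-/

set_option autoImplicit false

open MeasureTheory Finset Complex
open scoped BigOperators ComplexConjugate

noncomputable section

namespace Crest.Agent.N334.G.Bg

variable {P : Type} [Fintype P] [DecidableEq P]

omit [DecidableEq P] in
theorem Gam_le {w : P → P → ℝ} {B : ℝ} (hw : ∀ p q, w p q ≤ B) (K : P → P → ℂ) (p : P) :
    Gam w K p ≤ B * dd K p := by
  unfold Gam dd
  rw [mul_sum]
  exact sum_le_sum fun q _ => by
    have := mul_le_mul_of_nonneg_left (hw p q) (cc_nonneg K p q)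
    linarith

omit [DecidableEq P] in
theorem Gam_div {w : P → P → ℝ} {B : ℝ} (hw0 : ∀ p q, 0 ≤ w p q) (hw : ∀ p q, w p q ≤ B)
    (hB : 0 ≤ B) (K : P → P → ℂ) (p : P) :
    0 ≤ Gam w K p / dd K p ∧ Gam w K p / dd K p ≤ B ∧ Gam w K p / dd K p * dd K p = Gam w K p := by
  have h0 := Gam_nonneg hw0 K p
  have h1 := Gam_le hw K p
  refine ⟨div_nonneg h0 (dd_nonneg K p), ?_⟩
  rcases (dd_nonneg K p).eq_or_lt with h | h
  · rw [← h] at h1 ⊢
    refine ⟨by simpa using hB, ?_⟩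
    linarith
  · exact ⟨(div_le_iff₀ h).2 h1, div_mul_cancel₀ _ h.ne'⟩

theorem one : ∃ C : ℝ, 0 < C ∧ ∀ (P : Type) [Fintype P] [DecidableEq P] (y : P) (c : Cav y)
    (w : P → P → ℝ) (γ ε M : ℝ) (p : P), (∀ p q, 0 ≤ w p q) → (∀ p q, w p q ≤ 67) → 0 < γ →
    0 < ε → ε ≤ 1 → Real.log (68 / ε) ≤ M → 0 ≤ M → p ≠ y → ∃ u0 : ℂ, ∀ a, ∃ G : ℝ → ℝ, BM G ∧
      (∀ a', Br ε (Gam w (c.K a γ) p) (dd (c.K a γ) p) (Gam w (c.K a' (γ / 2)) p)
        (dd (c.K a' (γ / 2)) p) ≤ G a') ∧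
      ∫ a', cau (γ - γ / 2) (a' - a) * G a' ≤
        C * (cc (c.K a γ) y p * (Gam w (c.K a γ) p / dd (c.K a γ) p + w p y)) +
        C * (γ * ‖c.z a γ‖ ^ 2 *
          (‖c.rho p‖ ^ 2 * (∑ q, ‖c.vec (γ / 2) q‖ ^ 2 * w p q) / c.J (γ / 2)) *
          (1 + hf M ‖uu ((a - c.s.re) / c.J γ) - u0‖)) := by
  obtain ⟨A, hA, harc⟩ := arc_hf
  refine ⟨1000 + 20000 * A, by positivity, ?_⟩
  intro P _ _ y c w γ ε M p hw0 hw hγ hε hε1 hM hM0 hp
  obtain ⟨u1, hu1⟩ := dd_arc c hγ hp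
  obtain ⟨u0, hu0⟩ := nn_arc c hγ hw0 hp
  refine ⟨u0, fun a => ?_⟩
  have hγ' : 0 ≤ γ / 2 := by linarith
  have hδ : 0 < γ - γ / 2 := by linarith
  have hJ' := c.J_pos hγ'
  have hs := c.s_pos
  obtain ⟨t0, -, t2⟩ := Gam_div hw0 hw (by norm_num) (c.K a γ) p
  set θ := Gam w (c.K a γ) p / dd (c.K a γ) p with hθ
  set d := dd (c.K a γ) p with hd
  set k := cc (c.K a γ) y p with hk
  set τ := ∑ q, ‖c.vec (γ / 2) q‖ ^ 2 * w p q with hτ
  set R := ‖c.rho p‖ ^ 2 with hR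
  set HN := hf M ‖uu ((a - c.s.re) / c.J γ) - u0‖ with hHN
  have τ0 : 0 ≤ τ := sum_nonneg fun q _ => mul_nonneg (sq_nonneg _) (hw0 p q)
  have R0 : 0 ≤ R := sq_nonneg _
  have k0 : 0 ≤ k := cc_nonneg _ _ _
  have d0 : 0 ≤ d := dd_nonneg _ _
  have HN0 : 0 ≤ HN := hf_nonneg hM0 _
  have w0 := hw0 p y
  let ζ : ℝ → ℝ := fun a' => ‖zz c.s a' (γ / 2) - zz c.s a γ‖ ^ 2
  let HA : ℝ → ℝ := fun a' => hf M ‖uu ((a' - a) / (γ - γ / 2)) - 0‖
  let HD : ℝ → ℝ := fun a' => hf M ‖uu ((a' - c.s.re) / (γ / 2 + c.s.im)) - u1‖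
  have bζ : BM ζ := bm_zeta hJ' _
  have bA : BM HA := bm_hf' hM0 _ _ _
  have bD : BM HD := bm_hf' hM0 _ _ _
  let c0 := 64 * (k * w p y + θ * k)
  let c1 := 64 * (8 * R * τ + θ * (8 * R * c.J (γ / 2))) + 16 * R * τ * HN
  let c2 := 10000 * (θ * k)
  let c3 := 1600 * θ * R * c.J (γ / 2) + 16 * R * τ
  refine ⟨fun a' => c0 * 1 + c1 * ζ a' + c2 * HA a' + c3 * (ζ a' * HD a'),
    ((((BM.const 1).const_mul c0).add (bζ.const_mul c1)).add (bA.const_mul c2)).add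
      ((bζ.mul bD).const_mul c3), fun a' => ?_, ?_⟩
  · obtain ⟨s0, s1, s2⟩ := Gam_div hw0 hw (by norm_num) (c.K a' (γ / 2)) p
    set θ' := Gam w (c.K a' (γ / 2)) p / dd (c.K a' (γ / 2)) p with hθ'
    set d' := dd (c.K a' (γ / 2)) p with hd'
    have hxn := (sqrt_sub_sq (c.K a' (γ / 2) p) (c.K a γ p) (w p) (hw0 p)).trans
      (row_diff c a a' hγ.le hp (w p) (hw0 p))
    have hxd := (sqrt_sub_sq (c.K a' (γ / 2) p) (c.K a γ p) (fun _ => 1) fun _ => zero_le_one).trans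
      (row_diff c a a' hγ.le hp (fun _ => 1) fun _ => zero_le_one)
    simp only [mul_one] at hxd
    rw [c.sum_vec hγ'] at hxd
    change (Real.sqrt (Gam w (c.K a' (γ / 2)) p) - Real.sqrt (Gam w (c.K a γ) p)) ^ 2 ≤
      8 * ζ a' * R * τ + k * w p y at hxn
    change (Real.sqrt d' - Real.sqrt d) ^ 2 ≤ 8 * ζ a' * R * c.J (γ / 2) + k at hxd
    have ζ0 : 0 ≤ ζ a' := sq_nonneg _
    have hcn : k * w p y ≤ θ * d := by
      rw [t2, hk, (c.port a hγ.le).cc_symm]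
      exact single_le_sum (f := fun q => cc (c.K a γ) p q * w p q)
        (fun q _ => mul_nonneg (cc_nonneg _ _ _) (hw0 p q)) (mem_univ y)
    rw [← t2, ← s2] at hxn ⊢
    have := Br_le (HA := HA a') (HD := HD a') (HN := HN) hε hε1 hM t0 d0 s0 (dd_nonneg _ _) s1
      (by rw [t2]) (by positivity) (by positivity) k0 (mul_nonneg k0 w0) hcn hxn hxd
      (hf_nonneg hM0 _) (hf_nonneg hM0 _) HN0 ?_ ?_ ?_
    · refine this.trans (le_of_eq ?_)
      simp only [c0, c1, c2, c3]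
      ring
    · intro h1 h2 h3 l h4 h5
      refine le_hf_log hM0 (norm_nonneg _) (div_pos h2 h3) h4 h5 ?_
      rw [div_mul_eq_mul_div, div_le_iff₀ h3]
      have h6 := z_ratio hs hγ a a'
      have h7 : cc (c.K a' (γ / 2)) y p ≤ d' := by
        rw [(c.port a' hγ').cc_symm]; exact cc_le_dd _ _ _
      rw [cc_ne c a' hγ' hp] at h7
      rw [hk, cc_ne c a hγ.le hp] at h1
      have h8 := mul_le_mul_of_nonneg_right h1
        (sq_nonneg ‖uu ((a' - a) / (γ - γ / 2)) - 0‖)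
      have h9 := mul_le_mul_of_nonneg_left h6 (mul_nonneg hγ.le R0)
      unfold Cav.z at h7 h8
      linarith
    · intro h2 h3 l h4 h5
      refine le_hf_log hM0 (norm_nonneg _) (div_pos h2 h3) h4 h5 ?_
      rw [div_mul_eq_mul_div, div_le_iff₀ h3]
      have := hu1 a a'
      unfold Cav.J at this
      linarith
    · intro h1 h2 l h4 h5
      have h6 := hu0 a a'
      rw [← t2] at h6
      change 8 * ζ a' * R * τ * _ ≤ _ at h6
      have h7 := mul_le_mul_of_nonneg_right h2 (sq_nonneg ‖uu ((a - c.s.re) / c.J γ) - u0‖)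
      rcases (mul_nonneg t0 d0).eq_or_lt with h | h
      · have h8 : θ' * d' * ‖uu ((a - c.s.re) / c.J γ) - u0‖ ^ 2 ≤ 0 := by linarith
        have h9 : ‖uu ((a - c.s.re) / c.J γ) - u0‖ ^ 2 ≤ 0 := by
          by_contra h10
          have := mul_pos h1 (lt_of_not_ge h10)
          linarith
        have h10 : ‖uu ((a - c.s.re) / c.J γ) - u0‖ = 0 :=
          pow_eq_zero_iff (two_ne_zero) |>.1 (le_antisymm h9 (sq_nonneg _))
        refine le_hf hM0 h4 ?_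
        rw [h10]; simp
      · refine le_hf_log hM0 (norm_nonneg _) (div_pos h1 h) h4 (h5 h) ?_
        rw [div_mul_eq_mul_div, div_le_iff₀ h]
        linarith
  · have i0 := int_cau hδ a (BM.const 1)
    have i1 := int_cau hδ a bζ
    have i2 := int_cau hδ a bA
    have i3 := int_cau hδ a (bζ.mul bD)
    have e : ∀ a', cau (γ - γ / 2) (a' - a) *
        (c0 * 1 + c1 * ζ a' + c2 * HA a' + c3 * (ζ a' * HD a')) =
        c0 * (cau (γ - γ / 2) (a' - a) * 1) + c1 * (cau (γ - γ / 2) (a' - a) * ζ a') +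
          c2 * (cau (γ - γ / 2) (a' - a) * HA a') +
          c3 * (cau (γ - γ / 2) (a' - a) * (ζ a' * HD a')) := fun a' => by ring
    simp only [e]
    have i01 : Integrable fun a' => c0 * (cau (γ - γ / 2) (a' - a) * 1) +
        c1 * (cau (γ - γ / 2) (a' - a) * ζ a') := (i0.const_mul c0).add (i1.const_mul c1)
    have i012 : Integrable fun a' => c0 * (cau (γ - γ / 2) (a' - a) * 1) +
        c1 * (cau (γ - γ / 2) (a' - a) * ζ a') + c2 * (cau (γ - γ / 2) (a' - a) * HA a') :=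
      i01.add (i2.const_mul c2)
    rw [integral_add i012 (i3.const_mul c3), integral_add i01 (i2.const_mul c2),
      integral_add (i0.const_mul c0) (i1.const_mul c1), integral_const_mul, integral_const_mul,
      integral_const_mul, integral_const_mul]
    have j0 : ∫ a', cau (γ - γ / 2) (a' - a) * 1 = 1 := by simpa using (cau_integral hδ a).2
    have j1 := int_0 hs hγ' (by linarith : γ / 2 < γ) a
    have j2 := int_A hδ a fun t => hf M ‖uu t - 0‖
    have j3 := int_D hs hγ' (by linarith : γ / 2 < γ) a fun t => hf M ‖uu t - u1‖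
    have hpi : ∀ x : ℝ, x ≤ A → 1 / Real.pi * x ≤ A := fun x hx => by
      have h1 : 1 / Real.pi ≤ 1 := by
        rw [div_le_one Real.pi_pos]; linarith [Real.pi_gt_three]
      have h2 := mul_le_mul_of_nonneg_left hx (by positivity : 0 ≤ 1 / Real.pi)
      have h3 := mul_le_mul_of_nonneg_right h1 hA.le
      linarith
    have j2' := hpi _ (harc M 0 hM0)
    have j3' := hpi _ (harc M u1 hM0)
    rw [j0, j1, j2, j3]
    set X := (γ - γ / 2) * ‖zz c.s a γ‖ ^ 2 / (γ / 2 + c.s.im) with hX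
    have X0 : 0 ≤ X := by positivity
    have hJ2 : γ / 2 + c.s.im ≠ 0 := hJ'.ne'
    have eX1 : R * c.J (γ / 2) * X = k / 8 := by
      rw [hX, hk, cc_ne c a hγ.le hp]
      unfold Cav.J Cav.z
      field_simp
      ring
    have eX2 : γ * ‖c.z a γ‖ ^ 2 * (R * τ / c.J (γ / 2)) = 2 * (R * τ * X) := by
      rw [hX]
      unfold Cav.J Cav.z
      field_simp
      ring
    rw [eX2]
    have b2 := mul_le_mul_of_nonneg_left j2' (by positivity : 0 ≤ c2)
    have b3 := mul_le_mul_of_nonneg_left j3' (by positivity : 0 ≤ c3 * X)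
    have e1 : c1 * X = 512 * (R * τ * X) + 64 * (θ * k) + 16 * (R * τ * X * HN) := by
      have : c1 * X = 512 * (R * τ * X) + 512 * θ * (R * c.J (γ / 2) * X) +
          16 * (R * τ * X * HN) := by simp only [c1]; ring
      rw [this, eX1]; ring
    have e3 : c3 * X = 200 * (θ * k) + 16 * (R * τ * X) := by
      have : c3 * X = 1600 * θ * (R * c.J (γ / 2) * X) + 16 * (R * τ * X) := by
        simp only [c3]; ring
      rw [this, eX1]; ring
    rw [e1, ← mul_assoc c3 X]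
    rw [e3] at b3 ⊢
    simp only [c0, c2] at b2 ⊢
    have q1 : 0 ≤ θ * k := by positivity
    have q2 : 0 ≤ k * w p y := by positivity
    have q3 : 0 ≤ R * τ * X := by positivity
    have q4 : 0 ≤ R * τ * X * HN := by positivity
    have q5 := mul_nonneg hA.le q1
    have q6 := mul_nonneg hA.le q2
    have q7 := mul_nonneg hA.le q3
    have q8 := mul_nonneg hA.le q4
    linarith

end Crest.Agent.N334.G.Bg
end
end

-- ▼ part N334/G/B2
section

/-!
# Row 334, S0519 GAIN: (B) the Bregman remainder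
-/

set_option autoImplicit false

open MeasureTheory Finset Complex
open scoped BigOperators ComplexConjugate

noncomputable section

namespace Crest.Agent.N334.G

theorem Br_nonneg {ε n d n' d' : ℝ} (hε : 0 < ε) (hn : 0 ≤ n) (hd : 0 ≤ d) (hn' : 0 ≤ n')
    (hd' : 0 ≤ d') (h0 : d' = 0 → n' = 0) : 0 ≤ Br ε n d n' d' :=
  Bg.Br_nonneg hε hn hd hn' hd' h0
theorem Br_self {ε n d : ℝ} (hε : 0 < ε) (hn : 0 ≤ n) (hd : 0 ≤ d) (h0 : d = 0 → n = 0) :
    Br ε n d n d = 0 := Bg.Br_self hε hn hd h0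

namespace Bg

open Classical in
/-- the average of the logarithmic weight over the site law -/
theorem law_hf : ∃ C : ℝ, 0 < C ∧ ∀ (s u0 : ℂ) (a0 b γ M : ℝ), 0 < s.im → 0 < γ → γ ≤ b → 0 ≤ M →
    ∫ a, ‖zz s a γ‖ ^ 2 * hf M ‖uu ((a - s.re) / (γ + s.im)) - u0‖ ∂law a0 b ≤
      C * ∫ a, ‖zz s a γ‖ ^ 2 ∂law a0 b + C * M * ‖zz s a0 b‖ ^ 2 := by
  obtain ⟨A, hA, harc⟩ := arc_hf
  obtain ⟨C1, hC1, hcmp⟩ := cmp
  obtain ⟨C2, hC2, hbad⟩ := bad1
  refine ⟨C1 * A + 2 * C2, by positivity, fun s u0 a0 b γ M hs hγ hb hM => ?_⟩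
  have hb0 : 0 < b := by linarith
  have hJ : 0 < γ + s.im := by linarith
  have := law_prob a0 hb0
  have h1 := hcmp s a0 b γ A (fun t => hf M ‖uu t - u0‖) (fun _ => 1) hs hγ.le hb0 hA.le
    (bm_hf hM u0) (BM.const 1) (fun _ => hf_nonneg hM _) (fun _ => zero_le_one) (by
      have := harc M u0 hM
      simp only [integral_const, smul_eq_mul, MeasurableSet.univ, measureReal_restrict_apply,
        Set.univ_inter, Real.volume_real_Icc]
      norm_num
      linarith)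
  have h2 := hbad s a0 b γ hs hγ.le hb hb0
  simp only [mul_one] at h1
  have hm : MeasurableSet {a : ℝ | Good a0 b γ s a} :=
    (measurableSet_good a0 b γ).preimage (f := fun a : ℝ => (s, a)) (by fun_prop)
  have b1 := (BM.ite hm ((bm_z hJ).mul (bm_hf' hM u0 s.re (γ + s.im))) (BM.const 0)).integrable
    (law a0 b)
  have b2 := ((BM.ite hm (BM.const 0) (bm_z hJ)).integrable (law a0 b)).const_mul (2 * M)
  have h3 : ∫ a, ‖zz s a γ‖ ^ 2 * hf M ‖uu ((a - s.re) / (γ + s.im)) - u0‖ ∂law a0 b ≤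
      ∫ a, ((if Good a0 b γ s a then
        ‖zz s a γ‖ ^ 2 * hf M ‖uu ((a - s.re) / (γ + s.im)) - u0‖ else 0) +
        2 * M * if Good a0 b γ s a then 0 else ‖zz s a γ‖ ^ 2) ∂law a0 b := by
    refine integral_mono (((bm_z hJ).mul (bm_hf' hM u0 s.re (γ + s.im))).integrable _) (b1.add b2)
      fun a => ?_
    have := mul_le_mul_of_nonneg_left (hf_le hM ‖uu ((a - s.re) / (γ + s.im)) - u0‖)
      (sq_nonneg ‖zz s a γ‖)
    dsimp only
    split_ifs <;> linarith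
  rw [integral_add b1 b2, integral_const_mul] at h3
  have h4 := mul_le_mul_of_nonneg_left h2 (by positivity : 0 ≤ 2 * M)
  have h5 : 0 ≤ C2 * ∫ a, ‖zz s a γ‖ ^ 2 ∂law a0 b :=
    mul_nonneg hC2.le (integral_nonneg fun _ => sq_nonneg _)
  have h6 : 0 ≤ C1 * A * M * ‖zz s a0 b‖ ^ 2 := by positivity
  linarith

theorem sum_kap (L : Lat) (y : L.P) (c : Cav y) {γ : ℝ} (hγ : 0 ≤ γ) (act : Finset L.P) :
    ∑ p ∈ act, ∑ m ∈ range L.N,
      4 ^ m * (‖c.rho p‖ ^ 2 * (∑ q, ‖c.vec γ q‖ ^ 2 * L.wh m p q) / c.J γ) ≤ 4 * c.V L.r2 := by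
  have hJ := c.J_pos hγ
  have e1 : ∀ p, ∑ m ∈ range L.N,
      4 ^ m * (‖c.rho p‖ ^ 2 * (∑ q, ‖c.vec γ q‖ ^ 2 * L.wh m p q) / c.J γ) =
      ‖c.rho p‖ ^ 2 * (∑ q, ‖c.vec γ q‖ ^ 2 * L.r2 p q) / c.J γ := fun p => by
    simp only [← L.sum_wh, mul_sum, sum_div]
    rw [sum_comm]
    exact sum_congr rfl fun q _ => sum_congr rfl fun m _ => by ring
  simp only [e1]
  have r0 : ∀ p q : L.P, 0 ≤ L.r2 p q := fun p q => L.rx_nonneg _ _
  have eV : ∑ q, ‖c.vec γ q‖ ^ 2 * L.r2 y q = c.V L.r2 := sum_congr rfl fun q _ => by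
    by_cases h : q = y
    · subst h
      rw [L.rx_eq, L.rx_self]; simp
    · rw [vec_ne c γ h]
  have V0 : 0 ≤ c.V L.r2 := sum_nonneg fun q _ => mul_nonneg (sq_nonneg _) (r0 _ _)
  have h1 : ∀ p, ∑ q, ‖c.vec γ q‖ ^ 2 * L.r2 p q ≤ 2 * L.r2 y p * c.J γ + 2 * c.V L.r2 := by
    intro p
    rw [← eV, ← c.sum_vec hγ, mul_sum, mul_sum, ← sum_add_distrib]
    refine sum_le_sum fun q _ => ?_
    have h2 := L.rx_le_two p.1 y.1 q.1
    rw [L.rx_symm p.1 y.1] at h2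
    have := mul_le_mul_of_nonneg_left h2 (sq_nonneg ‖c.vec γ q‖)
    simp only [L.rx_eq]
    linarith
  refine (sum_le_sum_of_subset_of_nonneg (subset_univ act) fun p _ _ => div_nonneg (mul_nonneg
    (sq_nonneg _) (sum_nonneg fun q _ => mul_nonneg (sq_nonneg _) (r0 _ _))) hJ.le).trans ?_
  rw [← sum_div, div_le_iff₀ hJ]
  refine (sum_le_sum fun p _ => mul_le_mul_of_nonneg_left (h1 p) (sq_nonneg _)).trans ?_
  have e2 : ∑ p, ‖c.rho p‖ ^ 2 * (2 * L.r2 y p * c.J γ + 2 * c.V L.r2) =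
      2 * c.J γ * c.V L.r2 + 2 * c.V L.r2 * c.s.im := by
    rw [c.im_s, mul_sum]
    conv_rhs => rw [Cav.V, mul_sum]
    rw [← sum_add_distrib]
    exact sum_congr rfl fun p _ => by unfold Cav.V; ring
  rw [e2]
  have := mul_le_mul_of_nonneg_left (show c.s.im ≤ c.J γ by unfold Cav.J; linarith) V0
  linarith

theorem nice_e (L : Lat) (p : L.P) : Nice fun K : L.Mat => Gam L.r2 K p / dd K p :=
  Nice.div (nice_Gam L.r2 p).meas (nice_dd p).meas (M := 8 * 4 ^ L.N) fun K _ => by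
    obtain ⟨h1, h2, -⟩ := Gam_div (w := L.r2) (fun p q => L.rx_nonneg _ _)
      (fun p q => L.rho2_le_pow L.N p q) (by positivity) K p
    rwa [abs_of_nonneg h1]

end Bg

open Classical in
theorem breg : ∃ C : ℝ, 0 < C ∧ ∀ (L : Lat) (y : L.P) (c : Cav y) (a0 b γ i : ℝ)
    (act : Finset L.P), 0 < γ → γ ≤ b → 1 ≤ i → y ∉ act →
    ∃ ρ : ℝ → ℝ, BM ρ ∧
      (∀ a, |a - a0| ≤ b → ∫ a', cau (γ - γ / 2) (a' - a) *
        ∑ p ∈ act, ∑ m ∈ range L.N, 4 ^ m * Br (Real.exp (-i)) (L.nn (c.K a γ) p m)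
          (dd (c.K a γ) p) (L.nn (c.K a' (γ / 2)) p m) (dd (c.K a' (γ / 2)) p) ≤ ρ a) ∧
      ∫ a, ρ a ∂law a0 b ≤ C * i * c.Bq a0 b γ L.r2 + C * ∫ a, (Gam L.r2 (c.K a γ) y +
        ∑ p, cc (c.K a γ) y p * (Gam L.r2 (c.K a γ) p / dd (c.K a γ) p)) ∂law a0 b := by
  obtain ⟨C1, hC1, hone⟩ := Bg.one
  obtain ⟨C2, hC2, hlaw⟩ := Bg.law_hf
  refine ⟨2 * C1 + 6 * C1 * C2, by positivity, fun L y c a0 b γ i act hγ hb hi hy => ?_⟩
  have hb0 : 0 < b := by linarith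
  have := law_prob a0 hb0
  have hδ : 0 < γ - γ / 2 := by linarith
  have hγ' : 0 ≤ γ / 2 := by linarith
  have hJ := c.J_pos hγ.le
  have hJ' := c.J_pos hγ'
  have hM0 : 0 ≤ i + 5 := by linarith
  have hM : Real.log (68 / Real.exp (-i)) ≤ i + 5 := by
    rw [Real.log_div (by norm_num) (Real.exp_pos _).ne', Real.log_exp]
    have e1 : (2.7 : ℝ) ≤ Real.exp 1 := by have := Real.exp_one_gt_d9; linarith
    have h1 := pow_le_pow_left₀ (by norm_num) e1 5
    rw [← Real.exp_nat_mul, show ((5 : ℕ) : ℝ) * 1 = 5 by norm_num] at h1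
    have : Real.log 68 ≤ 5 := by
      rw [Real.log_le_iff_le_exp (by norm_num)]
      exact le_trans (by norm_num) h1
    linarith
  have H : ∀ (p : L.P) (m : ℕ), ∃ u0 : ℂ, p ≠ y → _ := fun p m => by
    by_cases hp : p = y
    · exact ⟨0, fun h => absurd hp h⟩
    · obtain ⟨u0, h⟩ := hone L.P y c (L.wh m) γ (Real.exp (-i)) (i + 5) p (L.wh_nonneg m)
        (L.wh_le m) hγ (Real.exp_pos _) (Real.exp_le_one_iff.2 (by linarith)) hM hM0 hp
      exact ⟨u0, fun _ => h⟩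
  choose u0 hu0 using H
  let κ : L.P → ℕ → ℝ := fun p m =>
    4 ^ m * (‖c.rho p‖ ^ 2 * (∑ q, ‖c.vec (γ / 2) q‖ ^ 2 * L.wh m p q) / c.J (γ / 2))
  have κ0 : ∀ p m, 0 ≤ κ p m := fun p m => mul_nonneg (by positivity) (div_nonneg (mul_nonneg
    (sq_nonneg _) (sum_nonneg fun q _ => mul_nonneg (sq_nonneg _) (L.wh_nonneg _ _ _))) hJ'.le)
  have hκ : ∑ p ∈ act, ∑ m ∈ range L.N, κ p m ≤ 4 * c.V L.r2 := Bg.sum_kap L y c hγ' act
  let T : ℝ → ℝ := fun a => Gam L.r2 (c.K a γ) y +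
    ∑ p, cc (c.K a γ) y p * (Gam L.r2 (c.K a γ) p / dd (c.K a γ) p)
  let F : L.P → ℕ → ℝ → ℝ := fun p m a =>
    ‖zz c.s a γ‖ ^ 2 * Bg.hf (i + 5) ‖uu ((a - c.s.re) / (γ + c.s.im)) - u0 p m‖
  have bG : BM fun a => Gam L.r2 (c.K a γ) y :=
    (nice_Gam L.r2 y).bm (c.measurable_K γ) fun a => c.port a hγ.le
  have bE : BM fun a => ∑ p, cc (c.K a γ) y p * (Gam L.r2 (c.K a γ) p / dd (c.K a γ) p) :=
    (Nice.sum univ fun p _ => (nice_cc y p).mul (Bg.nice_e L p)).bm (c.measurable_K γ)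
      fun a => c.port a hγ.le
  have bT : BM T := bG.add bE
  have bF : ∀ p m, BM (F p m) := fun p m => (Bg.bm_z hJ).mul (Bg.bm_hf' hM0 _ _ _)
  have bS : BM fun a => ∑ p ∈ act, ∑ m ∈ range L.N, κ p m * F p m a :=
    BM.sum act fun p _ => BM.sum _ fun m _ => (bF p m).const_mul _
  have r0 : ∀ p q : L.P, 0 ≤ L.r2 p q := fun p q => L.rx_nonneg _ _
  have ryy : L.r2 y y = 0 := L.rx_self _
  have E0 : ∀ a p, 0 ≤ cc (c.K a γ) y p * (Gam L.r2 (c.K a γ) p / dd (c.K a γ) p) := fun a p =>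
    mul_nonneg (cc_nonneg _ _ _) (div_nonneg (Gam_nonneg r0 _ _) (dd_nonneg _ _))
  refine ⟨fun a => 2 * C1 * T a + C1 * γ * ∑ p ∈ act, ∑ m ∈ range L.N, κ p m * F p m a,
    (bT.const_mul _).add (bS.const_mul _), fun a _ => ?_, ?_⟩
  · have hne : ∀ p ∈ act, p ≠ y := fun p hp h => hy (h ▸ hp)
    have H : ∀ (p : L.P) (m : ℕ), ∃ G : ℝ → ℝ, p ≠ y → _ := fun p m => by
      by_cases hp : p = y
      · exact ⟨0, fun h => absurd hp h⟩
      · obtain ⟨G, h⟩ := hu0 p m hp a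
        exact ⟨G, fun _ => h⟩
    choose G hG using H
    have iG : ∀ p ∈ act, ∀ m, Integrable fun a' => 4 ^ m * (cau (γ - γ / 2) (a' - a) * G p m a') :=
      fun p hp m => (Bg.int_cau hδ a (hG p m (hne p hp)).1).const_mul _
    refine (integral_mono_of_nonneg (g := fun a' => ∑ p ∈ act, ∑ m ∈ range L.N,
      4 ^ m * (cau (γ - γ / 2) (a' - a) * G p m a')) (Filter.Eventually.of_forall fun a' => ?_)
      (integrable_finsetSum _ fun p hp => integrable_finsetSum _ fun m _ => iG p hp m)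
      (Filter.Eventually.of_forall fun a' => ?_)).trans ?_
    · refine mul_nonneg (Bg.cau_nonneg hδ _) (sum_nonneg fun p _ => sum_nonneg fun m _ =>
        mul_nonneg (by positivity) (Br_nonneg (Real.exp_pos _) (Gam_nonneg (L.wh_nonneg m) _ _)
          (dd_nonneg _ _) (Gam_nonneg (L.wh_nonneg m) _ _) (dd_nonneg _ _) fun h => ?_))
      rw [← L.th_mul, h, mul_zero]
    · dsimp only
      rw [mul_sum]
      refine sum_le_sum fun p hp => ?_
      rw [mul_sum]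
      refine sum_le_sum fun m _ => ?_
      rw [mul_left_comm]
      exact mul_le_mul_of_nonneg_left (mul_le_mul_of_nonneg_left ((hG p m (hne p hp)).2.1 a')
        (Bg.cau_nonneg hδ _)) (by positivity)
    rw [integral_finsetSum _ fun p hp => integrable_finsetSum _ fun m _ => iG p hp m]
    have h1 : ∀ p ∈ act, ∫ a', ∑ m ∈ range L.N, 4 ^ m * (cau (γ - γ / 2) (a' - a) * G p m a') ≤
        C1 * (cc (c.K a γ) y p * (Gam L.r2 (c.K a γ) p / dd (c.K a γ) p)) +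
          C1 * (cc (c.K a γ) y p * L.r2 y p) + C1 * γ * ‖c.z a γ‖ ^ 2 * ∑ m ∈ range L.N, κ p m +
          C1 * γ * ∑ m ∈ range L.N, κ p m * F p m a := by
      intro p hp
      rw [integral_finsetSum _ fun m _ => iG p hp m, ← L.sum_nn, ← L.sum_wh, sum_div]
      simp only [mul_sum, ← sum_add_distrib]
      refine sum_le_sum fun m _ => ?_
      rw [integral_const_mul]
      refine (mul_le_mul_of_nonneg_left (hG p m (hne p hp)).2.2 (by positivity)).trans (le_of_eq ?_)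
      rw [L.wh_symm m y p]
      simp only [κ, F, Lat.nn, Cav.J, Cav.z]
      ring
    refine (sum_le_sum h1).trans ?_
    simp only [sum_add_distrib, ← mul_sum]
    have h2 : ∑ p ∈ act, cc (c.K a γ) y p * (Gam L.r2 (c.K a γ) p / dd (c.K a γ) p) ≤
        ∑ p, cc (c.K a γ) y p * (Gam L.r2 (c.K a γ) p / dd (c.K a γ) p) :=
      sum_le_sum_of_subset_of_nonneg (subset_univ _) fun p _ _ => E0 a p
    have h3 : ∑ p ∈ act, cc (c.K a γ) y p * L.r2 y p ≤ Gam L.r2 (c.K a γ) y :=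
      sum_le_sum_of_subset_of_nonneg (subset_univ _) fun p _ _ =>
        mul_nonneg (cc_nonneg _ _ _) (r0 _ _)
    have h4 := mul_le_mul_of_nonneg_left hκ (by positivity : 0 ≤ C1 * γ * ‖c.z a γ‖ ^ 2)
    have h5 := congrArg (C1 * ·) (c.Gam_y a γ hγ.le ryy)
    have h6 := mul_le_mul_of_nonneg_left h2 hC1.le
    have h7 := mul_le_mul_of_nonneg_left h3 hC1.le
    have h8 := mul_nonneg hC1.le (sum_nonneg fun p (_ : p ∈ univ) => E0 a p)
    simp only [T] at h5 ⊢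
    linarith
  · rw [integral_add ((bT.const_mul _).integrable _) ((bS.const_mul _).integrable _),
      integral_const_mul, integral_const_mul, integral_finsetSum _ fun p _ =>
        (BM.sum _ fun m _ => (bF p m).const_mul (κ p m)).integrable _]
    set Z := ∫ a, ‖zz c.s a γ‖ ^ 2 ∂law a0 b with hZ
    set B := C2 * Z + C2 * (i + 5) * ‖zz c.s a0 b‖ ^ 2 with hB
    have Z0 : 0 ≤ Z := integral_nonneg fun _ => sq_nonneg _
    have h1 : ∑ p ∈ act, ∫ a, ∑ m ∈ range L.N, κ p m * F p m a ∂law a0 b ≤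
        (∑ p ∈ act, ∑ m ∈ range L.N, κ p m) * B := by
      rw [sum_mul]
      refine sum_le_sum fun p _ => ?_
      rw [integral_finsetSum _ fun m _ => ((bF p m).const_mul (κ p m)).integrable _, sum_mul]
      refine sum_le_sum fun m _ => ?_
      rw [integral_const_mul]
      exact mul_le_mul_of_nonneg_left (hlaw c.s (u0 p m) a0 b γ (i + 5) c.s_pos hγ hb hM0) (κ0 p m)
    have h2 := mul_le_mul_of_nonneg_right hκ (by positivity : 0 ≤ B)
    have h3 : 4 * γ * c.V L.r2 * Z ≤ ∫ a, T a ∂law a0 b := by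
      rw [hZ, ← integral_const_mul]
      refine integral_mono (((Bg.bm_z hJ).const_mul _).integrable _) (bT.integrable _) fun a => ?_
      have h5 := c.Gam_y a γ hγ.le ryy
      have h8 := sum_nonneg fun p (_ : p ∈ univ) => E0 a p
      simp only [T, Cav.z] at h5 ⊢
      linarith
    have V0 : 0 ≤ c.V L.r2 := sum_nonneg fun q _ => mul_nonneg (sq_nonneg _) (r0 _ _)
    have h4 := mul_le_mul_of_nonneg_left (h1.trans h2) (by positivity : 0 ≤ C1 * γ)
    have h5 := mul_le_mul_of_nonneg_left h3 (by positivity : 0 ≤ C1 * C2)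
    have h6 : 0 ≤ C1 * C2 * ∫ a, T a ∂law a0 b :=
      mul_nonneg (by positivity) (le_trans (by positivity) h3)
    have Q0 : 0 ≤ c.Bq a0 b γ L.r2 := by unfold Cav.Bq; positivity
    have h7 := mul_le_mul_of_nonneg_left (show i + 5 ≤ 6 * i by linarith)
      (by positivity : 0 ≤ C1 * C2 * c.Bq a0 b γ L.r2)
    have h8 : 0 ≤ C1 * i * c.Bq a0 b γ L.r2 := by positivity
    have h9 : C1 * γ * (4 * c.V L.r2 * B) = C1 * C2 * (4 * γ * c.V L.r2 * Z) +
        C1 * C2 * c.Bq a0 b γ L.r2 * (i + 5) := by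
      simp only [hB, Cav.Bq, Cav.z]; ring
    change _ ≤ _ + _ * ∫ a, T a ∂law a0 b
    linarith

end Crest.Agent.N334.G
end
end

-- ▼ part N334/G/B0b
section

/-!
# Row 334, S0519 GAIN (B), part 0b: expansion of the depth potential in a cavity (helper83)
-/

set_option autoImplicit false

open MeasureTheory Finset Complex
open scoped BigOperators ComplexConjugate

noncomputable section

namespace Crest.Agent.N334.G.B0

variable {L : Lat}

def act (Y : Finset L.X) (y : L.P) : Finset L.P :=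
  univ.filter fun p => p ≠ y ∧ (p.2 = true ∧ p.1 ∈ Y)
def BS (Y : Finset L.X) (i : ℝ) (y : L.P) (K K' : L.Mat) : ℝ :=
  ∑ p ∈ act Y y, ∑ m ∈ range L.N, 4 ^ m *
    Br (Real.exp (-i)) (L.nn K p m) (dd K p) (L.nn K' p m) (dd K' p)
def DS (Y : Finset L.X) (i : ℝ) (K : L.Mat) (p : L.P) : ℝ :=
  ∑ m ∈ range L.N, 4 ^ m * Dc L Y i K p m
def own (Y : Finset L.X) (i : ℝ) (K : L.Mat) (p : L.P) : ℝ :=
  ∑ m ∈ range L.N, 4 ^ m * (L.nn K p m * L.gd Y i K p m)

theorem nn_nonneg (K : L.Mat) (p : L.P) (m : ℕ) : 0 ≤ L.nn K p m :=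
  Gam_nonneg (L.wh_nonneg m) K p

theorem nn_zero (K : L.Mat) (p : L.P) (m : ℕ) (h : dd K p = 0) : L.nn K p m = 0 := by
  rw [← L.th_mul, h, mul_zero]

theorem BS_nonneg (Y : Finset L.X) (i : ℝ) (y : L.P) (K K' : L.Mat) : 0 ≤ BS Y i y K K' :=
  sum_nonneg fun p _ => sum_nonneg fun m _ => mul_nonneg (by positivity)
    (Br_nonneg (Real.exp_pos _) (nn_nonneg K p m) (dd_nonneg K p) (nn_nonneg K' p m)
      (dd_nonneg K' p) (nn_zero K' p m))

theorem own_sub (Y : Finset L.X) (i : ℝ) (K K' : L.Mat) (p : L.P) :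
    own Y i K' p - own Y i K p =
      ∑ q, Wt L Y i K p q * (cc K' p q - cc K p q) + DS Y i K p * (dd K' p - dd K p) -
        if p.2 = true ∧ p.1 ∈ Y then ∑ m ∈ range L.N, 4 ^ m *
          Br (Real.exp (-i)) (L.nn K p m) (dd K p) (L.nn K' p m) (dd K' p) else 0 := by
  have h1 : ∑ q, Wt L Y i K p q * (cc K' p q - cc K p q) =
      ∑ m ∈ range L.N, 4 ^ m * (Fc L Y i K p m * (L.nn K' p m - L.nn K p m)) := by
    unfold Wt Lat.nn Gam
    simp only [sum_mul, ← sum_sub_distrib, mul_sum]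
    rw [sum_comm]
    exact sum_congr rfl fun m _ => sum_congr rfl fun q _ => by ring
  rw [h1]
  unfold own DS Fc Dc Lat.gd
  split_ifs
  · rw [sum_mul, ← sum_add_distrib, ← sum_sub_distrib, ← sum_sub_distrib]
    refine sum_congr rfl fun m _ => ?_
    have h2 := Br_self (Real.exp_pos (-i)) (nn_nonneg K p m) (dd_nonneg K p) (nn_zero K p m)
    unfold Br at h2 ⊢
    unfold Lat.th
    linear_combination ((4 : ℝ) ^ m) * h2
  · rw [sum_mul, ← sum_add_distrib, ← sum_sub_distrib, sub_zero]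
    exact sum_congr rfl fun m _ => by ring

theorem pot_sub (Y : Finset L.X) (i : ℝ) (K K' : L.Mat) (y : L.P) :
    L.Pot Y i K' - L.Pot Y i K =
      ∑ p ∈ univ.erase y, ∑ q, Wt L Y i K p q * (cc K' p q - cc K p q) +
        ∑ p ∈ univ.erase y, DS Y i K p * (dd K' p - dd K p) - BS Y i y K K' +
        (own Y i K' y - own Y i K y) := by
  have h1 : L.Pot Y i K' - L.Pot Y i K = ∑ p, (own Y i K' p - own Y i K p) := by
    rw [sum_sub_distrib]; rfl
  have h2 : BS Y i y K K' = ∑ p ∈ univ.erase y,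
      if p.2 = true ∧ p.1 ∈ Y then ∑ m ∈ range L.N, 4 ^ m *
          Br (Real.exp (-i)) (L.nn K p m) (dd K p) (L.nn K' p m) (dd K' p) else 0 := by
    rw [← sum_filter]
    refine sum_congr ?_ fun _ _ => rfl
    ext p; simp [act]
  rw [h1, ← Finset.add_sum_erase _ _ (mem_univ y), add_comm, h2, ← sum_add_distrib,
    ← sum_sub_distrib]
  congr 1
  exact sum_congr rfl fun p _ => own_sub Y i K K' p

section cav
variable {y0 : L.X} (c : Cav ((y0, true) : L.P))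

def gy (i γ : ℝ) (m : ℕ) : ℝ := -Real.log (c.V (L.wh m) / c.J γ + Real.exp (-i))
def Ow (i γ : ℝ) : ℝ := ∑ m ∈ range L.N, 4 ^ m * (c.V (L.wh m) * gy c i γ m)

theorem nn_y (a : ℝ) {γ : ℝ} (hγ : 0 ≤ γ) (m : ℕ) :
    L.nn (c.K a γ) (y0, true) m = 4 * γ * ‖c.z a γ‖ ^ 2 * c.V (L.wh m) :=
  c.Gam_y a γ hγ (L.wh_self m _)

theorem gd_y {Y : Finset L.X} (hy : y0 ∈ Y) (i a : ℝ) {γ : ℝ} (hγ : 0 < γ) (m : ℕ) :
    L.gd Y i (c.K a γ) (y0, true) m = gy c i γ m := by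
  have hz : 0 < ‖c.z a γ‖ := norm_pos_iff.2 (z_ne c hγ.le a)
  unfold Lat.gd gy Lat.th
  rw [if_pos ⟨rfl, hy⟩, nn_y c a hγ.le, c.dd_y a γ hγ.le,
    mul_div_mul_left _ _ (by positivity)]

theorem own_y {Y : Finset L.X} (hy : y0 ∈ Y) (i a : ℝ) {γ : ℝ} (hγ : 0 < γ) :
    own Y i (c.K a γ) (y0, true) = 4 * γ * ‖c.z a γ‖ ^ 2 * Ow c i γ := by
  unfold own Ow
  rw [mul_sum]
  exact sum_congr rfl fun m _ => by rw [nn_y c a hγ.le, gd_y c hy i a hγ]; ring

theorem sum_V : ∑ m ∈ range L.N, 4 ^ m * c.V (L.wh m) = c.V L.r2 := by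
  unfold Cav.V
  simp only [← L.sum_wh, mul_sum]
  rw [sum_comm]
  exact sum_congr rfl fun p _ => sum_congr rfl fun m _ => by ring

theorem Ow_abs {i γ : ℝ} (hi : 1 ≤ i) (hγ : 0 < γ) : |Ow c i γ| ≤ 6 * i * c.V L.r2 := by
  unfold Ow
  rw [← sum_V, mul_sum]
  refine (abs_sum_le_sum_abs _ _).trans (sum_le_sum fun m _ => ?_)
  have hV := V_nonneg c (L.wh_nonneg m)
  have h1 := L.gd_bdd {y0} (show 0 ≤ i by linarith) (c.K 0 γ) (y0, true) m
  rw [gd_y c (mem_singleton_self _) i 0 hγ] at h1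
  have h2 : |gy c i γ m| ≤ 6 * i := by
    rw [abs_le]; constructor <;> linarith [h1.1, h1.2]
  rw [abs_mul, abs_mul, abs_of_nonneg hV, abs_of_nonneg (by positivity : (0 : ℝ) ≤ 4 ^ m)]
  calc _ ≤ 4 ^ m * (c.V (L.wh m) * (6 * i)) := by gcongr
    _ = _ := by ring

theorem gy_half (i : ℝ) {γ : ℝ} (hγ : 0 < γ) (m : ℕ) :
    gy c i γ m - 1 ≤ gy c i (γ / 2) m := by
  have hV := V_nonneg c (L.wh_nonneg m)
  have hJ : 0 < c.J γ := c.J_pos hγ.le
  have hJ' : 0 < c.J (γ / 2) := c.J_pos (by linarith)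
  have he := Real.exp_pos (-i)
  have h1 : c.V (L.wh m) / c.J (γ / 2) ≤ 2 * (c.V (L.wh m) / c.J γ) := by
    rw [← mul_div_assoc, div_le_div_iff₀ hJ' hJ]
    have : c.J γ ≤ 2 * c.J (γ / 2) := by unfold Cav.J; linarith [c.s_pos]
    nlinarith
  have h2 : 0 ≤ c.V (L.wh m) / c.J γ := by positivity
  have h3 : Real.log (c.V (L.wh m) / c.J (γ / 2) + Real.exp (-i)) ≤
      Real.log (2 * (c.V (L.wh m) / c.J γ + Real.exp (-i))) :=
    Real.log_le_log (by positivity) (by linarith)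
  rw [Real.log_mul (by norm_num) (by positivity)] at h3
  have h4 : Real.log 2 ≤ 1 := by
    have := Real.log_le_sub_one_of_pos (show (0 : ℝ) < 2 by norm_num); linarith
  unfold gy; linarith

variable (Y : Finset L.X) (i a γ : ℝ)

def q0 : ℝ := A0 c (Wt L Y i (c.K a γ)) a γ + 2 * γ * ‖c.z a γ‖ ^ 2 * Ow c i (γ / 2) -
  4 * γ * ‖c.z a γ‖ ^ 2 * Ow c i γ
def q1 : ℂ := A1 c (Wt L Y i (c.K a γ)) a γ +
  ∑ p ∈ univ.erase (y0, true), (DS Y i (c.K a γ) p : ℂ) * (-4 * I * c.rho p ^ 2) +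
  ((2 * γ * Ow c i (γ / 2) : ℝ) : ℂ) * (2 * conj (c.z a γ))
def q2 : ℝ := A2 c (Wt L Y i (c.K a γ)) γ + 2 * γ * Ow c i (γ / 2)

variable {Y i γ}

theorem expand (hy : y0 ∈ Y) (hγ : 0 < γ) (a' : ℝ) :
    L.Pot Y i (c.K a' (γ / 2)) - L.Pot Y i (c.K a γ) =
      q0 c Y i a γ + (q1 c Y i a γ * (c.z a' (γ / 2) - c.z a γ)).re +
        q2 c Y i a γ * ‖c.z a' (γ / 2) - c.z a γ‖ ^ 2 -
        BS Y i (y0, true) (c.K a γ) (c.K a' (γ / 2)) := by
  rw [pot_sub Y i _ _ (y0, true), quad_rows c _ a a' hγ.le, own_y c hy i a hγ,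
    own_y c hy i a' (half_pos hγ)]
  set ζ := c.z a' (γ / 2) - c.z a γ with hζ
  have h1 : ∑ p ∈ univ.erase (y0, true),
      DS Y i (c.K a γ) p * (dd (c.K a' (γ / 2)) p - dd (c.K a γ) p) =
      ((∑ p ∈ univ.erase (y0, true),
        (DS Y i (c.K a γ) p : ℂ) * (-4 * I * c.rho p ^ 2)) * ζ).re := by
    rw [sum_mul, re_sum]
    refine sum_congr rfl fun p hp => ?_
    rw [c.dd_sub a a' hγ.le (by linarith) (ne_of_mem_erase hp), mul_assoc (DS _ _ _ _ : ℂ),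
      re_ofReal_mul]
  have h2 : ‖c.z a' (γ / 2)‖ ^ 2 = ‖c.z a γ‖ ^ 2 + (2 * conj (c.z a γ) * ζ).re + ‖ζ‖ ^ 2 := by
    have := normSq_add (c.z a γ) 1 ζ
    rw [show c.z a γ + 1 * ζ = c.z a' (γ / 2) by rw [hζ]; ring] at this
    simpa using this
  rw [h1, h2]
  unfold q0 q1 q2
  rw [add_mul, add_mul, add_re, add_re, mul_assoc (ofReal _), re_ofReal_mul]
  ring

theorem q2_abs (hi : 1 ≤ i) (hγ : 0 < γ) :
    |q2 c Y i a γ| ≤ 136 * i * c.J (γ / 2) * c.V L.r2 := by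
  have h1 := A2_le c (W := Wt L Y i (c.K a γ)) (r := L.r2) (H := 7 * i) (by linarith)
    (Wt_abs Y hi _) r2_nonneg (r2_self _) (r2_tri _) hγ.le
  have h2 := Ow_abs c hi (half_pos hγ)
  have hV := V_nonneg c (r2_nonneg (L := L))
  have h3 : γ ≤ 2 * c.J (γ / 2) := by unfold Cav.J; linarith [c.s_pos]
  unfold q2
  refine (abs_add_le _ _).trans ?_
  rw [abs_mul, abs_of_nonneg (by linarith : 0 ≤ 2 * γ)]
  have h4 : 2 * γ * |Ow c i (γ / 2)| ≤ 2 * (2 * c.J (γ / 2)) * (6 * i * c.V L.r2) :=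
    mul_le_mul (by linarith) h2 (abs_nonneg _) (by linarith)
  nlinarith

theorem q1_le (hi : 1 ≤ i) (hγ : 0 < γ) {a0 b : ℝ} (hb : γ ≤ b) (ha : |a - a0| ≤ b) :
    γ * ‖c.z a0 b‖ ^ 2 * ‖q1 c Y i a γ‖ ≤ TT L Y i (c.K a γ) (y0, true) / i ^ 2 +
      9 * EE L (c.K a γ) (y0, true) + 50 * i ^ 2 * c.Bq a0 b γ L.r2 := by
  have hz : 0 < ‖c.z a γ‖ := norm_pos_iff.2 (z_ne c hγ.le a)
  have hr : ‖c.z a0 b‖ ≤ 3 * ‖c.z a γ‖ := zref_le c.s_pos hγ.le hb ha
  have hr0 : 0 ≤ ‖c.z a0 b‖ := norm_nonneg _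
  have hr2 : ‖c.z a0 b‖ ^ 2 ≤ 9 * ‖c.z a γ‖ ^ 2 := by nlinarith
  have hV := V_nonneg c (r2_nonneg (L := L))
  have hB : c.Bq a0 b γ L.r2 = 4 * (γ * ‖c.z a0 b‖ ^ 2 * c.V L.r2) := by unfold Cav.Bq; ring
  have hB0 : 0 ≤ γ * ‖c.z a0 b‖ ^ 2 * c.V L.r2 := by positivity
  set x := ‖c.z a0 b‖ ^ 2 / ‖c.z a γ‖ ^ 2 with hx
  have hx0 : 0 ≤ x := by positivity
  have hx9 : x ≤ 9 := by rw [hx, div_le_iff₀ (by positivity)]; exact hr2
  have hxz : x * ‖c.z a γ‖ ^ 2 = ‖c.z a0 b‖ ^ 2 := by rw [hx]; field_simp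
  have h1 := A1_le c (W := Wt L Y i (c.K a γ)) (r := L.r2) (H := 7 * i) (by linarith)
    (Wt_abs Y hi _) r2_nonneg (r2_self _) (fun p => r2_symm _ _) a hγ.le
  have h2 := T3_le Y hi (c.port a hγ.le) (y0, true) hx0
  rw [c.Gam_y a γ hγ.le (r2_self _)] at h2
  have hii : i ≤ i ^ 2 := by nlinarith
  have e1 : γ * ‖c.z a0 b‖ ^ 2 * ‖A1 c (Wt L Y i (c.K a γ)) a γ‖ ≤
      TT L Y i (c.K a γ) (y0, true) / i ^ 2 +
        176 * i ^ 2 * (γ * ‖c.z a0 b‖ ^ 2 * c.V L.r2) := by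
    have h3 := mul_le_mul_of_nonneg_left h1 hx0
    have h4 : i ^ 2 * x ^ 2 * (4 * γ * ‖c.z a γ‖ ^ 2 * c.V L.r2) =
        4 * x * i ^ 2 * (γ * ‖c.z a0 b‖ ^ 2 * c.V L.r2) := by rw [← hxz]; ring
    have h5 : 4 * x * i ^ 2 * (γ * ‖c.z a0 b‖ ^ 2 * c.V L.r2) ≤
        4 * 9 * i ^ 2 * (γ * ‖c.z a0 b‖ ^ 2 * c.V L.r2) := by gcongr
    have h6 : x * (20 * (7 * i) * (γ * ‖c.z a γ‖ ^ 2) * c.V L.r2) =
        140 * i * (γ * ‖c.z a0 b‖ ^ 2 * c.V L.r2) := by rw [← hxz]; ring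
    have h7 : 140 * i * (γ * ‖c.z a0 b‖ ^ 2 * c.V L.r2) ≤
        140 * i ^ 2 * (γ * ‖c.z a0 b‖ ^ 2 * c.V L.r2) := by gcongr
    have h8 : γ * ‖c.z a0 b‖ ^ 2 * ‖A1 c (Wt L Y i (c.K a γ)) a γ‖ =
        x * (γ * ‖c.z a γ‖ ^ 2 * ‖A1 c (Wt L Y i (c.K a γ)) a γ‖) := by rw [← hxz]; ring
    rw [mul_add] at h3
    linarith
  have e2 : γ * ‖c.z a0 b‖ ^ 2 * ‖∑ p ∈ univ.erase (y0, true),
      (DS Y i (c.K a γ) p : ℂ) * (-4 * I * c.rho p ^ 2)‖ ≤ 9 * EE L (c.K a γ) (y0, true) := by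
    refine (mul_le_mul_of_nonneg_left (norm_sum_le _ _) (by positivity)).trans ?_
    have hnn : ∀ p, 0 ≤ cc (c.K a γ) (y0, true) p * (Gam L.r2 (c.K a γ) p / dd (c.K a γ) p) :=
      fun p => mul_nonneg (cc_nonneg _ _ _) (div_nonneg (Gam_nonneg r2_nonneg _ _) (dd_nonneg _ _))
    unfold EE
    rw [mul_sum, mul_sum]
    refine (sum_le_sum fun p hp => ?_).trans (sum_le_sum_of_subset_of_nonneg (subset_univ _)
      fun p _ _ => mul_nonneg (by norm_num) (hnn p))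
    have h3 : |DS Y i (c.K a γ) p| ≤ _ := sum_Dc Y i (c.K a γ) p
    rw [cc_ne c a hγ.le (ne_of_mem_erase hp)]
    simp only [norm_mul, norm_neg, norm_pow, Complex.norm_real, Real.norm_eq_abs, Complex.norm_I,
      Complex.norm_ofNat]
    calc _ ≤ γ * (9 * ‖c.z a γ‖ ^ 2) * (Gam L.r2 (c.K a γ) p / dd (c.K a γ) p *
          (4 * 1 * ‖c.rho p‖ ^ 2)) := by gcongr
      _ = _ := by ring
  have e3 : γ * ‖c.z a0 b‖ ^ 2 * ‖((2 * γ * Ow c i (γ / 2) : ℝ) : ℂ) * (2 * conj (c.z a γ))‖ ≤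
      24 * i ^ 2 * (γ * ‖c.z a0 b‖ ^ 2 * c.V L.r2) := by
    have h3 := Ow_abs c hi (half_pos hγ)
    have h4 := J_z c hγ.le a
    rw [norm_mul, Complex.norm_real, Real.norm_eq_abs, abs_mul,
      abs_of_nonneg (by linarith : 0 ≤ 2 * γ), norm_mul, Complex.norm_conj, Complex.norm_ofNat]
    calc _ = γ * ‖c.z a0 b‖ ^ 2 * 4 * (γ * ‖c.z a γ‖) * |Ow c i (γ / 2)| := by ring
      _ ≤ γ * ‖c.z a0 b‖ ^ 2 * 4 * 1 * (6 * i ^ 2 * c.V L.r2) := by
          gcongr
          exact h3.trans (by gcongr)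
      _ = _ := by ring
  unfold q1
  rw [hB]
  have h0 : 0 ≤ γ * ‖c.z a0 b‖ ^ 2 := by positivity
  refine (mul_le_mul_of_nonneg_left ((norm_add_le _ _).trans
    (add_le_add_left (norm_add_le _ _) _)) h0).trans ?_
  rw [mul_add, mul_add]
  linarith

end cav

end Crest.Agent.N334.G.B0
end
end

-- ▼ part N334/G/B0c
section

/-!
# Row 334, S0519 GAIN (B), part 0c: the ideal drift of the depth potential (helper83)
-/

set_option autoImplicit false

open MeasureTheory Finset Complex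
open scoped BigOperators ComplexConjugate

noncomputable section

namespace Crest.Agent.N334.G.B0

theorem det_ge : ∃ C : ℝ, 0 < C ∧ ∀ (L : Lat) (K : L.Mat), IsPort K → ∀ (y : L.P)
    (Y : Finset L.X) (i : ℝ), 1 ≤ i → 0 < nu K y →
    L.Red Y i K y - C * Gam L.r2 K y - C * i ^ 2 * L.GN K y +
      ∑ m ∈ range L.N, 4 ^ m * L.nn K y m *
        ((∑ p ∈ univ.erase y, cc K y p) / nu K y * L.gd Y i K y m) ≤
    ∑ p ∈ univ.erase y, ∑ q ∈ univ.erase y,
      cc K y p * cc K y q / nu K y * (Wt L Y i K p q - Wt L Y i K p y) := by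
  obtain ⟨C, hC0, hC⟩ := redist
  refine ⟨36 * C + 4, by positivity, fun L K hKp y Y i hi hnu0 => ?_⟩
  have hR := hC L K hKp y (L.gd Y i K) (6 * i) (by linarith)
    (fun p m => by
      have := L.gd_bdd Y (show 0 ≤ i by linarith) K p m
      rw [abs_le]; constructor <;> linarith [this.1, this.2]) (L.gd_lip Y i K)
  have hG0 : 0 ≤ Gam L.r2 K y := Gam_nonneg r2_nonneg _ _
  have hGN : 0 ≤ L.GN K y := Gn_nonneg _ _ _
  have hw : ∀ w : L.P → L.P → ℝ, w y y = 0 →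
      ∑ q ∈ univ.erase y, cc K y q * w y q = Gam w K y := fun w hw => by
    unfold Gam
    rw [← Finset.add_sum_erase _ _ (mem_univ y), hw, mul_zero, zero_add]
  have s1 : ∑ p ∈ univ.erase y, ∑ q ∈ univ.erase y, (cc K y p * cc K y q / nu K y *
      ∑ m ∈ range L.N, 4 ^ m * L.gd Y i K p m * (L.wh m p q - L.wh m p y - L.wh m y q) +
        cc K y p * cc K y q / nu K y * ∑ m ∈ range L.N, 4 ^ m * L.gd Y i K p m * L.wh m y q -
        cc K y p * cc K y q / nu K y * (2 * L.r2 y p + 2 * L.r2 y q)) ≤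
      ∑ p ∈ univ.erase y, ∑ q ∈ univ.erase y,
        cc K y p * cc K y q / nu K y * (Wt L Y i K p q - Wt L Y i K p y) := by
    refine sum_le_sum fun p _ => sum_le_sum fun q _ => ?_
    rw [← mul_add, ← mul_sub]
    refine mul_le_mul_of_nonneg_left ?_
      (div_nonneg (mul_nonneg (cc_nonneg _ _ _) (cc_nonneg _ _ _)) hnu0.le)
    have h1 := r2_tri y p q
    rw [← L.sum_wh p q] at h1
    have h2 : ∑ m ∈ range L.N, 4 ^ m * L.gd Y i K p m * (L.wh m p q - L.wh m p y - L.wh m y q) +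
        ∑ m ∈ range L.N, 4 ^ m * L.gd Y i K p m * L.wh m y q -
        ∑ m ∈ range L.N, 4 ^ m * L.wh m p q ≤ Wt L Y i K p q - Wt L Y i K p y := by
      unfold Wt
      rw [← sum_add_distrib, ← sum_sub_distrib, ← sum_sub_distrib]
      refine sum_le_sum fun m _ => ?_
      have h3 := Fc_bd Y i K p m
      have h4 := mul_nonneg (sub_nonneg.2 h3.1) (L.wh_nonneg m p q)
      have h5 := mul_nonneg (sub_nonneg.2 h3.2) (L.wh_nonneg m p y)
      have h6 := mul_nonneg (show (0 : ℝ) ≤ 4 ^ m by positivity) (add_nonneg h4 h5)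
      linarith
    linarith
  have s2 : ∑ p ∈ univ.erase y, ∑ q ∈ univ.erase y, cc K y p * cc K y q / nu K y *
      (2 * L.r2 y p + 2 * L.r2 y q) ≤ 4 * Gam L.r2 K y := by
    have : ∑ p ∈ univ.erase y, ∑ q ∈ univ.erase y, cc K y p * cc K y q / nu K y *
        (2 * L.r2 y p + 2 * L.r2 y q) =
        4 * Gam L.r2 K y * ((∑ q ∈ univ.erase y, cc K y q) / nu K y) := by
      have e : ∀ p q, cc K y p * cc K y q / nu K y * (2 * L.r2 y p + 2 * L.r2 y q) =
          2 / nu K y * (cc K y p * L.r2 y p * cc K y q + cc K y p * (cc K y q * L.r2 y q)) :=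
        fun p q => by ring
      simp only [e, ← mul_sum, sum_add_distrib, ← sum_mul, hw L.r2 (r2_self _)]
      ring
    rw [this]
    refine mul_le_of_le_one_right (by linarith) ?_
    rw [div_le_one hnu0]
    exact (sum_le_sum_of_subset_of_nonneg (subset_univ _) fun q _ _ => cc_nonneg K y q).trans
      (dd_le_nu K y)
  have s3 : ∑ p ∈ univ.erase y, ∑ q ∈ univ.erase y, cc K y p * cc K y q / nu K y *
      ∑ m ∈ range L.N, 4 ^ m * L.gd Y i K p m * L.wh m y q =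
      L.Red Y i K y + ∑ m ∈ range L.N, 4 ^ m * L.nn K y m *
        ((∑ p ∈ univ.erase y, cc K y p) / nu K y * L.gd Y i K y m) := by
    unfold Lat.Red
    rw [← sum_add_distrib]
    simp only [mul_sum]
    calc _ = ∑ p ∈ univ.erase y, ∑ m ∈ range L.N, ∑ q ∈ univ.erase y, _ :=
          sum_congr rfl fun p _ => sum_comm
      _ = ∑ m ∈ range L.N, ∑ p ∈ univ.erase y, ∑ q ∈ univ.erase y, _ := sum_comm
      _ = _ := by
          refine sum_congr rfl fun m _ => ?_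
          rw [sum_div, sum_mul, mul_sum, ← sum_add_distrib]
          refine sum_congr rfl fun p _ => ?_
          have e2 : L.nn K y m = ∑ q ∈ univ.erase y, cc K y q * L.wh m y q :=
            (hw (L.wh m) (L.wh_self m y)).symm
          rw [← mul_add, e2, mul_sum, sum_mul]
          exact sum_congr rfl fun q _ => by ring
  simp only [sum_add_distrib, sum_sub_distrib] at s1
  have h36 : C * (6 * i) ^ 2 * L.GN K y ≤ (36 * C + 4) * i ^ 2 * L.GN K y :=
    mul_le_mul_of_nonneg_right (by nlinarith [sq_nonneg i]) hGN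
  have hCG : C * Gam L.r2 K y ≤ 36 * C * Gam L.r2 K y := by nlinarith
  linarith

theorem ideal_ge : ∃ C : ℝ, 0 < C ∧ ∀ (L : Lat) (y0 : L.X) (c : Cav ((y0, true) : L.P))
    (Y : Finset L.X) (i a γ : ℝ), y0 ∈ Y → 1 ≤ i → 0 < γ →
    L.Red Y i (c.K a γ) (y0, true) - C * Gam L.r2 (c.K a γ) (y0, true) -
      C * i ^ 2 * L.GN (c.K a γ) (y0, true) ≤
    q0 c Y i a γ + q2 c Y i a γ * ((γ - γ / 2) * ‖c.z a γ‖ ^ 2 / c.J (γ / 2)) := by
  obtain ⟨C, hC0, hC⟩ := det_ge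
  refine ⟨C + 1, by positivity, fun L y0 c Y i a γ hy hi hγ => ?_⟩
  have hid := ideal c (Wt L Y i (c.K a γ)) a hγ
  have hJ' : 0 < c.J (γ / 2) := c.J_pos (by linarith)
  have hz : 0 < ‖c.z a γ‖ := norm_pos_iff.2 (z_ne c hγ.le a)
  have hnu := nu_half c a hγ.le
  have hmu : ∑ p ∈ univ.erase (y0, true), cc (c.K a γ) (y0, true) p =
      4 * γ * ‖c.z a γ‖ ^ 2 * c.s.im := by
    rw [im_eq c, mul_sum]
    exact sum_congr rfl fun p hp => cc_ne c a hγ.le (ne_of_mem_erase hp)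
  have hD := hC L _ (c.port a hγ.le) (y0, true) Y i hi (by rw [hnu]; positivity)
  have hGN : 0 ≤ i ^ 2 * L.GN (c.K a γ) (y0, true) :=
    mul_nonneg (sq_nonneg _) (Gn_nonneg _ _ _)
  have s4 : -Gam L.r2 (c.K a γ) (y0, true) ≤
      2 * γ * ‖c.z a γ‖ ^ 2 * Ow c i (γ / 2) - 4 * γ * ‖c.z a γ‖ ^ 2 * Ow c i γ +
        2 * γ * Ow c i (γ / 2) * ((γ - γ / 2) * ‖c.z a γ‖ ^ 2 / c.J (γ / 2)) +
      ∑ m ∈ range L.N, 4 ^ m * L.nn (c.K a γ) (y0, true) m *
        ((∑ p ∈ univ.erase (y0, true), cc (c.K a γ) (y0, true) p) / nu (c.K a γ) (y0, true) *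
          L.gd Y i (c.K a γ) (y0, true) m) := by
    unfold Ow
    rw [← L.sum_nn, ← sum_neg_distrib, hmu, hnu, mul_sum, mul_sum, mul_sum, sum_mul,
      ← sum_sub_distrib, ← sum_add_distrib, ← sum_add_distrib]
    refine sum_le_sum fun m _ => ?_
    have h1 := gy_half c i hγ m
    have hn0 := nn_nonneg (c.K a γ) (y0, true) m
    have hJe : c.J γ = c.J (γ / 2) + γ / 2 := by unfold Cav.J; ring
    have hse : c.s.im = c.J (γ / 2) - γ / 2 := by unfold Cav.J; ring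
    have ht0 : 0 ≤ c.J γ / (2 * c.J (γ / 2)) := div_nonneg (c.J_pos hγ.le).le (by positivity)
    have ht1 : c.J γ / (2 * c.J (γ / 2)) ≤ 1 := by
      rw [div_le_one (by positivity)]; linarith [c.s_pos]
    have h2 : -1 ≤ c.J γ / (2 * c.J (γ / 2)) * (gy c i (γ / 2) m - gy c i γ m) := by nlinarith
    have h3 := mul_le_mul_of_nonneg_left h2
      (mul_nonneg (show (0 : ℝ) ≤ 4 ^ m by positivity) hn0)
    refine (le_of_eq (by ring)).trans (h3.trans (le_of_eq ?_))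
    rw [gd_y c hy i a hγ, nn_y c a hγ.le, hse, hJe]
    field_simp
    ring
  unfold q0 q2
  rw [← hid] at hD
  linarith

end Crest.Agent.N334.G.B0
end
end

-- ▼ part N334/G/B

/-!
# Row 334, S0519 GAIN: (B) drift of the depth potential
-/

set_option autoImplicit false

open MeasureTheory Finset Complex
open scoped BigOperators ComplexConjugate

noncomputable section

namespace Crest.Agent.N334.G

namespace B0

/-- the one-site error functional -/
def G2 (L : Lat) (Y : Finset L.X) (i C : ℝ) (y : L.P) (K : L.Mat) : ℝ :=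
  C * (Gam L.r2 K y + i ^ 2 * L.GN K y + EE L K y + TT L Y i K y / i ^ 2) - L.Red Y i K y

theorem nice_G2 (L : Lat) (Y : Finset L.X) {i : ℝ} (hi : 1 ≤ i) (C : ℝ) (y : L.P) :
    Nice (G2 L Y i C y) :=
  ((Nice.const C).mul ((((nice_Gam L.r2 y).add ((Nice.const _).mul (L.nice_GN y))).add
    (nice_EE y)).add (nice_TT Y hi y))).sub (L.nice_Red Y (by linarith) y)

theorem bm_Jz {s : ℂ} {γ b : ℝ} (h : 0 < γ + s.im) (hb : 0 ≤ b) :
    BM fun a => b * (γ + s.im) * ‖zz s a γ‖ ^ 2 := by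
  refine ⟨((measurable_zz s γ).norm.pow_const 2).const_mul _, b / (γ + s.im), fun a => ?_⟩
  have h1 := norm_zz_le h a
  have h0 : 0 ≤ (γ + s.im) * ‖zz s a γ‖ := by positivity
  rw [abs_of_nonneg (by positivity), le_div_iff₀ h]
  calc _ = b * ((γ + s.im) * ‖zz s a γ‖) ^ 2 := by ring
    _ ≤ b * 1 ^ 2 := by gcongr
    _ = b := by ring

theorem site : ∃ C : ℝ, 0 < C ∧ ∀ (L : Lat) (y0 : L.X) (c : Cav ((y0, true) : L.P))
    (Y : Finset L.X) (i a0 b γ : ℝ), y0 ∈ Y → 1 ≤ i → 0 ≤ γ → γ ≤ b → 0 < b →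
    ∫ t, (L.Pot Y i (c.K t γ) - L.Pot Y i (c.K t (γ / 2))) ∂law a0 b ≤
      ∫ t, (G2 L Y i C (y0, true) (c.K t γ) + C * i ^ 2 * c.Bq a0 b γ L.r2) ∂law a0 b := by
  obtain ⟨C0, hC0, hqs⟩ := qs
  obtain ⟨C1, hC1, hid⟩ := ideal_ge
  obtain ⟨C2, hC2, hbr⟩ := breg
  refine ⟨C1 + 200 * C0 + C0 * C2, by positivity, fun L y0 c Y i a0 b γ hy hi hγ hγb hb => ?_⟩
  have := law_prob a0 hb
  have hi0 : 0 ≤ i := by linarith
  have hV := V_nonneg c (r2_nonneg (L := L))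
  have hB0 : 0 ≤ c.Bq a0 b γ L.r2 := by unfold Cav.Bq; positivity
  have hGam : ∀ K : L.Mat, 0 ≤ Gam L.r2 K (y0, true) := fun K => Gam_nonneg r2_nonneg _ _
  have hGN : ∀ K : L.Mat, 0 ≤ i ^ 2 * L.GN K (y0, true) := fun K =>
    mul_nonneg (sq_nonneg _) (Gn_nonneg _ _ _)
  have hTT : ∀ K : L.Mat, 0 ≤ TT L Y i K (y0, true) / i ^ 2 := fun K =>
    div_nonneg (TT_nonneg _ _ _ _) (sq_nonneg _)
  have hEE : ∀ K : L.Mat, 0 ≤ EE L K (y0, true) := fun K => EE_nonneg _ _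
  rcases hγ.eq_or_lt with h0 | hγ0
  · subst h0
    simp only [zero_div, sub_self, integral_zero]
    refine integral_nonneg fun t => add_nonneg ?_ (by positivity)
    have : L.Red Y i (c.K t 0) (y0, true) = 0 := by
      unfold Lat.Red
      exact sum_eq_zero fun m _ => by rw [nn_y c t le_rfl]; simp
    unfold G2
    rw [this, sub_zero]
    have := hGam (c.K t 0); have := hGN (c.K t 0); have := hTT (c.K t 0); have := hEE (c.K t 0)
    positivity
  have hγ' : 0 ≤ γ / 2 := by linarith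
  have bm : ∀ {F : L.Mat → ℝ}, Nice F → ∀ g, 0 ≤ g → BM fun t => F (c.K t g) :=
    fun hF g hg => hF.bm (c.measurable_K g) fun t => c.port t hg
  obtain ⟨ρ, hρ, hρ1, hρ2⟩ := hbr L (y0, true) c a0 b γ i (act Y (y0, true)) hγ0 hγb hi
    (by simp [act])
  have hJ : 0 < γ + c.s.im := by linarith [c.s_pos]
  have hJ' : 0 < c.J (γ / 2) := c.J_pos hγ'
  have bP := bm (L.nice_Pot Y hi0) γ hγ
  have bP' := bm (L.nice_Pot Y hi0) (γ / 2) hγ'
  have bG := bm (nice_G2 L Y hi (C1 + 9 * C0) (y0, true)) γ hγ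
  have bJ := bm_Jz hJ hb.le
  have bX := bm ((nice_Gam L.r2 (y0, true)).add (nice_EE (y0, true))) γ hγ
  have key := hqs c.s a0 b γ (γ / 2) c.s_pos hγ' (by linarith) hγb
    (fun t => -L.Pot Y i (c.K t (γ / 2))) (fun t => -L.Pot Y i (c.K t γ))
    (fun t => G2 L Y i (C1 + 9 * C0) (y0, true) (c.K t γ) + 67 * C0 * i ^ 2 * c.Bq a0 b γ L.r2 +
      17 * C0 * i * c.Bq a0 b γ L.r2 * (b * (γ + c.s.im) * ‖zz c.s t γ‖ ^ 2) + C0 * ρ t)
    bP'.neg bP.neg (((bG.add (BM.const _)).add (bJ.const_mul _)).add (hρ.const_mul _))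
    (fun a ha => by
      have hex := expand c (Y := Y) (i := i) a hy hγ0
      refine ⟨-q0 c Y i a γ, -q2 c Y i a γ, ρ a, -q1 c Y i a γ, fun a' => ?_, ?_, ?_⟩
      · have h1 := hex a'
        have h2 := BS_nonneg Y i (y0, true) (c.K a γ) (c.K a' (γ / 2))
        unfold Cav.z at h1
        rw [neg_mul, neg_re]
        linarith
      · refine le_of_eq_of_le (integral_congr_ae (ae_of_all _ fun a' => ?_)) (hρ1 a ha)
        have h1 := hex a'
        unfold Cav.z BS at h1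
        simp only
        congr 1
        rw [neg_mul, neg_re]
        linarith
      · have h1 := hid L y0 c Y i a γ hy hi hγ0
        have h2 := q1_le c (Y := Y) a hi hγ0 hγb ha
        have h3 := q2_abs c (Y := Y) a hi hγ0
        have e1 : γ / 2 + c.s.im = c.J (γ / 2) := rfl
        have hB : c.Bq a0 b γ L.r2 = 4 * γ * ‖zz c.s a0 b‖ ^ 2 * c.V L.r2 := rfl
        unfold Cav.z at h1 h2
        rw [e1, norm_neg, abs_neg]
        have h4 : (γ - γ / 2) * ‖zz c.s a0 b‖ ^ 2 * (|q2 c Y i a γ| *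
            (1 / c.J (γ / 2) + b * ‖zz c.s a γ‖ ^ 2)) ≤ 17 * i * c.Bq a0 b γ L.r2 +
              17 * i * c.Bq a0 b γ L.r2 * (b * (γ + c.s.im) * ‖zz c.s a γ‖ ^ 2) := by
          have h5 : c.J (γ / 2) ≤ γ + c.s.im := by rw [← e1]; linarith
          have h6 : 0 ≤ γ - γ / 2 := by linarith
          calc _ ≤ (γ - γ / 2) * ‖zz c.s a0 b‖ ^ 2 * (136 * i * c.J (γ / 2) * c.V L.r2 *
                (1 / c.J (γ / 2) + b * ‖zz c.s a γ‖ ^ 2)) := by gcongr
            _ = 17 * i * c.Bq a0 b γ L.r2 +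
                17 * i * c.Bq a0 b γ L.r2 * (b * c.J (γ / 2) * ‖zz c.s a γ‖ ^ 2) := by
                rw [hB]; field_simp; ring
            _ ≤ _ := by gcongr
        have h5 : (γ - γ / 2) * ‖zz c.s a0 b‖ ^ 2 * ‖q1 c Y i a γ‖ ≤
            γ * ‖zz c.s a0 b‖ ^ 2 * ‖q1 c Y i a γ‖ := by gcongr; linarith
        have h6 : i * c.Bq a0 b γ L.r2 ≤ i ^ 2 * c.Bq a0 b γ L.r2 := by gcongr; nlinarith
        have h7 : (γ - γ / 2) * ‖zz c.s a0 b‖ ^ 2 * (‖q1 c Y i a γ‖ + |q2 c Y i a γ| *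
            (1 / c.J (γ / 2) + b * ‖zz c.s a γ‖ ^ 2)) + ρ a ≤
            TT L Y i (c.K a γ) (y0, true) / i ^ 2 + 9 * EE L (c.K a γ) (y0, true) +
              67 * i ^ 2 * c.Bq a0 b γ L.r2 +
              17 * i * c.Bq a0 b γ L.r2 * (b * (γ + c.s.im) * ‖zz c.s a γ‖ ^ 2) + ρ a := by
          rw [mul_add]; linarith
        have h8 := mul_le_mul_of_nonneg_left h7 hC0.le
        have p1 := mul_nonneg hC0.le (hGam (c.K a γ))
        have p2 := mul_nonneg hC0.le (hGN (c.K a γ))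
        have p3 := mul_nonneg hC0.le (hTT (c.K a γ))
        have p4 := mul_nonneg hC1.le (hTT (c.K a γ))
        have p5 := mul_nonneg hC1.le (hEE (c.K a γ))
        unfold G2
        linarith)
  have iP := bP.integrable (law a0 b)
  have iP' := bP'.integrable (law a0 b)
  have iG := bG.integrable (law a0 b)
  have iJ := bJ.integrable (law a0 b)
  have iρ := hρ.integrable (law a0 b)
  have iX := bX.integrable (law a0 b)
  have iG' := (bm (nice_G2 L Y hi (C1 + 200 * C0 + C0 * C2) (y0, true)) γ hγ).integrable (law a0 b)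
  rw [integral_neg, integral_neg, integral_add (((bG.add (BM.const _)).add
    (bJ.const_mul _)).integrable _) (iρ.const_mul _),
    integral_add ((bG.add (BM.const _)).integrable _) (iJ.const_mul _), integral_add iG (integrable_const _), integral_const,
    integral_const_mul (17 * C0 * i * _), integral_const_mul C0] at key
  rw [integral_sub iP iP', integral_add iG' (integrable_const _), integral_const]
  simp only [probReal_univ, one_smul] at key ⊢
  have h1 := law_J_zz hJ a0 hb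
  have h2 : ∫ t, G2 L Y i (C1 + 9 * C0) (y0, true) (c.K t γ) ∂law a0 b +
      C0 * C2 * ∫ t, (Gam L.r2 (c.K t γ) (y0, true) + EE L (c.K t γ) (y0, true)) ∂law a0 b ≤
      ∫ t, G2 L Y i (C1 + 200 * C0 + C0 * C2) (y0, true) (c.K t γ) ∂law a0 b := by
    rw [← integral_const_mul, ← integral_add iG (iX.const_mul _)]
    refine integral_mono (iG.add (iX.const_mul _)) iG' fun t => ?_
    have hCC := mul_pos hC0 hC2
    have p1 := mul_nonneg hC0.le (hGam (c.K t γ))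
    have p2 := mul_nonneg hC0.le (hGN (c.K t γ))
    have p3 := mul_nonneg hC0.le (hTT (c.K t γ))
    have p4 := mul_nonneg hC0.le (hEE (c.K t γ))
    have p5 := mul_nonneg hCC.le (hGN (c.K t γ))
    have p6 := mul_nonneg hCC.le (hTT (c.K t γ))
    simp only [G2]
    linarith
  have h3 := mul_le_mul_of_nonneg_left hρ2 hC0.le
  have h4 : 17 * C0 * i * c.Bq a0 b γ L.r2 *
      ∫ t, b * (γ + c.s.im) * ‖zz c.s t γ‖ ^ 2 ∂law a0 b ≤
      17 * C0 * i ^ 2 * c.Bq a0 b γ L.r2 * 4 := by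
    have : 0 ≤ ∫ t, b * (γ + c.s.im) * ‖zz c.s t γ‖ ^ 2 ∂law a0 b :=
      integral_nonneg fun t => by positivity
    gcongr
    · nlinarith
    · linarith [Real.pi_le_four]
  have h5 : i * c.Bq a0 b γ L.r2 ≤ i ^ 2 * c.Bq a0 b γ L.r2 := by gcongr; nlinarith
  have h6 := mul_le_mul_of_nonneg_left h5 (mul_pos hC0 hC2).le
  have h7 : 0 ≤ i ^ 2 * c.Bq a0 b γ L.r2 := by positivity
  have h8 := mul_nonneg hC0.le h7
  have h9 := mul_nonneg hC1.le h7
  unfold EE at h2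
  linarith

end B0

open B0 in
theorem driftB : ∃ C : ℝ, 0 < C ∧ ∀ (L : Lat) (st : Stat L) (Y1 : Finset L.X), Y1 ⊆ st.Y →
    ∀ i : ℝ, 1 ≤ i →
    st.I0 (fun K => ∑ y ∈ Y1, L.Red st.Y i K (y, true)) - C * st.I0 (En L.r2) -
      C * i ^ 2 * st.I0 (fun K => ∑ y ∈ Y1, L.GN K (y, true)) -
      C * i ^ 2 * st.IB Y1 (fun _ => 1) L.r2 ≤ st.dr Y1 st.half (L.Pot st.Y i) := by
  obtain ⟨C, hC0, hC⟩ := site
  obtain ⟨C3, hC3, hT⟩ := sum_TT
  refine ⟨C * (2 + C3), by positivity, fun L st Y1 hY i hi => ?_⟩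
  have hi0 : 0 ≤ i := by linarith
  have bR : ∀ y ∈ Y1, BM fun a => (1 : ℝ) * (st.γ y / st.b y * Gam L.r2 (st.Kr a y) (y, true)) :=
    fun y hy => ((st.bm_Kr (nice_Gam L.r2 (y, true)) (hY hy)).const_mul _).const_mul _
  have bG : ∀ y : L.X, BM fun a => G2 L st.Y i C (y, true) (L.Km st.E st.η st.γ a) :=
    fun y => st.bm_Km (nice_G2 L st.Y hi C (y, true)) st.γ_nonneg
  have h1 : ∀ y ∈ Y1, -(st.Ig (Function.update st.γ y (st.half y)) (L.Pot st.Y i) -
      st.I0 (L.Pot st.Y i)) ≤ st.Ia fun a => G2 L st.Y i C (y, true) (L.Km st.E st.η st.γ a) +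
        C * i ^ 2 * (1 * (st.γ y / st.b y * Gam L.r2 (st.Kr a y) (y, true))) := by
    intro y hy
    have hh : 0 ≤ st.half y := div_nonneg (st.γ_nonneg y) (by norm_num)
    have hγ' : ∀ x, 0 ≤ Function.update st.γ y (st.half y) x := fun x => by
      by_cases h : x = y
      · subst h; simpa using hh
      · simpa [h] using st.γ_nonneg x
    have b1 := st.bm_Km (L.nice_Pot st.Y hi0) st.γ_nonneg
    have b2 := st.bm_Km (L.nice_Pot st.Y hi0) hγ'
    rw [neg_sub]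
    unfold Stat.I0 Stat.Ig
    rw [← st.Ia_sub b1 b2]
    refine st.lift (b1.sub b2) ((bG y).add ((bR y hy).const_mul _)) y fun a => ?_
    obtain ⟨c, e1, e2, e3, -⟩ := st.cav a (hY hy)
    obtain ⟨hmu, hb, -, hγb⟩ := st.hY y (hY hy)
    simp only [e1 _ _ hh, e2, e3, hmu, one_mul, c.Bq_eq hb (r2_self _)]
    exact hC L y c st.Y i _ _ _ (hY hy) hi (st.γ_nonneg y) hγb hb
  have h2 := sum_le_sum h1
  rw [sum_neg_distrib, ← st.Ia_sum _ fun y hy => (bG y).add ((bR y hy).const_mul _)] at h2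
  have bRed := st.bm_Km (Nice.sum Y1 fun y _ => L.nice_Red st.Y hi0 (y, true)) st.γ_nonneg
  have bEn := st.bm_Km (nice_En L.r2) st.γ_nonneg
  have bGN := st.bm_Km (Nice.sum Y1 fun y _ => L.nice_GN (y, true)) st.γ_nonneg
  have bIB := BM.sum Y1 bR
  have h3 : (st.Ia fun a => ∑ y ∈ Y1, (G2 L st.Y i C (y, true) (L.Km st.E st.η st.γ a) +
        C * i ^ 2 * (1 * (st.γ y / st.b y * Gam L.r2 (st.Kr a y) (y, true))))) ≤
      st.Ia fun a => C * (2 + C3) * En L.r2 (L.Km st.E st.η st.γ a) +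
        C * i ^ 2 * ∑ y ∈ Y1, L.GN (L.Km st.E st.η st.γ a) (y, true) +
        C * i ^ 2 * ∑ y ∈ Y1, 1 * (st.γ y / st.b y * Gam L.r2 (st.Kr a y) (y, true)) -
        ∑ y ∈ Y1, L.Red st.Y i (L.Km st.E st.η st.γ a) (y, true) := by
    refine st.Ia_mono (BM.sum _ fun y hy => (bG y).add ((bR y hy).const_mul _))
      ((((bEn.const_mul _).add (bGN.const_mul _)).add (bIB.const_mul _)).sub bRed) fun a => ?_
    have hK := L.port_Km st.E st.η_pos st.γ_nonneg a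
    set K := L.Km st.E st.η st.γ a
    have t1 : ∑ y ∈ Y1, Gam L.r2 K (y, true) ≤ En L.r2 K :=
      sum_act_le Y1 (f := fun p => Gam L.r2 K p) fun p => Gam_nonneg r2_nonneg _ _
    have t2 : ∑ y ∈ Y1, EE L K (y, true) ≤ En L.r2 K :=
      (sum_act_le Y1 (f := fun p => EE L K p) fun p => EE_nonneg _ _).trans (sum_EE hK)
    have t3 : ∑ y ∈ Y1, TT L st.Y i K (y, true) / i ^ 2 ≤ C3 * En L.r2 K :=
      (sum_act_le Y1 (f := fun p => TT L st.Y i K p / i ^ 2) fun p =>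
        div_nonneg (TT_nonneg _ _ _ _) (sq_nonneg _)).trans (hT L st.Y i hi K hK)
    have t4 := mul_le_mul_of_nonneg_left (add_le_add (add_le_add t1 t2) t3) hC0.le
    simp only [G2, sum_add_distrib, sum_sub_distrib, ← mul_sum]
    linarith
  rw [st.Ia_sub (((bEn.const_mul _).add (bGN.const_mul _)).add (bIB.const_mul _)) bRed,
    st.Ia_add ((bEn.const_mul _).add (bGN.const_mul _)) (bIB.const_mul _),
    st.Ia_add (bEn.const_mul _) (bGN.const_mul _), st.Ia_mul, st.Ia_mul, st.Ia_mul] at h3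
  have n1 : 0 ≤ st.I0 (fun K => ∑ y ∈ Y1, L.GN K (y, true)) :=
    st.Ia_nonneg fun a => sum_nonneg fun y _ => Gn_nonneg _ _ _
  have n2 : 0 ≤ st.IB Y1 (fun _ => 1) L.r2 := st.IB_nonneg hY (fun _ => zero_le_one) r2_nonneg
  have hc : 0 ≤ C * (1 + C3) * i ^ 2 := by positivity
  have n3 := mul_nonneg hc n1
  have n4 := mul_nonneg hc n2
  unfold Stat.dr
  unfold Stat.IB Stat.I0 Stat.Ig at *
  linarith

end Crest.Agent.N334.G
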