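import Crest.Agent.N334.G.Geo2
import Crest.Agent.N334.G.Lift
import Crest.Agent.N334.G.Quad

-- ▼ part N334/G/E1a
section

/-!
# Row 334, S0519 GAIN: (E) rigidity, the matrix estimate in one cell
-/

set_option autoImplicit false
set_option linter.unusedSectionVars false

open MeasureTheory Finset Complex
open scoped BigOperators ComplexConjugate

noncomputable section

namespace Crest.Agent.N334.G.E1

theorem amgm {t a b R s : ℝ} (ha : 0 ≤ a) (hb : 0 ≤ b) (hR : 0 ≤ R) (hs : 0 < s)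
    (h : t ^ 2 ≤ 4 * R * (a * b)) : t ≤ s * a + R / s * b := by
  refine (le_abs_self t).trans (abs_le_of_sq_le_sq (h.trans ?_) (by positivity))
  have e : 4 * R * (a * b) = 4 * ((s * a) * (R / s * b)) := by field_simp
  rw [e]
  nlinarith [sq_nonneg (s * a - R / s * b)]

theorem sum_le_three {α : Type} [DecidableEq α] (Z : Finset α) {f : α → ℝ} (hf : ∀ z, 0 ≤ f z)
    (x y : α) : ∑ z ∈ Z, f z ≤ f y + f x + ∑ z ∈ (Z.erase y).erase x, f z := by
  have h : ∀ (Z : Finset α) (a : α), ∑ z ∈ Z, f z ≤ f a + ∑ z ∈ Z.erase a, f z := fun Z a => by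
    by_cases ha : a ∈ Z
    · exact (add_sum_erase Z f ha).ge
    · rw [erase_eq_of_notMem ha]; linarith [hf a]
  linarith [h Z y, h (Z.erase y) x]

section mat
variable {P : Type} [Fintype P] [DecidableEq P] {K : P → P → ℂ} {ι : Type} [Fintype ι]
  {Φ : ι → P → ℝ}

/-- the commutator `[f, S]` -/
def Am (f : P → ℝ) (K : P → P → ℂ) (x y : P) : ℂ := ((f x - f y : ℝ) : ℂ) * K x y

theorem iso (hK : IsPort K) (V N : Finset P) (v : P → ℂ) :
    ∑ y ∈ V, ‖∑ x ∈ N, conj (Sm K x y) * v x‖ ^ 2 ≤ ∑ x ∈ N, ‖v x‖ ^ 2 := by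
  have h := hK.S_iso fun x => if x ∈ N then conj (v x) else 0
  have e : ∀ y, ‖∑ x ∈ N, conj (Sm K x y) * v x‖
      = ‖∑ q, Sm K y q * if q ∈ N then conj (v q) else 0‖ := fun y => by
    rw [← Complex.norm_conj]
    simp only [map_sum, map_mul, Complex.conj_conj, mul_ite, mul_zero, sum_ite_mem, univ_inter,
      hK.S_symm y]
  simp only [e]
  refine (sum_le_sum_of_subset_of_nonneg (subset_univ V) fun _ _ _ => sq_nonneg _).trans
    (h.le.trans (le_of_eq ?_))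
  simp only [apply_ite norm, Complex.norm_conj, norm_zero, ite_pow, ne_eq, OfNat.ofNat_ne_zero,
    not_false_eq_true, zero_pow, sum_ite_mem, univ_inter]

theorem norm_S_le (hK : IsPort K) (x : P) : ‖Sm K x x‖ ^ 2 ≤ 1 := by
  simpa using iso hK {x} {x} fun _ => 1

theorem opB (hK : IsPort K) {V N : Finset P} {t : ι → ℝ} {R : ℝ} (hR : 0 ≤ R)
    (hN : ∀ x ∈ N, ∑ j, (Φ j x - t j) ^ 2 ≤ R) (hV : ∀ y ∈ V, ∑ j, (Φ j y - t j) ^ 2 ≤ R)
    (u : P → ℂ) : ∑ y ∈ V, ∑ j, ‖∑ x ∈ N, conj (Am (Φ j) K x y) * u x‖ ^ 2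
      ≤ 4 * R * ∑ x ∈ N, ‖u x‖ ^ 2 := by
  have e : ∀ j y, ∑ x ∈ N, conj (Am (Φ j) K x y) * u x
      = ∑ x ∈ N, conj (Sm K x y) * (((Φ j x - t j : ℝ) : ℂ) * u x)
        - ((Φ j y - t j : ℝ) : ℂ) * ∑ x ∈ N, conj (Sm K x y) * u x := fun j y => by
    rw [mul_sum, ← sum_sub_distrib]
    refine sum_congr rfl fun x _ => ?_
    by_cases h : x = y
    · subst h; simp [Am]; ring
    · simp [Am, Sm, h]; ring
  have h1 : ∀ j y, ‖∑ x ∈ N, conj (Am (Φ j) K x y) * u x‖ ^ 2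
      ≤ 2 * ‖∑ x ∈ N, conj (Sm K x y) * (((Φ j x - t j : ℝ) : ℂ) * u x)‖ ^ 2
        + 2 * ((Φ j y - t j) ^ 2 * ‖∑ x ∈ N, conj (Sm K x y) * u x‖ ^ 2) := fun j y => by
    rw [e]
    refine (pow_le_pow_left₀ (norm_nonneg _) (norm_sub_le _ _) 2).trans (add_sq_le.trans ?_)
    rw [norm_mul, mul_pow, Complex.norm_real, Real.norm_eq_abs, sq_abs, mul_add]
  have h2 : ∑ y ∈ V, ∑ j, ‖∑ x ∈ N, conj (Sm K x y) * (((Φ j x - t j : ℝ) : ℂ) * u x)‖ ^ 2
      ≤ R * ∑ x ∈ N, ‖u x‖ ^ 2 := by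
    rw [sum_comm]
    refine (sum_le_sum fun j _ => iso hK V N _).trans ?_
    rw [sum_comm, mul_sum]
    refine sum_le_sum fun x hx => ?_
    simp only [norm_mul, mul_pow, Complex.norm_real, Real.norm_eq_abs, sq_abs, ← sum_mul]
    exact mul_le_mul_of_nonneg_right (hN x hx) (sq_nonneg _)
  have h3 : ∑ y ∈ V, ∑ j, (Φ j y - t j) ^ 2 * ‖∑ x ∈ N, conj (Sm K x y) * u x‖ ^ 2
      ≤ R * ∑ x ∈ N, ‖u x‖ ^ 2 := by
    refine le_trans ?_ (mul_le_mul_of_nonneg_left (iso hK V N u) hR)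
    rw [mul_sum]
    refine sum_le_sum fun y hy => ?_
    rw [← sum_mul]
    exact mul_le_mul_of_nonneg_right (hV y hy) (sq_nonneg _)
  refine (sum_le_sum fun y _ => sum_le_sum fun j _ => h1 j y).trans ?_
  simp only [sum_add_distrib, ← mul_sum]
  linarith

theorem wt_le {t : ι → ℝ} {R : ℝ} {x y : P} (hx : ∑ j, (Φ j x - t j) ^ 2 ≤ R)
    (hy : ∑ j, (Φ j y - t j) ^ 2 ≤ R) : wt Φ x y ≤ 4 * R := by
  have : wt Φ x y ≤ ∑ j, (2 * (Φ j x - t j) ^ 2 + 2 * (Φ j y - t j) ^ 2) :=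
    sum_le_sum fun j _ => by nlinarith [sq_nonneg (Φ j x - t j + (Φ j y - t j))]
  simp only [sum_add_distrib, ← mul_sum] at this
  linarith

theorem sum_Am (x y : P) : ∑ j, ‖Am (Φ j) K x y‖ ^ 2 = cc K x y * wt Φ x y := by
  simp only [Am, norm_mul, mul_pow, Complex.norm_real, Real.norm_eq_abs, sq_abs, cc, wt, mul_sum,
    mul_comm]

/-- the basic identity -/
theorem ident (hK : IsPort K) (N : Finset P) (y : P) :
    ((∑ x ∈ N, cc K x y * wt Φ x y : ℝ) : ℂ)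
      = ∑ z, ∑ j, (∑ x ∈ N, conj (Am (Φ j) K x y) * Sm K x z) * Tm (Φ j) K z y := by
  simp only [← sum_Am, sum_mul, Complex.ofReal_sum, Complex.ofReal_pow]
  rw [sum_comm (s := univ), sum_comm]
  refine sum_congr rfl fun j _ => ?_
  rw [sum_comm]
  refine sum_congr rfl fun x _ => ?_
  simp only [mul_assoc, ← mul_sum]
  rw [← hK.comm_eq, ← Am, Complex.conj_mul']

theorem sum_T (hK : IsPort K) (y : P) : ∑ z, ∑ j, ‖Tm (Φ j) K z y‖ ^ 2 = Gam (wt Φ) K y := by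
  rw [sum_comm]
  simp only [hK.T_col, Gam, wt, mul_sum]
  exact sum_comm

/-- the part outside `Z` -/
theorem out (hK : IsPort K) {V N Z : Finset P} (hNZ : N ⊆ Z) {t : ι → ℝ} {R : ℝ} (hR : 0 ≤ R)
    (hN : ∀ x ∈ N, ∑ j, (Φ j x - t j) ^ 2 ≤ R) (hV : ∀ y ∈ V, ∑ j, (Φ j y - t j) ^ 2 ≤ R)
    {l : ℝ} (hl : 0 < l) :
    ∑ y ∈ V, ‖∑ z ∈ Zᶜ, ∑ j, (∑ x ∈ N, conj (Am (Φ j) K x y) * Sm K x z) * Tm (Φ j) K z y‖
      ≤ l * ∑ y ∈ V, Gam (wt Φ) K y + R / l * ∑ x ∈ N, ∑ z ∈ Zᶜ, cc K x z := by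
  have h1 : ∀ y, ‖∑ z ∈ Zᶜ, ∑ j, (∑ x ∈ N, conj (Am (Φ j) K x y) * Sm K x z) * Tm (Φ j) K z y‖
      ≤ l * Gam (wt Φ) K y
        + 1 / 4 / l * ∑ z ∈ Zᶜ, ∑ j, ‖∑ x ∈ N, conj (Am (Φ j) K x y) * Sm K x z‖ ^ 2 := fun y => by
    refine (norm_sum_le _ _).trans ((sum_le_sum fun z _ => (norm_sum_le _ _).trans
      (sum_le_sum fun j _ => amgm (a := ‖Tm (Φ j) K z y‖ ^ 2)
        (b := ‖∑ x ∈ N, conj (Am (Φ j) K x y) * Sm K x z‖ ^ 2) (R := 1 / 4) (sq_nonneg _)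
        (sq_nonneg _) (by norm_num) hl (le_of_eq (by rw [norm_mul]; ring)))).trans ?_)
    simp only [sum_add_distrib, ← mul_sum, ← sum_T hK]
    gcongr
    exact subset_univ _
  refine (sum_le_sum fun y _ => h1 y).trans ?_
  rw [sum_add_distrib, ← mul_sum, ← mul_sum, sum_comm (s := V), sum_comm (s := N)]
  have h2 : ∑ z ∈ Zᶜ, ∑ y ∈ V, ∑ j, ‖∑ x ∈ N, conj (Am (Φ j) K x y) * Sm K x z‖ ^ 2
      ≤ 4 * R * ∑ z ∈ Zᶜ, ∑ x ∈ N, cc K x z := by
    rw [mul_sum]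
    refine sum_le_sum fun z hz => (opB hK hR hN hV _).trans (le_of_eq ?_)
    congr 1
    refine sum_congr rfl fun x hx => ?_
    have : x ≠ z := fun h => (mem_compl.1 hz) (h ▸ hNZ hx)
    simp [Sm, cc, this]
  refine add_le_add le_rfl ((mul_le_mul_of_nonneg_left h2 (by positivity)).trans (le_of_eq ?_))
  ring

theorem tau_sq {R : ℝ} {x y : P} (h : wt Φ x y ≤ 4 * R) (z : P) :
    ‖∑ j, conj (Am (Φ j) K x y) * Sm K x z * Tm (Φ j) K z y‖ ^ 2
      ≤ 4 * R * (cc K x y * ‖Sm K x z‖ ^ 2 * ∑ j, ‖Tm (Φ j) K z y‖ ^ 2) := by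
  refine (pow_le_pow_left₀ (norm_nonneg _) (norm_sum_le _ _) 2).trans ?_
  simp only [norm_mul, Complex.norm_conj, mul_assoc]
  refine (sum_mul_sq_le_sq_mul_sq _ _ _).trans ?_
  simp only [sum_Am, mul_pow, ← mul_sum]
  have h1 := mul_le_mul_of_nonneg_left h (mul_nonneg (cc_nonneg K x y)
    (show 0 ≤ ‖Sm K x z‖ ^ 2 * ∑ j, ‖Tm (Φ j) K z y‖ ^ 2 by positivity))
  linarith

end mat

variable {L : Lat} {K : L.Mat}

theorem T2_nonneg (p q : L.P) : 0 ≤ L.T2 K p q := by unfold Lat.T2; positivity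

theorem ph_nonneg (x y : L.P) : 0 ≤ L.ph K x y :=
  div_nonneg (mul_nonneg (cc_nonneg _ _ _) (T2_nonneg _ _))
    (add_nonneg (mul_nonneg (dd_nonneg _ _) (dd_nonneg _ _)) (cc_nonneg _ _ _))

theorem XX_nonneg (x y z : L.P) : 0 ≤ L.XX K x y z := by
  have := cc_nonneg K x y; have := cc_nonneg K x z; have := T2_nonneg (K := K) z y
  have := dd_nonneg K x; have := dd_nonneg K y; have := dd_nonneg K z
  unfold Lat.XX
  positivity

/-- the part inside `Z` -/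
theorem ins (hK : IsPort K) {N Z : Finset L.P} (hNZ : N ⊆ Z) {y : L.P} {R Mb s : ℝ} (hR : 0 ≤ R)
    (hs : 0 < s) (hw : ∀ x ∈ N, wt (L.Phi L.N) x y ≤ 4 * R) (hd : ∀ x ∈ N, 0 < dd K x)
    (hy : 0 < dd K y) (hM : 1 + ∑ z ∈ Z, dd K z ≤ Mb) :
    ‖∑ z ∈ Z, ∑ j, (∑ x ∈ N, conj (Am (L.Phi L.N j) K x y) * Sm K x z) * Tm (L.Phi L.N j) K z y‖
      ≤ 3 * s * Mb ^ 2 * dd K y + 32 * (R / s) * (L.GN K y + ∑ x ∈ N.erase y,
        (L.ph K x y + ∑ z ∈ (Z.erase y).erase x, L.XX K x y z)) := by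
  set τ : L.P → L.P → ℝ := fun x z =>
    ‖∑ j, conj (Am (L.Phi L.N j) K x y) * Sm K x z * Tm (L.Phi L.N j) K z y‖ with hτ
  have hm : 0 ≤ ∑ z ∈ Z, dd K z := sum_nonneg fun z _ => dd_nonneg K z
  have hM1 : 1 ≤ Mb := by linarith
  have h0 : ‖∑ z ∈ Z, ∑ j, (∑ x ∈ N, conj (Am (L.Phi L.N j) K x y) * Sm K x z)
      * Tm (L.Phi L.N j) K z y‖ ≤ ∑ x ∈ N.erase y, ∑ z ∈ Z, τ x z := by
    simp only [sum_mul]
    rw [sum_erase _ (by simp [hτ, Am]), sum_comm (s := N)]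
    refine (norm_sum_le _ _).trans (sum_le_sum fun z _ => ?_)
    rw [sum_comm]
    exact norm_sum_le _ _
  have h1 : ∀ x ∈ N.erase y, ∑ z ∈ Z, τ x z
      ≤ s * (cc K x y + (dd K x * dd K y + cc K x y) * (1 + Mb)) + R / s * (cc K x y * L.T2 K y y
        + (L.ph K x y + ∑ z ∈ (Z.erase y).erase x, L.XX K x y z)) := fun x hx => by
    obtain ⟨hxy, hx⟩ := mem_erase.1 hx
    have hdx := hd x hx
    have hc := cc_nonneg K x y
    have a1 : τ x y ≤ s * cc K x y + R / s * (cc K x y * L.T2 K y y) :=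
      amgm hc (mul_nonneg hc (T2_nonneg _ _)) hR hs ((tau_sq (hw x hx) y).trans (le_of_eq (by
        simp only [Sm, hxy, if_false, zero_add, cc, Lat.T2]; ring)))
    have a2 : τ x x ≤ s * (dd K x * dd K y + cc K x y) + R / s * L.ph K x y :=
      amgm (by positivity) (ph_nonneg _ _) hR hs ((tau_sq (hw x hx) x).trans (by
        rw [Lat.ph, mul_div_cancel₀ _ (by positivity)]
        exact mul_le_mul_of_nonneg_left (mul_le_mul_of_nonneg_right
          (mul_le_of_le_one_right hc (norm_S_le hK x)) (T2_nonneg _ _)) (by positivity)))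
    have a3 : ∀ z ∈ (Z.erase y).erase x, τ x z ≤ s * ((dd K x * dd K y + cc K x y)
        * (dd K z + cc K x z / dd K x)) + R / s * L.XX K x y z := fun z hz => by
      have hxz := (mem_erase.1 hz).1.symm
      have hcz := cc_nonneg K x z
      have hdz := dd_nonneg K z
      refine amgm (by positivity) (XX_nonneg _ _ _) hR hs ((tau_sq (hw x hx) z).trans ?_)
      have e : ‖Sm K x z‖ ^ 2 = cc K x z := by simp only [Sm, hxz, if_false, zero_add, cc]
      rw [e]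
      rcases hcz.eq_or_lt with h | h
      · rw [← h, mul_zero, zero_mul, mul_zero]
        have := XX_nonneg (K := K) x y z
        positivity
      · refine le_of_eq ?_
        rw [Lat.XX, Lat.T2]
        field_simp
    have a4 : ∑ z ∈ (Z.erase y).erase x, (dd K z + cc K x z / dd K x) ≤ Mb := by
      rw [sum_add_distrib, ← sum_div]
      have b1 : ∑ z ∈ (Z.erase y).erase x, dd K z ≤ ∑ z ∈ Z, dd K z :=
        sum_le_sum_of_subset_of_nonneg ((erase_subset _ _).trans (erase_subset _ _))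
          fun z _ _ => dd_nonneg K z
      have b2 : (∑ z ∈ (Z.erase y).erase x, cc K x z) / dd K x ≤ 1 := (div_le_one hdx).2
        (sum_le_sum_of_subset_of_nonneg (subset_univ _) fun z _ _ => cc_nonneg K x z)
      linarith
    have a5 := sum_le_sum a3
    rw [sum_add_distrib, ← mul_sum, ← mul_sum, ← mul_sum] at a5
    have a6 := mul_le_mul_of_nonneg_left (mul_le_mul_of_nonneg_left a4
      (show 0 ≤ dd K x * dd K y + cc K x y by positivity)) hs.le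
    linarith [sum_le_three Z (f := τ x) (fun z => norm_nonneg _) x y]
  refine h0.trans ((sum_le_sum h1).trans ?_)
  have c1 : ∑ x ∈ N.erase y, cc K x y ≤ dd K y := by
    simp only [hK.cc_symm _ y]
    exact sum_le_sum_of_subset_of_nonneg (subset_univ _) fun z _ _ => cc_nonneg K y z
  have c2 : ∑ x ∈ N.erase y, dd K x ≤ ∑ z ∈ Z, dd K z :=
    sum_le_sum_of_subset_of_nonneg ((erase_subset _ _).trans hNZ) fun z _ _ => dd_nonneg K z
  have c3 : dd K y * L.T2 K y y ≤ 32 * L.GN K y := by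
    have e : L.T2 K y y = L.GN K y * nu K y := by
      rw [Lat.GN, Gn, div_mul_cancel₀ _ (hy.trans_le (dd_le_nu K y)).ne']
      simp only [Lat.T2, hK.T_diag, Complex.norm_real, Real.norm_eq_abs, sq_abs]
    have := Gn_nonneg (L.Phi L.N) K y
    have h4 := hK.dd_le y
    have h5 : dd K y * nu K y ≤ 32 := by nlinarith [nu_le K y]
    rw [e, mul_left_comm, mul_comm]
    exact mul_le_mul_of_nonneg_right h5 this
  have c4 : 0 ≤ ∑ x ∈ N.erase y, (L.ph K x y + ∑ z ∈ (Z.erase y).erase x, L.XX K x y z) :=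
    sum_nonneg fun x _ => add_nonneg (ph_nonneg _ _) (sum_nonneg fun z _ => XX_nonneg _ _ _)
  rw [sum_add_distrib, ← mul_sum, ← mul_sum, sum_add_distrib, sum_add_distrib (f := fun x =>
    cc K x y * L.T2 K y y), ← sum_mul, ← sum_mul, sum_add_distrib, ← sum_mul]
  have c5 : ∑ x ∈ N.erase y, cc K x y + ((∑ x ∈ N.erase y, dd K x) * dd K y
      + ∑ x ∈ N.erase y, cc K x y) * (1 + Mb) ≤ 3 * Mb ^ 2 * dd K y := by
    have d1 : (∑ x ∈ N.erase y, dd K x) * dd K y + ∑ x ∈ N.erase y, cc K x y ≤ Mb * dd K y := by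
      nlinarith
    have d2 := mul_le_mul_of_nonneg_right d1 (show 0 ≤ 1 + Mb by positivity)
    have d3 : (1 + Mb * (1 + Mb)) * dd K y ≤ 3 * Mb ^ 2 * dd K y :=
      mul_le_mul_of_nonneg_right (by nlinarith) hy.le
    linarith
  have c6 := mul_le_mul_of_nonneg_right c1 (T2_nonneg (K := K) y y)
  have c7 := mul_le_mul_of_nonneg_left c5 hs.le
  have c8 := mul_le_mul_of_nonneg_left (show (∑ x ∈ N.erase y, cc K x y) * L.T2 K y y
    + ∑ x ∈ N.erase y, (L.ph K x y + ∑ z ∈ (Z.erase y).erase x, L.XX K x y z) ≤ 32 * (L.GN K y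
    + ∑ x ∈ N.erase y, (L.ph K x y + ∑ z ∈ (Z.erase y).erase x, L.XX K x y z)) by linarith)
    (show 0 ≤ R / s by positivity)
  linarith

/-- **the matrix estimate** -/
theorem mat (hK : IsPort K) {V N Z : Finset L.P} (hNZ : N ⊆ Z) (o : L.P) {R Mb s l : ℝ}
    (hR : 0 ≤ R) (hs : 0 < s) (hl : 0 < l) (hN : ∀ x ∈ N, L.r2 x o ≤ R ∧ 0 < dd K x)
    (hV : ∀ y ∈ V, L.r2 y o ≤ R ∧ 0 < dd K y) (hM : 1 + ∑ z ∈ Z, dd K z ≤ Mb) :
    ∑ y ∈ V, ∑ x ∈ N, cc K y x * L.r2 y x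
      ≤ l * ∑ y ∈ V, Gam L.r2 K y + R / l * ∑ x ∈ N, ∑ z ∈ Zᶜ, cc K x z
        + ∑ y ∈ V, (3 * s * Mb ^ 2 * dd K y + 32 * (R / s) * (L.GN K y + ∑ x ∈ N.erase y,
          (L.ph K x y + ∑ z ∈ (Z.erase y).erase x, L.XX K x y z))) := by
  have e : wt (L.Phi L.N) = L.r2 := L.wt_Phi L.N
  have hN' : ∀ x ∈ N, ∑ j, (L.Phi L.N j x - L.Phi L.N j o) ^ 2 ≤ R := fun x hx => by
    have := (hN x hx).1
    rwa [← e] at this
  have hV' : ∀ x ∈ V, ∑ j, (L.Phi L.N j x - L.Phi L.N j o) ^ 2 ≤ R := fun x hx => by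
    have := (hV x hx).1
    rwa [← e] at this
  have h1 := out hK hNZ hR hN' hV' hl
  rw [e] at h1
  refine le_trans ?_ (add_le_add h1 (sum_le_sum fun y hy => ins hK hNZ hR hs
    (fun x hx => wt_le (hN' x hx) (hV' y hy)) (fun x hx => (hN x hx).2) (hV y hy).2 hM))
  rw [← sum_add_distrib]
  refine sum_le_sum fun y _ => le_trans ?_ (norm_add_le _ _)
  rw [add_comm, sum_add_sum_compl, ← ident hK, e, Complex.norm_real]
  simp only [hK.cc_symm y, L.rx_eq, L.rx_symm y.1]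
  exact le_abs_self _

end Crest.Agent.N334.G.E1
end
end

-- ▼ part N334/G/E1b
section

/-!
# Row 334, S0519 GAIN: (E) rigidity, the cell estimate and the sums over scales
-/

set_option autoImplicit false

open MeasureTheory Finset Complex
open scoped BigOperators ComplexConjugate

noncomputable section

namespace Crest.Agent.N334.G.E1

variable {L : Lat} {K : L.Mat}

/-- active ports -/
def act (L : Lat) : L.X ↪ L.P := ⟨fun x => (x, true), fun _ _ h => congrArg Prod.fst h⟩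

theorem act_apply (x : L.X) : act L x = (x, true) := rfl

theorem mem_act {S : Finset L.X} {q : L.P} : q ∈ S.map (act L) ↔ q.2 = true ∧ q.1 ∈ S := by
  obtain ⟨x, b⟩ := q
  simp only [mem_map, act_apply, Prod.mk.injEq]
  exact ⟨fun ⟨a, h, e, e'⟩ => ⟨e'.symm, e ▸ h⟩, fun h => ⟨x, h.2, rfl, h.1.symm⟩⟩

theorem sum_true_le (S : Finset L.X) {a : L.P → ℝ} (ha : ∀ p, 0 ≤ a p) :
    ∑ y ∈ S, a (y, true) ≤ ∑ p, a p :=
  (sum_map S (act L) a).ge.trans
    (sum_le_sum_of_subset_of_nonneg (subset_univ _) fun p _ _ => ha p)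

theorem r2_nonneg (p q : L.P) : 0 ≤ L.r2 p q := L.rx_nonneg _ _
theorem nn_nonneg (p : L.P) (m : ℕ) : 0 ≤ L.nn K p m := Gam_nonneg (L.wh_nonneg m) K p
theorem G_nonneg (p : L.P) : 0 ≤ Gam L.r2 K p := Gam_nonneg r2_nonneg K p
theorem nn_le (p : L.P) (m : ℕ) : L.nn K p m ≤ 67 * dd K p := by
  rw [← L.th_mul]
  exact mul_le_mul_of_nonneg_right (L.th_le K p m) (dd_nonneg K p)
theorem nn_le_G {m : ℕ} (hm : m < L.N) (p : L.P) : 4 ^ m * L.nn K p m ≤ Gam L.r2 K p := by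
  rw [← L.sum_nn]
  exact single_le_sum (f := fun m => 4 ^ m * L.nn K p m)
    (fun m _ => mul_nonneg (by positivity) (nn_nonneg p m)) (mem_range.2 hm)
theorem dd_pos {p : L.P} {m : ℕ} (h : 0 < L.th K p m) : 0 < dd K p :=
  (dd_nonneg K p).lt_of_ne fun e => by simp [Lat.th, ← e] at h
theorem one_le_th {p : L.P} {m : ℕ} {j : ℝ} (h : Real.exp (-j) ≤ L.th K p m) :
    1 ≤ Real.exp j * L.th K p m := by
  have := mul_le_mul_of_nonneg_left h (Real.exp_pos j).le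
  rwa [← Real.exp_add, add_neg_cancel, Real.exp_zero] at this
theorem dd_le_nn {p : L.P} {m : ℕ} {κ : ℝ} (h : 1 ≤ κ * L.th K p m) :
    dd K p ≤ κ * L.nn K p m := by
  rw [← L.th_mul, ← mul_assoc]
  exact le_mul_of_one_le_left (dd_nonneg K p) h

section depth
variable {Y : Finset L.X} {i j : ℝ} {m : ℕ}

theorem gd_le {y : L.X} (hy : y ∈ Y) (h : Real.exp (-j) ≤ L.th K (y, true) m) :
    L.gd Y i K (y, true) m ≤ j := by
  rw [Lat.gd, if_pos ⟨rfl, hy⟩, neg_le, Real.le_log_iff_exp_le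
    (add_pos_of_nonneg_of_pos (L.th_nonneg K _ m) (Real.exp_pos _))]
  exact h.trans (le_add_of_nonneg_right (Real.exp_pos _).le)

theorem two_exp_le {a b : ℝ} (h : a + 1 ≤ b) : 2 * Real.exp a ≤ Real.exp b := by
  refine le_trans ?_ (Real.exp_le_exp.2 h)
  rw [Real.exp_add, mul_comm]
  exact mul_le_mul_of_nonneg_left (by linarith [Real.add_one_le_exp 1]) (Real.exp_pos a).le

theorem th_of_gd {y : L.X} (hy : y ∈ Y) (hi : j + 1 ≤ i) (h : L.gd Y i K (y, true) m ≤ j) :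
    Real.exp (-i) ≤ L.th K (y, true) m ∧ 1 ≤ 2 * Real.exp j * L.th K (y, true) m := by
  rw [Lat.gd, if_pos ⟨rfl, hy⟩, neg_le, Real.le_log_iff_exp_le
    (add_pos_of_nonneg_of_pos (L.th_nonneg K _ m) (Real.exp_pos _))] at h
  have h1 := two_exp_le (show -i + 1 ≤ -j by linarith)
  refine ⟨by linarith, ?_⟩
  have h2 := mul_le_mul_of_nonneg_left (show Real.exp (-j) ≤ 2 * L.th K (y, true) m by linarith)
    (Real.exp_pos j).le
  rw [← Real.exp_add, add_neg_cancel, Real.exp_zero] at h2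
  linarith

theorem le_gd {p : L.P} (h : ¬ (p.2 = true ∧ p.1 ∈ Y ∧ Real.exp (-i) ≤ L.th K p m)) :
    i - 1 ≤ L.gd Y i K p m := by
  rw [Lat.gd]
  split_ifs with h1
  · have h2 : L.th K p m < Real.exp (-i) := not_le.1 fun h' => h ⟨h1.1, h1.2, h'⟩
    rw [le_neg, Real.log_le_iff_le_exp
      (add_pos_of_nonneg_of_pos (L.th_nonneg K _ m) (Real.exp_pos _))]
    linarith [two_exp_le (show -i + 1 ≤ -(i - 1) by linarith)]
  · linarith

end depth

/-! ### counting centres -/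

theorem count_le (S : Finset L.X) {a : L.X → ℝ} (ha : ∀ y ∈ S, 0 ≤ a y) {R : ℝ} (hR : 1 ≤ R) :
    ∑ c, ∑ y ∈ S.filter (fun y => L.rx y c ≤ R), a y ≤ 3 * R * ∑ y ∈ S, a y := by
  simp only [sum_filter]
  rw [sum_comm, mul_sum]
  refine sum_le_sum fun y hy => ?_
  rw [← sum_filter, sum_const, nsmul_eq_mul]
  exact mul_le_mul_of_nonneg_right ((L.ball_le y R (by linarith)).trans (by linarith)) (ha y hy)

theorem count_ge (S : Finset L.X) {a : L.X → ℝ} (ha : ∀ y ∈ S, 0 ≤ a y) {m : ℕ} (hm : m < L.N) :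
    4 ^ m * ∑ y ∈ S, a y ≤ 400 * ∑ c, ∑ y ∈ S.filter (fun y => L.rx y c ≤ 4 ^ m), a y := by
  simp only [sum_filter]
  rw [sum_comm, mul_sum, mul_sum]
  refine sum_le_sum fun y hy => ?_
  rw [← sum_filter, sum_const, nsmul_eq_mul, ← mul_assoc]
  exact mul_le_mul_of_nonneg_right (L.ball_ge y m hm) (ha y hy)

/-! ### the three error terms -/

variable (K) in
/-- mass sent far away -/
def far (Λ : ℝ) (m : ℕ) (y : L.X) : ℝ :=
  ∑ q, if Λ * 4 ^ m ≤ 4 * L.r2 (y, true) q then cc K (y, true) q else 0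
variable (K) in
/-- mass sent to deep ports -/
def deep (Y : Finset L.X) (i j : ℝ) (m : ℕ) (y : L.X) : ℝ :=
  ∑ q, if j ≤ L.gd Y i K q m then cc K (y, true) q else 0
variable (K) in
/-- mass sent to bad shallow ports -/
def bad (Y Gd : Finset L.X) (i j : ℝ) (m : ℕ) (y : L.X) : ℝ :=
  ∑ x ∈ (Y \ Gd).filter (fun x => L.gd Y i K (x, true) m ≤ j), cc K (y, true) (x, true)

theorem far_nonneg (Λ : ℝ) (m : ℕ) (y : L.X) : 0 ≤ far K Λ m y :=
  sum_nonneg fun _ _ => ite_nonneg (cc_nonneg _ _ _) le_rfl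
theorem deep_nonneg (Y : Finset L.X) (i j : ℝ) (m : ℕ) (y : L.X) : 0 ≤ deep K Y i j m y :=
  sum_nonneg fun _ _ => ite_nonneg (cc_nonneg _ _ _) le_rfl
theorem bad_nonneg (Y Gd : Finset L.X) (i j : ℝ) (m : ℕ) (y : L.X) : 0 ≤ bad K Y Gd i j m y :=
  sum_nonneg fun _ _ => cc_nonneg _ _ _

theorem sum_far {Λ : ℝ} (hΛ : 0 < Λ) (S : ℕ → Finset L.X) :
    ∑ m ∈ range L.N, ∑ y ∈ S m, 4 ^ m * far K Λ m y ≤ 16 / (3 * Λ) * En L.r2 K := by
  refine (sum_le_sum fun m _ => sum_true_le (S m) (a := fun p => 4 ^ m *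
    ∑ q, if Λ * 4 ^ m ≤ 4 * L.r2 p q then cc K p q else 0) fun p => mul_nonneg (by positivity)
      (sum_nonneg fun _ _ => ite_nonneg (cc_nonneg _ _ _) le_rfl)).trans ?_
  rw [sum_comm, En, mul_sum]
  refine sum_le_sum fun p _ => ?_
  simp only [mul_sum, Gam]
  rw [sum_comm]
  refine sum_le_sum fun q _ => ?_
  have h := mul_le_mul_of_nonneg_right (sum_pow_le L.N
    (show 0 ≤ 4 * L.r2 p q / Λ from div_nonneg (by linarith [r2_nonneg p q]) hΛ.le))
    (cc_nonneg K p q)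
  simp only [sum_filter, sum_mul, le_div_iff₀ hΛ, mul_comm _ Λ, ite_mul, zero_mul] at h
  simp only [mul_ite, mul_zero]
  exact h.trans (le_of_eq (by field_simp; ring))

theorem sum_deep {Y : Finset L.X} {i j j' κ : ℝ} (hκ : 0 ≤ κ) {S : ℕ → Finset L.X}
    (hS : ∀ m, ∀ y ∈ S m, y ∈ Y ∧ L.gd Y i K (y, true) m ≤ j ∧ 1 ≤ κ * L.th K (y, true) m) :
    ∑ m ∈ range L.N, ∑ y ∈ S m, 4 ^ m * deep K Y i j' m y ≤ κ * L.Hub Y Y i j j' K := by
  rw [Lat.Hub, sum_comm (s := Y), mul_sum]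
  refine sum_le_sum fun m _ => ?_
  rw [mul_sum]
  refine le_trans (sum_le_sum fun y hy => ?_) (sum_le_sum_of_subset_of_nonneg
    (fun y hy => (hS m y hy).1) fun y _ _ => mul_nonneg hκ (ite_nonneg (mul_nonneg
      (mul_nonneg (by positivity) (L.th_nonneg K _ m)) (deep_nonneg Y i j' m y)) le_rfl))
  rw [if_pos (hS m y hy).2.1]
  have := mul_le_mul_of_nonneg_right (hS m y hy).2.2
    (show 0 ≤ 4 ^ m * deep K Y i j' m y from mul_nonneg (by positivity) (deep_nonneg Y i j' m y))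
  unfold deep at this ⊢
  linarith

theorem sum_nn_le (S : ℕ → Finset L.X) {Y : Finset L.X} (hS : ∀ m, S m ⊆ Y) :
    ∑ m ∈ range L.N, ∑ y ∈ S m, 4 ^ m * L.nn K (y, true) m ≤ ∑ y ∈ Y, Gam L.r2 K (y, true) := by
  simp only [← L.sum_nn]
  rw [sum_comm (s := Y)]
  exact sum_le_sum fun m _ => sum_le_sum_of_subset_of_nonneg (hS m)
    fun y _ _ => mul_nonneg (by positivity) (nn_nonneg _ m)

theorem sum_dd {κ : ℝ} (hκ : 0 ≤ κ) {S : ℕ → Finset L.X} {Y : Finset L.X} (hY : ∀ m, S m ⊆ Y)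
    (hS : ∀ m, ∀ y ∈ S m, 1 ≤ κ * L.th K (y, true) m) :
    ∑ m ∈ range L.N, ∑ y ∈ S m, 4 ^ m * dd K (y, true)
      ≤ κ * ∑ y ∈ Y, Gam L.r2 K (y, true) := by
  refine le_trans ?_ (mul_le_mul_of_nonneg_left (sum_nn_le S hY) hκ)
  simp only [mul_sum]
  refine sum_le_sum fun m _ => sum_le_sum fun y hy => ?_
  rw [mul_left_comm]
  exact mul_le_mul_of_nonneg_left (dd_le_nn (hS m y hy)) (by positivity)

theorem sum_bad (hK : IsPort K) {Y Gd : Finset L.X} {i j : ℝ} (hi : j + 1 ≤ i)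
    (S : ℕ → Finset L.X) : ∑ m ∈ range L.N, ∑ y ∈ S m, 4 ^ m * bad K Y Gd i j m y
      ≤ 2 * Real.exp j * ∑ y ∈ Y \ Gd, Gam L.r2 K (y, true) := by
  refine le_trans (sum_le_sum fun m _ => ?_) (sum_dd (by positivity)
    (S := fun m => (Y \ Gd).filter fun x => L.gd Y i K (x, true) m ≤ j)
    (fun m => filter_subset _ _) fun m y hy =>
      (th_of_gd (mem_sdiff.1 (mem_filter.1 hy).1).1 hi (mem_filter.1 hy).2).2)
  simp only [← mul_sum, bad]
  rw [sum_comm]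
  refine mul_le_mul_of_nonneg_left (sum_le_sum fun x _ => ?_) (by positivity)
  simp only [fun y => hK.cc_symm (y, true) (x, true)]
  exact sum_true_le (S m) (cc_nonneg K (x, true))

/-! ### one cell -/

theorem far_of {x z c : L.X} {a b Λ : ℝ} (hx : L.rx x c ≤ a) (hz : ¬ L.rx z c ≤ b)
    (h : Λ + 4 * a ≤ 2 * b) : Λ ≤ 4 * L.rx x z := by
  have := L.rx_le_two z x c
  rw [L.rx_symm z x] at this
  linarith [not_le.1 hz]

/-- the energy of `y` at scale `m` -/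
theorem nn_split {Y Gd : Finset L.X} {i j Λ : ℝ} (hi : j ≤ i) (hΛ : 4 ≤ Λ) {m : ℕ} (hm : m < L.N)
    {y c : L.X} (hy : L.rx y c ≤ 4 ^ m) : 4 ^ m * L.nn K (y, true) m
      ≤ 67 * (4 ^ m * far K Λ m y + 4 ^ m * deep K Y i j m y + 4 ^ m * bad K Y Gd i j m y)
        + ∑ q ∈ ((Gd.filter fun x => L.gd Y i K (x, true) m ≤ j).filter
          fun x => L.rx x c ≤ Λ * 4 ^ m).map (act L), cc K (y, true) q * L.r2 (y, true) q := by
  have e : bad K Y Gd i j m y = ∑ q ∈ ((Y \ Gd).filter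
      fun x => L.gd Y i K (x, true) m ≤ j).map (act L), cc K (y, true) q := by
    rw [sum_map]; rfl
  rw [e, ← Fintype.sum_ite_mem (map _ _), ← Fintype.sum_ite_mem (map _ _)]
  simp only [Lat.nn, Gam, far, deep, mul_sum, ← sum_add_distrib]
  refine sum_le_sum fun q _ => ?_
  have hc := cc_nonneg K (y, true) q
  have h4 : (0 : ℝ) < 4 ^ m := by positivity
  have h1 : 4 ^ m * (cc K (y, true) q * L.wh m (y, true) q) ≤ 67 * (4 ^ m * cc K (y, true) q) := by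
    nlinarith [mul_le_mul_of_nonneg_left (L.wh_le m (y, true) q) (mul_nonneg h4.le hc)]
  have h2 : 4 ^ m * (cc K (y, true) q * L.wh m (y, true) q)
      ≤ cc K (y, true) q * L.r2 (y, true) q := by
    rw [mul_left_comm]
    exact mul_le_mul_of_nonneg_left (wh_le_r2 L hm _ _) hc
  have h3 := mul_nonneg h4.le hc
  have h5 := mul_nonneg hc (r2_nonneg (y, true) q)
  split_ifs with a b c' d <;> try linarith
  exfalso
  obtain ⟨x, s⟩ := q
  simp only [mem_act, mem_filter, mem_sdiff] at *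
  have k1 : s = true ∧ x ∈ Y := by
    by_contra hn
    rw [Lat.gd, if_neg hn] at *
    contradiction
  obtain ⟨rfl, k2⟩ := k1
  have k3 : L.gd Y i K (x, true) m ≤ j := le_of_not_ge ‹_›
  have k4 : L.rx x c ≤ Λ * 4 ^ m := by
    by_contra hn
    exact a (far_of hy hn (by nlinarith))
  tauto

theorem psi_ge {i1 l : ℝ} (hl : 0 < l) {m : ℕ} (hm : m < L.N) {p : L.P}
    (h1 : Real.exp (-i1) ≤ L.th K p m) (h2 : l * Gam L.r2 K p ≤ 4 ^ m * dd K p) :
    (l / (Real.exp i1 + 1) ^ 2) ^ (1 / 8 : ℝ) ≤ L.psi K p m := by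
  refine Real.rpow_le_rpow (by positivity) ?_ (by norm_num)
  have hd := dd_pos ((Real.exp_pos _).trans_le h1)
  have h3 : 4 ^ m * dd K p ≤ Real.exp i1 * Gam L.r2 K p := by
    refine (mul_le_mul_of_nonneg_left (dd_le_nn (one_le_th h1)) (by positivity)).trans ?_
    rw [mul_left_comm]
    exact mul_le_mul_of_nonneg_left (nn_le_G hm p) (Real.exp_pos _).le
  have hG := G_nonneg (K := K) p
  rw [div_le_div_iff₀ (by positivity) (by positivity)]
  have h4 : (4 ^ m * dd K p + Gam L.r2 K p) ^ 2 ≤ ((Real.exp i1 + 1) * Gam L.r2 K p) ^ 2 :=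
    pow_le_pow_left₀ (by positivity) (by linarith) 2
  have h5 := mul_le_mul_of_nonneg_right h2
    (show 0 ≤ Gam L.r2 K p * (Real.exp i1 + 1) ^ 2 by positivity)
  nlinarith [mul_le_mul_of_nonneg_left h4 hl.le]

theorem Om_nonneg (i : ℝ) (m : ℕ) (x z : L.P) : 0 ≤ L.Om i K m x z := by
  have := nn_nonneg (K := K) z m; have := cc_nonneg K x z
  have := dd_nonneg K x; have := dd_nonneg K z
  unfold Lat.Om
  positivity

theorem one_le_Om {i : ℝ} {m : ℕ} (x : L.P) {z : L.P} (h : Real.exp (-i) ≤ L.th K z m) :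
    1 ≤ L.Om i K m x z := by
  have := dd_pos ((Real.exp_pos _).trans_le h)
  have := cc_nonneg K x z
  have := dd_nonneg K x
  rw [Lat.Om, le_div_iff₀ (by positivity), one_mul]
  linarith [dd_le_nn (one_le_th h)]

variable (K) in
/-- valid sites at scale `m` -/
def Vm (Y : Finset L.X) (i1 l : ℝ) (m : ℕ) : Finset L.X := Y.filter fun y =>
  Real.exp (-i1) ≤ L.th K (y, true) m ∧ l * Gam L.r2 K (y, true) ≤ 4 ^ m * dd K (y, true)

theorem main_term_nonneg (Y S : Finset L.X) (i Λ2 : ℝ) (c : L.X) (m : ℕ) (y : L.X) :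
    0 ≤ L.GN K (y, true) + ∑ x ∈ S, (L.ph K (x, true) (y, true) +
        ∑ z ∈ ((Y.erase y).erase x).filter (fun z => L.rx z c ≤ Λ2 * 4 ^ m),
          L.Om i K m (x, true) (z, true) * L.XX K (x, true) (y, true) (z, true)) :=
  add_nonneg (Gn_nonneg _ _ _) (sum_nonneg fun _ _ => add_nonneg (ph_nonneg _ _)
    (sum_nonneg fun _ _ => mul_nonneg (Om_nonneg _ _ _ _) (XX_nonneg _ _ _)))

theorem Main_nonneg (Y Gd : Finset L.X) (i Λ2 : ℝ) (c : L.X) (m : ℕ) :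
    0 ≤ L.Main Y Gd i Λ2 K c m :=
  sum_nonneg fun y _ => mul_nonneg (psi_nonneg L K _ m) (main_term_nonneg Y _ i Λ2 c m y)

/-- **the cell estimate** -/
theorem cell (hK : IsPort K) {Y Gd : Finset L.X} (hG : Gd ⊆ Y) {i1 i2 i l Λ1 Λ2 l1 l2 Mb : ℝ}
    (hi : i2 + 1 ≤ i) (hl : 0 < l) (hl1 : 0 < l1) (hl2 : 0 < l2) (h1 : 4 ≤ Λ1) (h2 : 4 * Λ1 ≤ Λ2)
    {m : ℕ} (hm : m < L.N) (c : L.X)
    (hM : 1 + ∑ z ∈ Y.filter (fun z => Real.exp (-i) ≤ L.th K (z, true) m ∧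
      L.rx z c ≤ Λ2 * 4 ^ m), dd K (z, true) ≤ Mb) :
    ∑ y ∈ (Vm K Y i1 l m).filter (fun y => L.rx y c ≤ 4 ^ m), 4 ^ m * L.nn K (y, true) m
      ≤ ∑ y ∈ (Vm K Y i1 l m).filter (fun y => L.rx y c ≤ 4 ^ m),
          (67 * (4 ^ m * far K Λ1 m y + 4 ^ m * deep K Y i i2 m y + 4 ^ m * bad K Y Gd i i2 m y)
            + (l1 / l + 3 * l2) * (4 ^ m * dd K (y, true)))
        + Λ1 / l1 * ∑ x ∈ (Gd.filter fun x => L.gd Y i K (x, true) m ≤ i2).filter
            (fun x => L.rx x c ≤ Λ1 * 4 ^ m),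
            (4 ^ m * far K Λ2 m x + 4 ^ m * deep K Y i (i - 1) m x)
        + 32 * (Λ1 * Mb ^ 2 / l2) / (l / (Real.exp i1 + 1) ^ 2) ^ (1 / 8 : ℝ)
          * L.Main Y Gd i Λ2 K c m := by
  set V := (Vm K Y i1 l m).filter fun y => L.rx y c ≤ 4 ^ m
  set N := (Gd.filter fun x => L.gd Y i K (x, true) m ≤ i2).filter fun x => L.rx x c ≤ Λ1 * 4 ^ m
  set Z := Y.filter fun z => Real.exp (-i) ≤ L.th K (z, true) m ∧ L.rx z c ≤ Λ2 * 4 ^ m
  have h4 : (0 : ℝ) < 4 ^ m := by positivity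
  have hV : ∀ y ∈ V, (y ∈ Y ∧ Real.exp (-i1) ≤ L.th K (y, true) m ∧
      l * Gam L.r2 K (y, true) ≤ 4 ^ m * dd K (y, true)) ∧ L.rx y c ≤ 4 ^ m := fun y hy => by
    simpa only [V, Vm, mem_filter] using hy
  have hN : ∀ x ∈ N, x ∈ Gd ∧ Real.exp (-i) ≤ L.th K (x, true) m ∧ L.rx x c ≤ Λ1 * 4 ^ m ∧
      L.rx x c ≤ Λ2 * 4 ^ m := fun x hx => by
    obtain ⟨a, b⟩ := mem_filter.1 hx
    obtain ⟨a, a'⟩ := mem_filter.1 a
    exact ⟨a, (th_of_gd (hG a) hi a').1, b, b.trans (by nlinarith)⟩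
  have hM1 : 1 ≤ Mb := le_trans (le_add_of_nonneg_right (sum_nonneg fun _ _ => dd_nonneg K _)) hM
  have key := mat hK (V := V.map (act L)) (N := N.map (act L)) (Z := Z.map (act L))
    (map_subset_map.2 fun x hx => mem_filter.2 ⟨hG (hN x hx).1, (hN x hx).2.1, (hN x hx).2.2.2⟩)
    (c, true) (R := Λ1 * 4 ^ m) (Mb := Mb) (s := l2 * 4 ^ m / Mb ^ 2) (by positivity)
    (by positivity) hl1
    (forall_mem_map.2 fun x hx => ⟨(hN x hx).2.2.1, dd_pos ((Real.exp_pos _).trans_le (hN x hx).2.1)⟩)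
    (forall_mem_map.2 fun y hy => ⟨(hV y hy).2.trans (by nlinarith),
      dd_pos ((Real.exp_pos _).trans_le (hV y hy).1.2.1)⟩)
    (by rwa [sum_map])
  simp only [← map_erase, sum_map] at key
  simp only [act_apply] at key
  have k1 := sum_le_sum fun y hy => nn_split (K := K) (Y := Y) (Gd := Gd)
    (show i2 ≤ i by linarith) h1 hm (hV y hy).2
  simp only [sum_map, act_apply] at k1
  have k2 : l1 * ∑ y ∈ V, Gam L.r2 K (y, true) ≤ ∑ y ∈ V, l1 / l * (4 ^ m * dd K (y, true)) := by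
    rw [mul_sum]
    refine sum_le_sum fun y hy => ?_
    rw [div_mul_eq_mul_div, le_div_iff₀ hl, mul_assoc, mul_comm _ l]
    exact mul_le_mul_of_nonneg_left (hV y hy).1.2.2 hl1.le
  have k3 : Λ1 * 4 ^ m / l1 * ∑ x ∈ N, ∑ z ∈ (Z.map (act L))ᶜ, cc K (x, true) z
      ≤ Λ1 / l1 * ∑ x ∈ N, (4 ^ m * far K Λ2 m x + 4 ^ m * deep K Y i (i - 1) m x) := by
    simp only [← mul_add, ← mul_sum]
    rw [← mul_assoc, div_mul_eq_mul_div Λ1]
    refine mul_le_mul_of_nonneg_left (sum_le_sum fun x hx => ?_) (by positivity)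
    rw [← Fintype.sum_ite_mem (_ : Finset L.P)ᶜ, far, deep, ← sum_add_distrib]
    refine sum_le_sum fun z _ => ?_
    have hc := cc_nonneg K (x, true) z
    split_ifs with a b _ d <;> try linarith
    exfalso
    rw [mem_compl, mem_act, mem_filter] at a
    refine d (le_gd fun h => a ⟨h.1, h.2.1, by rw [← h.1]; exact h.2.2, ?_⟩)
    by_contra hn
    exact b (far_of (hN x hx).2.2.1 hn (by nlinarith))
  have hψ : 0 < (l / (Real.exp i1 + 1) ^ 2) ^ (1 / 8 : ℝ) := by positivity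
  have k4 : ∑ y ∈ V, (L.GN K (y, true) + ∑ x ∈ N.erase y, (L.ph K (x, true) (y, true)
      + ∑ z ∈ (Z.erase y).erase x, L.XX K (x, true) (y, true) (z, true)))
      ≤ L.Main Y Gd i Λ2 K c m / (l / (Real.exp i1 + 1) ^ 2) ^ (1 / 8 : ℝ) := by
    rw [le_div_iff₀ hψ, sum_mul]
    refine le_trans (sum_le_sum fun y hy => ?_) (sum_le_sum_of_subset_of_nonneg
      (fun y hy => mem_filter.2 ⟨(hV y hy).1.1, (hV y hy).2⟩) fun y _ _ =>
        mul_nonneg (psi_nonneg L K _ m) (main_term_nonneg Y _ i Λ2 c m y))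
    rw [mul_comm]
    refine mul_le_mul (psi_ge hl hm (hV y hy).1.2.1 (hV y hy).1.2.2) (add_le_add le_rfl
      (le_trans (sum_le_sum fun x _ => add_le_add le_rfl ?_) (sum_le_sum_of_subset_of_nonneg
        (fun x hx => ?_) fun x _ _ => add_nonneg (ph_nonneg _ _) (sum_nonneg fun _ _ =>
          mul_nonneg (Om_nonneg _ _ _ _) (XX_nonneg _ _ _)))))
      (add_nonneg (Gn_nonneg _ _ _) (sum_nonneg fun _ _ => add_nonneg (ph_nonneg _ _)
        (sum_nonneg fun _ _ => XX_nonneg _ _ _))) (psi_nonneg L K _ m)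
    · refine le_trans (sum_le_sum fun z hz => le_mul_of_one_le_left (XX_nonneg _ _ _) (one_le_Om _
        (mem_filter.1 (mem_of_mem_erase (mem_of_mem_erase hz))).2.1))
        (sum_le_sum_of_subset_of_nonneg (fun z hz => ?_) fun z _ _ =>
          mul_nonneg (Om_nonneg _ _ _ _) (XX_nonneg _ _ _))
      simp only [Z, mem_erase, mem_filter] at hz ⊢
      tauto
    · obtain ⟨a, b⟩ := mem_erase.1 hx
      exact mem_filter.2 ⟨mem_erase.2 ⟨a, (hN x b).1⟩, (hN x b).2.2.2, (hN x b).2.1⟩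
  have e1 : Λ1 * 4 ^ m / (l2 * 4 ^ m / Mb ^ 2) = Λ1 * Mb ^ 2 / l2 := by field_simp
  have e2 : 3 * (l2 * 4 ^ m / Mb ^ 2) * Mb ^ 2 = 3 * l2 * 4 ^ m := by field_simp
  rw [e1, e2, sum_add_distrib, ← mul_sum _ _ (32 * _)] at key
  have k5 := mul_le_mul_of_nonneg_left k4 (show 0 ≤ 32 * (Λ1 * Mb ^ 2 / l2) by positivity)
  rw [div_mul_eq_mul_div (32 * _), mul_div_assoc (32 * _)]
  simp only [add_mul, sum_add_distrib, mul_assoc (3 * l2)] at k1 k3 k5 key ⊢
  linarith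

end Crest.Agent.N334.G.E1
end
end

-- ▼ part N334/G/E1
section

/-!
# Row 334, S0519 GAIN: (E) rigidity (deterministic)
-/

set_option autoImplicit false

open MeasureTheory Finset Complex
open scoped BigOperators ComplexConjugate

noncomputable section

namespace Crest.Agent.N334.G

namespace E1

variable {L : Lat} {K : L.Mat}

/-- the estimate at one scale -/
theorem scale (hK : IsPort K) {Y Gd : Finset L.X} (hG : Gd ⊆ Y)
    {i1 i2 i l Λ1 Λ2 l1 l2 Ck κ0 : ℝ} (hi : i2 + 1 ≤ i) (hl : 0 < l) (hl1 : 0 < l1) (hl2 : 0 < l2)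
    (h1 : 4 ≤ Λ1) (h2 : 4 * Λ1 ≤ Λ2) (hκ : 1 ≤ κ0) (hCk : 0 < Ck) {m : ℕ} (hm : m < L.N)
    (hk : ∀ (c : L.X) (Z : Finset L.X), (∀ x ∈ Z, L.rx x c ≤ Λ2 * 4 ^ m) →
      ∑ x ∈ Z, L.nn K (x, true) m ≤ Ck * Λ2 * L.kap Λ2 c m K) :
    ∑ y ∈ Vm K Y i1 l m, 4 ^ m * L.nn K (y, true) m
      ≤ 400 * (Ck * Λ2) * (∑ c, if κ0 < L.kap Λ2 c m K then L.kap Λ2 c m K else 0)
        + 1200 * ∑ y ∈ Vm K Y i1 l m,
          (67 * (4 ^ m * far K Λ1 m y + 4 ^ m * deep K Y i i2 m y + 4 ^ m * bad K Y Gd i i2 m y)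
            + (l1 / l + 3 * l2) * (4 ^ m * dd K (y, true)))
        + 1200 * (Λ1 ^ 2 / l1) * ∑ x ∈ Gd.filter fun x => L.gd Y i K (x, true) m ≤ i2,
            (4 ^ m * far K Λ2 m x + 4 ^ m * deep K Y i (i - 1) m x)
        + 400 * (32 * (Λ1 * (1 + Real.exp i * (Ck * Λ2)) ^ 2 / l2)
          / (l / (Real.exp i1 + 1) ^ 2) ^ (1 / 8 : ℝ)) * κ0 ^ 2 *
          ∑ c, if L.kap Λ2 c m K ≤ κ0 then L.Main Y Gd i Λ2 K c m / 4 ^ m else 0 := by
  have h4 : (1 : ℝ) ≤ 4 ^ m := one_le_pow₀ (by norm_num)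
  have hΛ : 0 < Λ2 := by linarith
  set a : L.X → ℝ := fun y => 67 * (4 ^ m * far K Λ1 m y + 4 ^ m * deep K Y i i2 m y
    + 4 ^ m * bad K Y Gd i i2 m y) + (l1 / l + 3 * l2) * (4 ^ m * dd K (y, true))
  set b : L.X → ℝ := fun x => 4 ^ m * far K Λ2 m x + 4 ^ m * deep K Y i (i - 1) m x
  set C' := 32 * (Λ1 * (1 + Real.exp i * (Ck * Λ2)) ^ 2 / l2)
    / (l / (Real.exp i1 + 1) ^ 2) ^ (1 / 8 : ℝ) with hC'
  have ha : ∀ y, 0 ≤ a y := fun y => by
    have := far_nonneg (K := K) Λ1 m y; have := deep_nonneg (K := K) Y i i2 m y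
    have := bad_nonneg (K := K) Y Gd i i2 m y; have := dd_nonneg K (y, true)
    positivity
  have hb : ∀ y, 0 ≤ b y := fun y => by
    have := far_nonneg (K := K) Λ2 m y; have := deep_nonneg (K := K) Y i (i - 1) m y
    positivity
  have k1 := count_ge (Vm K Y i1 l m) (a := fun y => 4 ^ m * L.nn K (y, true) m)
    (fun y _ => mul_nonneg (by positivity) (nn_nonneg _ m)) hm
  have k2 := count_le (Vm K Y i1 l m) (fun y _ => ha y) h4
  have k3 := mul_le_mul_of_nonneg_left (count_le (Gd.filter fun x => L.gd Y i K (x, true) m ≤ i2)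
    (fun y _ => hb y) (show 1 ≤ Λ1 * 4 ^ m by nlinarith)) (show 0 ≤ Λ1 / l1 by positivity)
  have k4 : ∀ c, ∑ y ∈ (Vm K Y i1 l m).filter (fun y => L.rx y c ≤ 4 ^ m),
      4 ^ m * L.nn K (y, true) m ≤ 4 ^ m * (Ck * Λ2) *
        (if κ0 < L.kap Λ2 c m K then L.kap Λ2 c m K else 0)
      + ∑ y ∈ (Vm K Y i1 l m).filter (fun y => L.rx y c ≤ 4 ^ m), a y
      + Λ1 / l1 * ∑ x ∈ (Gd.filter fun x => L.gd Y i K (x, true) m ≤ i2).filter
          (fun x => L.rx x c ≤ Λ1 * 4 ^ m), b x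
      + 4 ^ m * C' * κ0 ^ 2 *
        if L.kap Λ2 c m K ≤ κ0 then L.Main Y Gd i Λ2 K c m / 4 ^ m else 0 := fun c => by
    by_cases h : L.kap Λ2 c m K ≤ κ0
    · rw [if_neg (not_lt.2 h), if_pos h, mul_zero, zero_add]
      refine (cell hK hG hi hl hl1 hl2 h1 h2 hm c
        (Mb := (1 + Real.exp i * (Ck * Λ2)) * κ0) ?_).trans (le_of_eq ?_)
      · have j1 := sum_le_sum (s := Y.filter fun z => Real.exp (-i) ≤ L.th K (z, true) m ∧
          L.rx z c ≤ Λ2 * 4 ^ m) fun z hz => dd_le_nn (one_le_th (mem_filter.1 hz).2.1)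
        rw [← mul_sum] at j1
        have j2 := mul_le_mul_of_nonneg_left ((hk c _ fun z (hz : z ∈ Y.filter fun z =>
          Real.exp (-i) ≤ L.th K (z, true) m ∧ L.rx z c ≤ Λ2 * 4 ^ m) =>
            (mem_filter.1 hz).2.2).trans (mul_le_mul_of_nonneg_left h (by positivity)))
          (Real.exp_pos i).le
        linarith
      · congr 1
        rw [hC']
        field_simp
    · rw [if_pos (not_le.1 h), if_neg h, mul_zero, add_zero, ← mul_sum]
      have j1 := mul_le_mul_of_nonneg_left (hk c ((Vm K Y i1 l m).filter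
        fun y => L.rx y c ≤ 4 ^ m) fun x hx => (mem_filter.1 hx).2.trans (by nlinarith))
        (show (0 : ℝ) ≤ 4 ^ m by positivity)
      have j2 := sum_nonneg (s := (Vm K Y i1 l m).filter fun y => L.rx y c ≤ 4 ^ m) fun y _ => ha y
      have j3 := mul_nonneg (show 0 ≤ Λ1 / l1 by positivity) (sum_nonneg
        (s := (Gd.filter fun x => L.gd Y i K (x, true) m ≤ i2).filter
          fun x => L.rx x c ≤ Λ1 * 4 ^ m) fun y _ => hb y)
      linarith
  have k5 := sum_le_sum fun c (_ : c ∈ univ) => k4 c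
  rw [sum_add_distrib, sum_add_distrib, sum_add_distrib, ← mul_sum, ← mul_sum, ← mul_sum] at k5
  refine le_of_mul_le_mul_left ?_ (show (0 : ℝ) < 4 ^ m by positivity)
  have e : Λ1 ^ 2 / l1 = Λ1 / l1 * Λ1 := by ring
  rw [e]
  linarith

/-- removal of the scales that are too large or too small -/
theorem split (Y : Finset L.X) (i1 : ℝ) {l : ℝ} (hl : 0 < l) (M : ℕ) :
    ∑ y ∈ Y, L.Sh i1 K (y, true) ≤ 90 * l * En L.r2 K
      + ∑ p, ∑ m ∈ Ico M L.N, 4 ^ m * L.nn K p m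
      + ∑ m ∈ range (min M L.N), ∑ y ∈ Vm K Y i1 l m, 4 ^ m * L.nn K (y, true) m := by
  have hn : ∀ p m, 0 ≤ 4 ^ m * L.nn K p m := fun p m => mul_nonneg (by positivity) (nn_nonneg p m)
  simp only [Vm, sum_filter]
  rw [sum_comm (s := range _), En, mul_sum]
  refine le_trans ?_ (add_le_add (add_le_add
    (sum_true_le Y fun p => mul_nonneg (by positivity) (G_nonneg p))
    (sum_true_le Y fun p => sum_nonneg fun m _ => hn p m)) le_rfl)
  rw [← sum_add_distrib, ← sum_add_distrib]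
  refine sum_le_sum fun y _ => ?_
  have e : Ico (min M L.N) L.N = Ico M L.N := by ext; simp only [mem_Ico]; omega
  have hG := G_nonneg (K := K) (y, true)
  have hd := dd_nonneg K (y, true)
  rw [Lat.Sh, ← sum_range_add_sum_Ico _ (min_le_right M L.N), e]
  have k1 : ∑ m ∈ Ico M L.N, (if Real.exp (-i1) ≤ L.th K (y, true) m
      then 4 ^ m * L.nn K (y, true) m else 0) ≤ ∑ m ∈ Ico M L.N, 4 ^ m * L.nn K (y, true) m :=
    sum_le_sum fun m _ => by split_ifs; exacts [le_rfl, hn _ m]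
  have k2 := mul_le_mul_of_nonneg_right (sum_pow_le (min M L.N)
    (show 0 ≤ l * Gam L.r2 K (y, true) / dd K (y, true) by positivity))
    (show 0 ≤ 67 * dd K (y, true) by positivity)
  have k3 : l * Gam L.r2 K (y, true) / dd K (y, true) * dd K (y, true)
      ≤ l * Gam L.r2 K (y, true) := by
    rcases hd.eq_or_lt with h | h
    · rw [← h, mul_zero]; positivity
    · rw [div_mul_cancel₀ _ h.ne']
  have k4 : ∑ m ∈ range (min M L.N), (if Real.exp (-i1) ≤ L.th K (y, true) m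
      then 4 ^ m * L.nn K (y, true) m else 0) ≤ (∑ m ∈ (range (min M L.N)).filter fun m =>
        (4 : ℝ) ^ m ≤ l * Gam L.r2 K (y, true) / dd K (y, true), (4 : ℝ) ^ m)
        * (67 * dd K (y, true)) + ∑ m ∈ range (min M L.N),
        if Real.exp (-i1) ≤ L.th K (y, true) m ∧ l * Gam L.r2 K (y, true) ≤ 4 ^ m * dd K (y, true)
        then 4 ^ m * L.nn K (y, true) m else 0 := by
    rw [sum_filter, sum_mul, ← sum_add_distrib]
    refine sum_le_sum fun m _ => ?_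
    have j0 : 0 ≤ (if (4 : ℝ) ^ m ≤ l * Gam L.r2 K (y, true) / dd K (y, true) then (4 : ℝ) ^ m
      else 0) * (67 * dd K (y, true)) := mul_nonneg (ite_nonneg (by positivity) le_rfl)
        (by positivity)
    by_cases h : Real.exp (-i1) ≤ L.th K (y, true) m
    · by_cases h' : l * Gam L.r2 K (y, true) ≤ 4 ^ m * dd K (y, true)
      · rw [if_pos h, if_pos (And.intro h h')]
        linarith
      · rw [if_pos h, if_neg (not_and_of_not_right _ h'), add_zero,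
          if_pos ((le_div_iff₀ (dd_pos ((Real.exp_pos _).trans_le h))).2 (not_le.1 h').le)]
        exact mul_le_mul_of_nonneg_left (nn_le _ m) (by positivity)
    · rw [if_neg h, if_neg (not_and_of_not_left _ h)]
      linarith
  nlinarith

theorem rigid0 (hK : IsPort K) {Y Gd : Finset L.X} (hG : Gd ⊆ Y)
    {i1 i2 i l Λ1 Λ2 l1 l2 Ck κ0 : ℝ} (hi : i2 + 1 ≤ i) (hl : 0 < l) (hl1 : 0 < l1) (hl2 : 0 < l2)
    (h1 : 4 ≤ Λ1) (h2 : 4 * Λ1 ≤ Λ2) (hκ : 1 ≤ κ0) (hCk : 0 < Ck) (M : ℕ)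
    (hk : ∀ m < L.N, ∀ (c : L.X) (Z : Finset L.X), (∀ x ∈ Z, L.rx x c ≤ Λ2 * 4 ^ m) →
      ∑ x ∈ Z, L.nn K (x, true) m ≤ Ck * Λ2 * L.kap Λ2 c m K) :
    ∑ y ∈ Y, L.Sh i1 K (y, true) ≤ (90 * l + 1200 * 67 * (16 / (3 * Λ1))
        + 1200 * (l1 / l + 3 * l2) * Real.exp i1
        + 1200 * (Λ1 ^ 2 / l1) * (16 / (3 * Λ2))) * En L.r2 K
      + 1200 * 67 * Real.exp i1 * L.Hub Y Y i i1 i2 K
      + 1200 * (Λ1 ^ 2 / l1) * (2 * Real.exp i2) * L.Hub Y Y i i2 (i - 1) K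
      + 1200 * 67 * (2 * Real.exp i2) * ∑ y ∈ Y \ Gd, Gam L.r2 K (y, true)
      + ∑ p, ∑ m ∈ Ico M L.N, 4 ^ m * L.nn K p m
      + 400 * (Ck * Λ2) *
        (∑ m ∈ range (min M L.N), ∑ c, if κ0 < L.kap Λ2 c m K then L.kap Λ2 c m K else 0)
      + 400 * (32 * (Λ1 * (1 + Real.exp i * (Ck * Λ2)) ^ 2 / l2)
          / (l / (Real.exp i1 + 1) ^ 2) ^ (1 / 8 : ℝ)) * κ0 ^ 2 * ∑ m ∈ range L.N, ∑ c,
        if L.kap Λ2 c m K ≤ κ0 then L.Main Y Gd i Λ2 K c m / 4 ^ m else 0 := by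
  have sub : ∀ f : ℕ → ℝ, (∀ m, 0 ≤ f m) → ∑ m ∈ range (min M L.N), f m ≤ ∑ m ∈ range L.N, f m :=
    fun f hf => sum_le_sum_of_subset_of_nonneg (range_subset_range.2 (min_le_right _ _))
      fun m _ _ => hf m
  have sub' : ∀ (S : ℕ → Finset L.X) (f : ℕ → L.X → ℝ), (∀ m y, 0 ≤ f m y) →
      ∑ m ∈ range (min M L.N), ∑ y ∈ S m, 4 ^ m * f m y
        ≤ ∑ m ∈ range L.N, ∑ y ∈ S m, 4 ^ m * f m y := fun S f hf =>
    sub _ fun m => sum_nonneg fun y _ => mul_nonneg (by positivity) (hf m y)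
  have k0 := split (K := K) Y i1 hl M
  have k1 := sum_le_sum fun m (hm : m ∈ range (min M L.N)) =>
    have hm' := (mem_range.1 hm).trans_le (min_le_right _ _)
    scale (i1 := i1) hK hG hi hl hl1 hl2 h1 h2 hκ hCk hm' (hk m hm')
  simp only [sum_add_distrib, ← mul_sum _ _ (67 : ℝ), ← mul_sum _ _ (1200 : ℝ),
    ← mul_sum _ _ (l1 / l + 3 * l2), ← mul_sum _ _ (400 * (Ck * Λ2)),
    ← mul_sum _ _ (1200 * (Λ1 ^ 2 / l1)), ← mul_sum _ _ (_ * κ0 ^ 2)] at k1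
  have hV : ∀ m, ∀ y ∈ Vm K Y i1 l m, y ∈ Y ∧ Real.exp (-i1) ≤ L.th K (y, true) m :=
    fun m y hy => ⟨(mem_filter.1 hy).1, (mem_filter.1 hy).2.1⟩
  have a1 := (sub' _ _ (far_nonneg Λ1)).trans (sum_far (K := K) (show 0 < Λ1 by linarith)
    (Vm K Y i1 l))
  have a2 := (sub' _ _ (deep_nonneg Y i i2)).trans (sum_deep (K := K) (Real.exp_pos i1).le
    fun m y hy => ⟨(hV m y hy).1, gd_le (hV m y hy).1 (hV m y hy).2, one_le_th (hV m y hy).2⟩)
  have a3 := (sub' _ _ (bad_nonneg Y Gd i i2)).trans (sum_bad hK hi (Vm K Y i1 l))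
  have a4 := mul_le_mul_of_nonneg_left (((sub' _ _ fun _ y => dd_nonneg K (y, true)).trans
    (sum_dd (K := K) (Real.exp_pos i1).le (fun m y hy => (hV m y hy).1)
      fun m y hy => one_le_th (hV m y hy).2)).trans (mul_le_mul_of_nonneg_left
        (sum_true_le Y G_nonneg) (Real.exp_pos i1).le)) (show 0 ≤ l1 / l + 3 * l2 by positivity)
  have a5 := (sub' _ _ (far_nonneg Λ2)).trans (sum_far (K := K) (show 0 < Λ2 by linarith)
    fun m => Gd.filter fun x => L.gd Y i K (x, true) m ≤ i2)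
  have a6 := (sub' _ _ (deep_nonneg Y i (i - 1))).trans (sum_deep (K := K) (j := i2)
    (S := fun m => Gd.filter fun x => L.gd Y i K (x, true) m ≤ i2)
    (show 0 ≤ 2 * Real.exp i2 by positivity) fun m y hy => ⟨hG (mem_filter.1 hy).1,
      (mem_filter.1 hy).2, (th_of_gd (hG (mem_filter.1 hy).1) hi (mem_filter.1 hy).2).2⟩)
  have a7 := mul_le_mul_of_nonneg_left (add_le_add a5 a6)
    (show 0 ≤ 1200 * (Λ1 ^ 2 / l1) by positivity)
  have a8 := mul_le_mul_of_nonneg_left (sub _ fun m => sum_nonneg (s := univ) fun c _ =>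
    ite_nonneg (p := L.kap Λ2 c m K ≤ κ0)
      (div_nonneg (Main_nonneg (K := K) Y Gd i Λ2 c m) (show (0 : ℝ) ≤ 4 ^ m by positivity)) le_rfl)
    (show 0 ≤ 400 * (32 * (Λ1 * (1 + Real.exp i * (Ck * Λ2)) ^ 2 / l2)
      / (l / (Real.exp i1 + 1) ^ 2) ^ (1 / 8 : ℝ)) * κ0 ^ 2 by positivity)
  unfold En at *
  linarith

end E1

theorem rigid : ∀ i1 δ : ℝ, 1 ≤ i1 → 0 < δ → ∃ C1 Λ2 : ℝ, 0 < C1 ∧ 1 ≤ Λ2 ∧ ∀ i2 : ℝ, i1 < i2 →
    ∃ C2 : ℝ, 0 < C2 ∧ ∀ i : ℝ, i2 + 1 ≤ i → ∃ C3 : ℝ, 0 < C3 ∧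
    ∀ (L : Lat) (K : L.Mat), IsPort K → ∀ (Y Gd : Finset L.X) (M : ℕ) (κ0 : ℝ), Gd ⊆ Y → 1 ≤ κ0 →
    ∑ y ∈ Y, L.Sh i1 K (y, true) ≤ δ * En L.r2 K + C1 * L.Hub Y Y i i1 i2 K +
      C2 * L.Hub Y Y i i2 (i - 1) K + C3 * ∑ y ∈ Y \ Gd, Gam L.r2 K (y, true) +
      ∑ p, ∑ m ∈ Ico M L.N, 4 ^ m * L.nn K p m +
      C3 * (∑ m ∈ range (min M L.N), ∑ c, if κ0 < L.kap Λ2 c m K then L.kap Λ2 c m K else 0) +
      C3 * κ0 ^ 2 * ∑ m ∈ range L.N, ∑ c,
        if L.kap Λ2 c m K ≤ κ0 then L.Main Y Gd i Λ2 K c m / 4 ^ m else 0 := by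
  intro i1 δ _ hδ
  obtain ⟨Ck, hCk, hk⟩ := sum_nn_le_kap
  have he := Real.exp_pos i1
  obtain ⟨Λ1, h1, e1⟩ : ∃ Λ1 : ℝ, 4 ≤ Λ1 ∧ 1200 * 67 * (16 / (3 * Λ1)) ≤ δ / 5 :=
    ⟨4 + 2144000 / δ, le_add_of_nonneg_right (by positivity), by
      rw [← mul_div_assoc, div_le_iff₀ (by positivity)]
      field_simp
      nlinarith⟩
  set l := δ / 450 with hl
  set l1 := δ / (6000 * Real.exp i1) * l with hl1
  set l2 := δ / (18000 * Real.exp i1) with hl2
  have pl : 0 < l := by positivity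
  have pl1 : 0 < l1 := by positivity
  have pl2 : 0 < l2 := by positivity
  obtain ⟨Λ2, h2, e2⟩ : ∃ Λ2 : ℝ, 4 * Λ1 ≤ Λ2 ∧ 1200 * (Λ1 ^ 2 / l1) * (16 / (3 * Λ2)) ≤ δ / 5 :=
    ⟨4 * Λ1 + 32000 * (Λ1 ^ 2 / l1) / δ, le_add_of_nonneg_right (by positivity), by
      rw [← mul_div_assoc, div_le_iff₀ (by positivity)]
      generalize Λ1 ^ 2 / l1 = u
      field_simp
      nlinarith [mul_pos hδ (show 0 < Λ1 by linarith)]⟩
  have e3 : 90 * l + 1200 * (l1 / l + 3 * l2) * Real.exp i1 = 3 * (δ / 5) := by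
    rw [hl1, mul_div_cancel_right₀ _ pl.ne', hl2, hl]
    field_simp
    ring
  have pΛ1 : 0 < Λ1 := by linarith
  have pΛ2 : 0 < Λ2 := by linarith
  refine ⟨1200 * 67 * Real.exp i1, Λ2, by positivity, by linarith, fun i2 _ =>
    ⟨1200 * (Λ1 ^ 2 / l1) * (2 * Real.exp i2), by positivity, fun i hi => ?_⟩⟩
  set c1 := 1200 * 67 * (2 * Real.exp i2)
  set c2 := 400 * (Ck * Λ2)
  set c3 := 400 * (32 * (Λ1 * (1 + Real.exp i * (Ck * Λ2)) ^ 2 / l2)
    / (l / (Real.exp i1 + 1) ^ 2) ^ (1 / 8 : ℝ))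
  have p1 : 0 < c1 := by positivity
  have p2 : 0 < c2 := by positivity
  have p3 : 0 < c3 := by positivity
  refine ⟨c1 + c2 + c3, by positivity, fun L K hK Y Gd M κ0 hG hκ => ?_⟩
  refine (E1.rigid0 (i1 := i1) hK hG hi pl pl1 pl2 h1 h2 hκ hCk M
    fun m hm c Z hZ => hk L c m Λ2 K Z hm (by linarith) hZ).trans ?_
  gcongr
  · exact En_nonneg E1.r2_nonneg K
  · linarith
  · exact sum_nonneg fun y _ => E1.G_nonneg _
  · linarith
  · exact sum_nonneg fun m _ => sum_nonneg fun c _ => by split_ifs <;> linarith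
  · linarith
  · exact sum_nonneg fun m _ => sum_nonneg fun c _ =>
      ite_nonneg (div_nonneg (E1.Main_nonneg _ _ _ _ _ _) (by positivity)) le_rfl
  · linarith

end Crest.Agent.N334.G
end
end

-- ▼ part N334/G/S10
section

/-!
# Row 334, S0519 GAIN: helpers for the one-site averages (helper85)
-/

set_option autoImplicit false

open MeasureTheory Finset Complex
open scoped BigOperators ComplexConjugate

noncomputable section

namespace Crest.Agent.N334.G.S1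

theorem uu_norm_le (t : ℝ) : ‖uu t‖ ≤ 1 := by
  have h := (uu_normSq t).1
  have h1 : 1 / (1 + t ^ 2) ≤ 1 := by
    rw [div_le_one (by positivity)]; nlinarith [sq_nonneg t]
  nlinarith [norm_nonneg (uu t)]

theorem uu_sq_im (t : ℝ) : ‖uu t‖ ^ 2 = (uu t).im := by
  rw [(uu_normSq t).1, (uu_normSq t).2.1]

theorem measurable_uu : Measurable uu := by
  unfold uu; fun_prop

theorem aff_sq_le (f0 f1 f2 : ℂ) (t : ℝ) :
    ‖f0 + f1 * (uu t).re + f2 * (uu t).im‖ ^ 2 ≤ 3 * (‖f0‖ ^ 2 + ‖f1‖ ^ 2 + ‖f2‖ ^ 2) := by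
  have h1 : |(uu t).re| ≤ 1 := (abs_re_le_norm _).trans (uu_norm_le t)
  have h2 : |(uu t).im| ≤ 1 := (abs_im_le_norm _).trans (uu_norm_le t)
  have h : ‖f0 + f1 * (uu t).re + f2 * (uu t).im‖ ≤ ‖f0‖ + ‖f1‖ + ‖f2‖ := by
    refine (norm_add₃_le).trans ?_
    rw [norm_mul, norm_mul, Complex.norm_real, Complex.norm_real, Real.norm_eq_abs,
      Real.norm_eq_abs]
    have := mul_le_of_le_one_right (norm_nonneg f1) h1
    have := mul_le_of_le_one_right (norm_nonneg f2) h2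
    linarith
  have := pow_le_pow_left₀ (norm_nonneg _) h 2
  nlinarith [sq_nonneg (‖f0‖ - ‖f1‖), sq_nonneg (‖f0‖ - ‖f2‖), sq_nonneg (‖f1‖ - ‖f2‖)]

theorem bm_remez {k : ℕ} (l : ℝ) (f0 f1 f2 : ℂ) (u0 : Fin k → ℂ) :
    BM fun t : ℝ => if ∀ j, l ≤ ‖uu t - u0 j‖ then
      ‖f0 + f1 * (uu t).re + f2 * (uu t).im‖ ^ 2 else 0 := by
  have hu := measurable_uu
  refine BM.ite ?_ ⟨by fun_prop, 3 * (‖f0‖ ^ 2 + ‖f1‖ ^ 2 + ‖f2‖ ^ 2), fun t => ?_⟩ (BM.const 0)
  · simp only [Set.ofPred_forall]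
    exact MeasurableSet.iInter fun j => measurableSet_le measurable_const (by fun_prop)
  · rw [abs_of_nonneg (by positivity)]; exact aff_sq_le f0 f1 f2 t

/-- Remez for a finite family plus a constant -/
theorem remez_sum (k : ℕ) : ∃ C l : ℝ, 0 < C ∧ 0 < l ∧ ∀ (ι : Type) [Fintype ι]
    (f0 f1 f2 : ι → ℂ) (u0 : Fin k → ℂ) (g : ℝ → ℝ) (lam κ : ℝ), BM g → (∀ t, 0 ≤ g t) →
    0 ≤ lam → 0 ≤ κ →
    (∀ t, (∀ j, l ≤ ‖uu t - u0 j‖) →
      lam * (∑ i, ‖f0 i + f1 i * (uu t).re + f2 i * (uu t).im‖ ^ 2 + κ) ≤ g t) →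
    lam * (∑ i, (‖f0 i‖ ^ 2 + ‖f1 i‖ ^ 2 + ‖f2 i‖ ^ 2) + κ) ≤
      C * ∫ t in Set.Icc (-1 : ℝ) 1, g t := by
  obtain ⟨C, l, hC, hl, h⟩ := remez k
  refine ⟨C, l, hC, hl, fun ι _ f0 f1 f2 u0 g lam κ hg hg0 hlam hκ hle => ?_⟩
  set H : ℂ → ℂ → ℂ → ℝ → ℝ := fun a b c t => if ∀ j, l ≤ ‖uu t - u0 j‖ then
      ‖a + b * (uu t).re + c * (uu t).im‖ ^ 2 else 0 with hH
  have hb : ∀ a b c, BM (H a b c) := fun a b c => bm_remez l a b c u0
  have hi : ∀ a b c, Integrable (H a b c) (volume.restrict (Set.Icc (-1 : ℝ) 1)) :=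
    fun a b c => (hb a b c).integrable _
  have h1 : ∑ i, (‖f0 i‖ ^ 2 + ‖f1 i‖ ^ 2 + ‖f2 i‖ ^ 2) ≤
      C * ∑ i, ∫ t in Set.Icc (-1 : ℝ) 1, H (f0 i) (f1 i) (f2 i) t := by
    rw [mul_sum]; exact sum_le_sum fun i _ => h _ _ _ u0
  have h2 : κ ≤ C * ∫ t in Set.Icc (-1 : ℝ) 1, H (Real.sqrt κ) 0 0 t := by
    have := h (Real.sqrt κ) 0 0 u0
    simpa [Real.sq_sqrt hκ, hH] using this
  have h3 : lam * ((∑ i, ∫ t in Set.Icc (-1 : ℝ) 1, H (f0 i) (f1 i) (f2 i) t) +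
      ∫ t in Set.Icc (-1 : ℝ) 1, H (Real.sqrt κ) 0 0 t) ≤ ∫ t in Set.Icc (-1 : ℝ) 1, g t := by
    rw [← integral_finsetSum _ fun i _ => hi _ _ _,
      ← integral_add (integrable_finsetSum _ fun i _ => hi _ _ _) (hi _ _ _),
      ← integral_const_mul]
    refine integral_mono (((integrable_finsetSum _ fun i _ => hi _ _ _).add
      (hi _ _ _)).const_mul _) (hg.integrable _) fun t => ?_
    by_cases ht : ∀ j, l ≤ ‖uu t - u0 j‖
    · have := hle t ht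
      simpa [hH, ht, Real.sq_sqrt hκ] using this
    · simpa [hH, ht] using hg0 t
  calc _ ≤ lam * (C * (∑ i, ∫ t in Set.Icc (-1 : ℝ) 1, H (f0 i) (f1 i) (f2 i) t) +
        C * ∫ t in Set.Icc (-1 : ℝ) 1, H (Real.sqrt κ) 0 0 t) :=
        mul_le_mul_of_nonneg_left (add_le_add h1 h2) hlam
    _ = C * (lam * ((∑ i, ∫ t in Set.Icc (-1 : ℝ) 1, H (f0 i) (f1 i) (f2 i) t) +
        ∫ t in Set.Icc (-1 : ℝ) 1, H (Real.sqrt κ) 0 0 t)) := by ring
    _ ≤ _ := mul_le_mul_of_nonneg_left h3 hC.le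

theorem measurableSet_good' (a0 b γ : ℝ) (s : ℂ) : MeasurableSet {a : ℝ | Good a0 b γ s a} :=
  (measurableSet_good a0 b γ).preimage (f := fun a : ℝ => (s, a)) (by fun_prop)

section cav
variable {P : Type} [Fintype P] [DecidableEq P] {x : P} (c : Cav x)

theorem bm_K {F : (P → P → ℂ) → ℝ} (hF : Nice F) {γ : ℝ} (hγ : 0 ≤ γ) :
    BM fun a => F (c.K a γ) := hF.bm (c.measurable_K γ) fun a => c.port a hγ

theorem arc_back {γ : ℝ} (hγ : 0 ≤ γ) (a : ℝ) :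
    c.s.re + c.J γ * ((a - c.s.re) / (γ + c.s.im)) = a := by
  have := (c.J_pos hγ).ne'
  unfold Cav.J at this ⊢
  field_simp; ring

theorem J_z {γ : ℝ} (hγ : 0 ≤ γ) (t : ℝ) :
    (c.J γ : ℂ) * c.z (c.s.re + c.J γ * t) γ = uu t := zz_eq_uu (c.J_pos hγ) t

theorem cc_eq {γ : ℝ} (hγ : 0 ≤ γ) (a : ℝ) {p : P} (hp : p ≠ x) :
    cc (c.K a γ) x p = dd (c.K a γ) x * (‖c.rho p‖ ^ 2 / c.J γ) := by
  have := (c.J_pos hγ).ne'
  rw [c.cc_y a γ hγ, c.dd_y a γ hγ, Cav.vec, if_neg hp]; field_simp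

omit [DecidableEq P] in
theorem z_ne {γ : ℝ} (hγ : 0 ≤ γ) (a : ℝ) : c.z a γ ≠ 0 := by
  unfold Cav.z zz
  refine one_div_ne_zero fun h => ?_
  have := congrArg Complex.im h
  simp at this
  linarith [c.s_pos]

theorem dd_pos {γ : ℝ} (hγ : 0 < γ) (a : ℝ) : 0 < dd (c.K a γ) x := by
  rw [c.dd_y a γ hγ.le]
  have := c.J_pos hγ.le
  have := norm_pos_iff.2 (z_ne c hγ.le a)
  positivity

theorem cc_div {γ : ℝ} (hγ : 0 < γ) (a : ℝ) {p : P} (hp : p ≠ x) :
    cc (c.K a γ) x p / dd (c.K a γ) x = ‖c.rho p‖ ^ 2 / c.J γ := by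
  rw [cc_eq c hγ.le a hp, mul_div_cancel_left₀ _ (dd_pos c hγ a).ne']

theorem D_cmp {γ : ℝ} (hγ : 0 ≤ γ) (a a' : ℝ) {p : P} (hp : p ≠ x) :
    dd (c.K a γ) p + ‖c.rho p‖ ^ 2 / c.J γ ≤ 33 * (dd (c.K a' γ) p + ‖c.rho p‖ ^ 2 / c.J γ) := by
  have h := c.dd_cmp hγ a a' hp
  have h1 := dd_nonneg (c.K a' γ) p
  linarith

theorem dd_zero (a : ℝ) : dd (c.K a 0) x = 0 := by rw [c.dd_y a 0 le_rfl]; ring

end cav

open Classical in
/-- transfer of an arc estimate to the law on a good site -/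
theorem transfer : ∃ C : ℝ, 0 < C ∧ ∀ (P : Type) [Fintype P] [DecidableEq P] (x : P) (c : Cav x)
    (a0 b γ Λ E ψb : ℝ) (u0 : ℂ) (ψ F G : ℝ → ℝ), 0 < b → 0 ≤ γ → 0 ≤ Λ → 0 ≤ E → 0 ≤ ψb →
    BM ψ → BM G → (∀ a, 0 ≤ ψ a) → (∀ a, 0 ≤ G a) →
    (∀ t, ψ (c.s.re + c.J γ * t) ^ 2 * ‖uu t - u0‖ ≤ (2 * ψb) ^ 2) →
    (∀ a, 0 ≤ F a ∧ F a ≤ dd (c.K a γ) x * (ψ a * E)) →
    ψb * E ≤ Λ * ∫ t in Set.Icc (-1 : ℝ) 1, G (c.s.re + c.J γ * t) →
    ∫ a, (if Good a0 b γ c.s a then F a else 0) ∂law a0 b ≤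
      C * Λ * ∫ a, dd (c.K a γ) x * G a ∂law a0 b := by
  obtain ⟨Ca, hCa, ha⟩ := arc_sing
  obtain ⟨Cc, hCc, hc⟩ := cmp
  refine ⟨2 * Ca * Cc, by positivity, ?_⟩
  intro P _ _ x c a0 b γ Λ E ψb u0 ψ F G hb hγ hΛ hE hψb hψ hG hψ0 hG0 hsing hF hint
  have := law_prob a0 hb
  have hm : Measurable fun t : ℝ => c.s.re + c.J γ * t := by fun_prop
  have hf : BM fun t => ψ (c.s.re + c.J γ * t) * E := (hψ.comp hm).mul (BM.const E)
  have hg : BM fun t => G (c.s.re + c.J γ * t) := hG.comp hm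
  have h1 := ha u0 _ (2 * ψb * E) hf (by positivity) (fun t => mul_nonneg (hψ0 _) hE) fun t => by
    have := mul_le_mul_of_nonneg_left (hsing t) (sq_nonneg E)
    calc _ = E ^ 2 * (ψ (c.s.re + c.J γ * t) ^ 2 * ‖uu t - u0‖) := by ring
      _ ≤ _ := this
      _ = _ := by ring
  have h2 := hc c.s a0 b γ (2 * Ca * Λ) _ _ c.s_pos hγ hb (by positivity) hf hg
    (fun t => mul_nonneg (hψ0 _) hE) (fun t => hG0 _) (by
      refine h1.trans ?_
      have := mul_le_mul_of_nonneg_left hint (by positivity : 0 ≤ 2 * Ca)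
      calc _ = 2 * Ca * (ψb * E) := by ring
        _ ≤ _ := this
        _ = _ := by ring)
  simp only [arc_back c hγ] at h2
  have hJ := c.J_pos hγ
  have h3 := mul_le_mul_of_nonneg_left h2 (by positivity : 0 ≤ 4 * γ * c.J γ)
  have hd : ∀ a, dd (c.K a γ) x = 4 * γ * c.J γ * ‖zz c.s a γ‖ ^ 2 := fun a => by
    rw [c.dd_y a γ hγ, Cav.z]; ring
  have e1 : 4 * γ * c.J γ * ∫ a, (if Good a0 b γ c.s a then ‖zz c.s a γ‖ ^ 2 * (ψ a * E) else 0)
      ∂law a0 b = ∫ a, (if Good a0 b γ c.s a then dd (c.K a γ) x * (ψ a * E) else 0) ∂law a0 b := by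
    rw [← integral_const_mul]
    refine integral_congr_ae (ae_of_all _ fun a => ?_)
    by_cases h : Good a0 b γ c.s a
    · simp only [h, if_true, hd]; ring
    · simp [h]
  have e2 : 4 * γ * c.J γ * ∫ a, ‖zz c.s a γ‖ ^ 2 * G a ∂law a0 b =
      ∫ a, dd (c.K a γ) x * G a ∂law a0 b := by
    rw [← integral_const_mul]
    refine integral_congr_ae (ae_of_all _ fun a => ?_)
    simp only [hd]; ring
  rw [e1] at h3
  calc _ ≤ ∫ a, (if Good a0 b γ c.s a then dd (c.K a γ) x * (ψ a * E) else 0) ∂law a0 b := by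
        refine integral_mono_of_nonneg (ae_of_all _ fun a => ?_)
          ((BM.ite (measurableSet_good' a0 b γ c.s)
            ((bm_K c (nice_dd x) hγ).mul (hψ.mul (BM.const E))) (BM.const 0)).integrable _)
          (ae_of_all _ fun a => ?_)
        · by_cases h : Good a0 b γ c.s a
          · simpa [h] using (hF a).1
          · simp [h]
        · by_cases h : Good a0 b γ c.s a
          · simpa [h] using (hF a).2
          · simp [h]
    _ ≤ _ := h3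
    _ = _ := by rw [← e2]; ring

theorem psi_up {A d g db gb r : ℝ} (hA : 0 < A) (hd : 0 ≤ d) (hg : 0 ≤ g) (h1 : d ≤ 2 * db)
    (h2 : g ≤ 2 * gb) (h3 : (A * db + gb) * r ^ 2 ≤ A * d + g) :
    A * d * g / (A * d + g) ^ 2 * r ^ 4 ≤ 4 * (A * db * gb / (A * db + gb) ^ 2) := by
  have hdb : 0 ≤ db := by linarith
  have hgb : 0 ≤ gb := by linarith
  rcases (by positivity : 0 ≤ A * d + g).eq_or_lt with h | h
  · rw [← h]; simp only [ne_eq, OfNat.ofNat_ne_zero, not_false_eq_true, zero_pow, div_zero,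
      zero_mul]; positivity
  rcases (by positivity : 0 ≤ A * db + gb).eq_or_lt with h' | h'
  · have : g = 0 := by nlinarith [mul_nonneg hA.le hdb]
    rw [this]; simp only [mul_zero, zero_div, zero_mul]; positivity
  rw [div_mul_eq_mul_div, ← mul_div_assoc, div_le_div_iff₀ (by positivity) (by positivity)]
  have e1 : A * d * g ≤ 4 * (A * db * gb) := by
    have := mul_le_mul h1 h2 hg (by linarith)
    nlinarith
  have e2 : r ^ 4 * (A * db + gb) ^ 2 ≤ (A * d + g) ^ 2 := by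
    have := pow_le_pow_left₀ (by positivity) h3 2
    calc _ = ((A * db + gb) * r ^ 2) ^ 2 := by ring
      _ ≤ _ := this
  calc _ = (A * d * g) * (r ^ 4 * (A * db + gb) ^ 2) := by ring
    _ ≤ _ := mul_le_mul e1 e2 (by positivity) (by positivity)

theorem psi_low {A d g db gb l : ℝ} (hA : 0 < A) (hdb : 0 ≤ db) (hgb : 0 ≤ gb)
    (h1 : db * l ^ 2 ≤ d) (h2 : gb * l ^ 2 ≤ g) (h3 : A * d + g ≤ 2 * (A * db + gb)) :
    l ^ 4 * (A * db * gb / (A * db + gb) ^ 2) ≤ 4 * (A * d * g / (A * d + g) ^ 2) := by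
  have hd : 0 ≤ d := le_trans (by positivity) h1
  have hg : 0 ≤ g := le_trans (by positivity) h2
  have e1 : l ^ 4 * (A * db * gb) ≤ A * d * g := by
    have := mul_le_mul h1 h2 (by positivity) hd
    calc _ = A * (db * l ^ 2 * (gb * l ^ 2)) := by ring
      _ ≤ A * (d * g) := mul_le_mul_of_nonneg_left this hA.le
      _ = _ := by ring
  rcases (by positivity : 0 ≤ A * db + gb).eq_or_lt with h' | h'
  · rw [← h']; simp only [ne_eq, OfNat.ofNat_ne_zero, not_false_eq_true, zero_pow, div_zero,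
      mul_zero]; positivity
  rcases (by positivity : 0 ≤ A * d + g).eq_or_lt with h | h
  · have : g = 0 := by nlinarith [mul_nonneg hA.le hd]
    rw [this, mul_zero] at e1
    rw [this, ← mul_div_assoc]
    simp only [mul_zero, zero_div]
    exact div_nonpos_of_nonpos_of_nonneg e1 (by positivity)
  rw [← mul_div_assoc, ← mul_div_assoc, div_le_div_iff₀ (by positivity) (by positivity)]
  have e2 : (A * d + g) ^ 2 ≤ 4 * (A * db + gb) ^ 2 := by
    have := pow_le_pow_left₀ h.le h3 2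
    calc _ ≤ _ := this
      _ = _ := by ring
  calc _ ≤ (A * d * g) * (4 * (A * db + gb) ^ 2) :=
        mul_le_mul e1 e2 (by positivity) (by positivity)
    _ = _ := by ring

theorem rpow8 {q : ℝ} (hq : 0 ≤ q) : (q ^ (1 / 8 : ℝ)) ^ 8 = q := by
  rw [← Real.rpow_natCast, ← Real.rpow_mul hq]; norm_num

theorem dd_eq_Gam {P : Type} [Fintype P] (K : P → P → ℂ) (p : P) :
    dd K p = Gam (fun _ _ => 1) K p := by simp [dd, Gam]

theorem r2_nonneg (L : Lat) (p q : L.P) : 0 ≤ L.r2 p q := L.rho2_nonneg _ p q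

/-- two-sided control of `ψ` on the arc -/
theorem psi_two (L : Lat) {x : L.P} (c : Cav x) {γ : ℝ} (hγ : 0 ≤ γ) (y : L.P) (m : ℕ) :
    ∃ (ψb : ℝ) (u0 u1 u2 : ℂ), 0 ≤ ψb ∧
      (∀ t, L.psi (c.K (c.s.re + c.J γ * t) γ) y m ^ 2 * ‖uu t - u0‖ ≤ (2 * ψb) ^ 2) ∧
      ∀ t l, 0 ≤ l → l ≤ ‖uu t - u1‖ → l ≤ ‖uu t - u2‖ →
        Real.sqrt l / 2 * ψb ≤ L.psi (c.K (c.s.re + c.J γ * t) γ) y m := by
  obtain ⟨db, hd, -⟩ := c.aff_Gam hγ (w := fun _ _ => 1) (fun _ _ => zero_le_one) y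
  obtain ⟨gb, hg, -⟩ := c.aff_Gam hγ (r2_nonneg L) y
  simp only [← dd_eq_Gam] at hd
  have hA : (0 : ℝ) < 4 ^ m := by positivity
  have hs := (hd.smul (4 ^ m)).add hg
  have hd0 := fun t => dd_nonneg (c.K (c.s.re + c.J γ * t) γ) y
  have hg0 := fun t => Gam_nonneg (r2_nonneg L) (c.K (c.s.re + c.J γ * t) γ) y
  obtain ⟨hdb, hd2, u1, hu1⟩ := hd.le_two hd0
  obtain ⟨hgb, hg2, u2, hu2⟩ := hg.le_two hg0
  obtain ⟨-, hs2, u0, hu0⟩ := hs.le_two fun t => add_nonneg (mul_nonneg hA.le (hd0 t)) (hg0 t)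
  have hq : (0 : ℝ) ≤ 4 ^ m * db * gb / (4 ^ m * db + gb) ^ 2 := by positivity
  have h8 : ∀ t, L.psi (c.K (c.s.re + c.J γ * t) γ) y m ^ 8 = _ := fun t =>
    rpow8 (div_nonneg (mul_nonneg (mul_nonneg hA.le (hd0 t)) (hg0 t)) (sq_nonneg _))
  refine ⟨(4 ^ m * db * gb / (4 ^ m * db + gb) ^ 2) ^ (1 / 8 : ℝ), u0, u1, u2, by positivity,
    fun t => ?_, fun t l hl h1 h2 => ?_⟩
  · refine le_of_pow_le_pow_left₀ (n := 4) (by norm_num) (by positivity) ?_
    have := psi_up hA (hd0 t) (hg0 t) (hd2 t) (hg2 t) (hu0 t)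
    rw [← h8 t, ← rpow8 hq] at this
    have h0 : 0 ≤ ((4 ^ m * db * gb / (4 ^ m * db + gb) ^ 2 : ℝ) ^ (1 / 8 : ℝ)) ^ 8 := by
      positivity
    calc _ = L.psi (c.K (c.s.re + c.J γ * t) γ) y m ^ 8 * ‖uu t - u0‖ ^ 4 := by ring
      _ ≤ _ := this
      _ ≤ 256 * ((4 ^ m * db * gb / (4 ^ m * db + gb) ^ 2 : ℝ) ^ (1 / 8 : ℝ)) ^ 8 := by linarith
      _ = _ := by ring
  · refine le_of_pow_le_pow_left₀ (n := 8) (by norm_num) (psi_nonneg L _ _ _) ?_
    have := psi_low (l := l) hA hdb hgb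
      ((mul_le_mul_of_nonneg_left (pow_le_pow_left₀ hl h1 2) hdb).trans (hu1 t))
      ((mul_le_mul_of_nonneg_left (pow_le_pow_left₀ hl h2 2) hgb).trans (hu2 t)) (hs2 t)
    rw [← h8 t, ← rpow8 hq] at this
    have h0 : 0 ≤ L.psi (c.K (c.s.re + c.J γ * t) γ) y m ^ 8 := pow_nonneg (psi_nonneg L _ _ _) 8
    have e : Real.sqrt l ^ 8 = l ^ 4 := by
      calc _ = (Real.sqrt l ^ 2) ^ 4 := by ring
        _ = _ := by rw [Real.sq_sqrt hl]
    rw [mul_pow, div_pow, e]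
    linarith

end Crest.Agent.N334.G.S1
end
end

-- ▼ part N334/G/S11
section

/-!
# Row 334, S0519 GAIN: the three-point one-site average (helper85)
-/

set_option autoImplicit false

open MeasureTheory Finset Complex
open scoped BigOperators ComplexConjugate

noncomputable section

namespace Crest.Agent.N334.G.S1

theorem T2_nonneg (L : Lat) (K : L.Mat) (p q : L.P) : 0 ≤ L.T2 K p q :=
  sum_nonneg fun _ _ => sq_nonneg _

theorem ph_nonneg (L : Lat) (K : L.Mat) (p q : L.P) : 0 ≤ L.ph K p q :=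
  div_nonneg (mul_nonneg (cc_nonneg K p q) (T2_nonneg L K p q))
    (add_nonneg (mul_nonneg (dd_nonneg K p) (dd_nonneg K q)) (cc_nonneg K p q))

theorem nn_nonneg (L : Lat) (K : L.Mat) (p : L.P) (m : ℕ) : 0 ≤ L.nn K p m :=
  Gam_nonneg (L.wh_nonneg m) K p

theorem Om_nonneg (L : Lat) (i : ℝ) (K : L.Mat) (m : ℕ) (p q : L.P) : 0 ≤ L.Om i K m p q := by
  have := div_nonneg (cc_nonneg K p q) (dd_nonneg K p)
  exact div_nonneg (add_nonneg (mul_nonneg (Real.exp_pos i).le (nn_nonneg L K q m)) this)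
    (add_nonneg (dd_nonneg K q) this)

theorem XX_nonneg (L : Lat) (K : L.Mat) (x y z : L.P) : 0 ≤ L.XX K x y z := by
  have h1 := div_nonneg (cc_nonneg K x y) (dd_nonneg K x)
  have h2 := div_nonneg (cc_nonneg K x z) (dd_nonneg K x)
  exact div_nonneg (mul_nonneg (mul_nonneg (cc_nonneg K x y) (cc_nonneg K x z))
    (T2_nonneg L K z y)) (mul_nonneg (mul_nonneg (dd_nonneg K x)
      (add_nonneg (dd_nonneg K y) h1)) (add_nonneg (dd_nonneg K z) h2))

theorem GN_nonneg (L : Lat) (K : L.Mat) (p : L.P) : 0 ≤ L.GN K p := Gn_nonneg _ K p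

theorem ph_ineq {c e B D T l : ℝ} (hl : 0 < l) (hB : 0 < B) (hBD : B ≤ D) (he0 : 0 ≤ e)
    (he : e ≤ 1089 * D) (hc : 4 * B * l ^ 2 ≤ c) (hT : 0 ≤ T) :
    4 * l ^ 2 / (1089 + 4 * l ^ 2) * (B / D) * T ≤ c * T / (e + c) := by
  have hD : 0 < D := hB.trans_le hBD
  have hc0 : 0 < c := lt_of_lt_of_le (by positivity) hc
  rw [mul_div_right_comm c]
  refine mul_le_mul_of_nonneg_right ?_ hT
  rw [div_mul_div_comm, div_le_div_iff₀ (by positivity) (by positivity)]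
  have h1 : 4 * B * l ^ 2 * e ≤ c * (1089 * D) := mul_le_mul hc he he0 hc0.le
  have h2 : 4 * l ^ 2 * c * B ≤ 4 * l ^ 2 * c * D :=
    mul_le_mul_of_nonneg_left hBD (by positivity)
  nlinarith

/-- lower bound for an off-diagonal conductance off a short arc -/
theorem cc_low {P : Type} [Fintype P] [DecidableEq P] {x : P} (c : Cav x) {γ : ℝ} (hγ : 0 ≤ γ)
    {y z : P} (hy : y ≠ x) (hz : z ≠ x) : ∃ u4 : ℂ, ∀ t l, 0 ≤ l → l ≤ ‖uu t - u4‖ →
      4 * (‖c.rho y‖ ^ 2 / c.J γ * (‖c.rho z‖ ^ 2 / c.J γ)) * l ^ 2 ≤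
        cc (c.K (c.s.re + c.J γ * t) γ) z y := by
  set w : ℂ := 2 * I * c.vec γ z * c.vec γ y / c.J γ with hw
  have hJ := c.J_pos hγ
  have hn : ‖w‖ ^ 2 = 4 * (‖c.rho y‖ ^ 2 / c.J γ * (‖c.rho z‖ ^ 2 / c.J γ)) := by
    rw [hw, Cav.vec, Cav.vec, if_neg hy, if_neg hz]
    simp only [norm_div, norm_mul, Complex.norm_I, Complex.norm_real, Real.norm_eq_abs,
      abs_of_pos hJ, Complex.norm_ofNat]
    field_simp; ring
  refine ⟨-c.K0 z y / w, fun t l hl h => ?_⟩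
  rw [← hn]
  by_cases h0 : w = 0
  · rw [h0]; simpa using cc_nonneg _ z y
  · have e : c.K (c.s.re + c.J γ * t) γ z y = w * (uu t - -c.K0 z y / w) := by
      rw [c.K_arc hγ, ← hw]; field_simp; ring
    rw [cc, e, norm_mul, mul_pow]
    exact mul_le_mul_of_nonneg_left (pow_le_pow_left₀ hl h 2) (sq_nonneg _)

open Classical in
theorem stat1' : ∃ C : ℝ, 0 < C ∧ ∀ (L : Lat) (x : L.P) (c : Cav x) (a0 b γ i : ℝ) (y z : L.P)
    (m : ℕ), 0 < b → 0 ≤ γ → y ≠ x → z ≠ x →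
    ∫ a, (if Good a0 b γ c.s a then L.psi (c.K a γ) y m * (L.Om i (c.K a γ) m x z *
        L.XX (c.K a γ) x y z) else 0) ∂law a0 b ≤
      C * ∫ a, L.psi (c.K a γ) y m * (L.Om i (c.K a γ) m x z *
        (dd (c.K a γ) x * L.ph (c.K a γ) z y)) ∂law a0 b := by
  obtain ⟨Ct, hCt, ht⟩ := transfer
  obtain ⟨Cr, l, hCr, hl, hr⟩ := remez_sum 4
  have hsl := Real.sqrt_pos.2 hl
  set c1 : ℝ := Real.sqrt l / 2 * (l ^ 2 / 33) * (4 * l ^ 2 / (1089 + 4 * l ^ 2)) with hc1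
  have hc10 : 0 < c1 := by positivity
  refine ⟨Ct * (66 * 1089 * 3 / c1 * Cr), by positivity, ?_⟩
  intro L x c a0 b γ i y z m hb hγ hy hz
  have hJ := c.J_pos hγ
  set βy : ℝ := ‖c.rho y‖ ^ 2 / c.J γ with hβy
  set βz : ℝ := ‖c.rho z‖ ^ 2 / c.J γ with hβz
  by_cases htriv : γ = 0 ∨ βy = 0 ∨ βz = 0
  · have h0 : ∀ a, L.XX (c.K a γ) x y z = 0 := fun a => by
      have : cc (c.K a γ) x y * cc (c.K a γ) x z = 0 := by
        rw [cc_eq c hγ a hy, cc_eq c hγ a hz, ← hβy, ← hβz]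
        rcases htriv with h | h | h
        · subst h; rw [dd_zero]; ring
        · rw [h]; ring
        · rw [h]; ring
      rw [Lat.XX, this]; simp
    simp only [h0, mul_zero, ite_self, integral_zero]
    refine mul_nonneg (by positivity) (integral_nonneg fun a => ?_)
    exact mul_nonneg (psi_nonneg L _ _ _) (mul_nonneg (Om_nonneg L _ _ _ _ _)
      (mul_nonneg (dd_nonneg _ _) (ph_nonneg L _ _ _)))
  push Not at htriv
  obtain ⟨hγ0, hy0, hz0⟩ := htriv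
  have hγp : 0 < γ := lt_of_le_of_ne hγ (Ne.symm hγ0)
  have hyp : 0 < βy := lt_of_le_of_ne (by positivity) (Ne.symm hy0)
  have hzp : 0 < βz := lt_of_le_of_ne (by positivity) (Ne.symm hz0)
  set Dy : ℝ := dd (c.K 0 γ) y + βy with hDy
  set Dz : ℝ := dd (c.K 0 γ) z + βz with hDz
  have hDy1 : βy ≤ Dy := le_add_of_nonneg_left (dd_nonneg _ _)
  have hDz1 : βz ≤ Dz := le_add_of_nonneg_left (dd_nonneg _ _)
  have hDy0 : 0 < Dy := hyp.trans_le hDy1
  have hDz0 : 0 < Dz := hzp.trans_le hDz1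
  obtain ⟨ψb, u0, u1, u2, hψb, hup, hlow⟩ := psi_two L c hγ y m
  obtain ⟨nb, hn, -⟩ := c.aff_Gam hγ (L.wh_nonneg m) z
  obtain ⟨hNb, hN2, u3, hu3⟩ := ((hn.smul (Real.exp i)).add (IsAff.const βz)).le_two fun t =>
    add_nonneg (mul_nonneg (Real.exp_pos i).le (Gam_nonneg (L.wh_nonneg m) _ _)) hzp.le
  set Nb : ℝ := Real.exp i * nb + βz with hNbd
  obtain ⟨u4, hu4⟩ := cc_low c hγ hy hz
  choose f0 f1 f2 hf using fun j => c.aff_T hγ (L.Phi L.N j) z y
  set S : ℝ := ∑ j, (‖f0 j‖ ^ 2 + ‖f1 j‖ ^ 2 + ‖f2 j‖ ^ 2) with hS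
  have hS0 : 0 ≤ S := sum_nonneg fun _ _ => by positivity
  have hOm : ∀ a, L.Om i (c.K a γ) m x z =
      (Real.exp i * Gam (L.wh m) (c.K a γ) z + βz) / (dd (c.K a γ) z + βz) := fun a => by
    rw [Lat.Om, cc_div c hγp a hz]; rfl
  have key := ht L.P x c a0 b γ (66 * 1089 * 3 / c1 * Cr)
    (66 * Nb / Dz * (1089 * (βy * βz / (Dy * Dz)) * (3 * S))) ψb u0
    (fun a => L.psi (c.K a γ) y m)
    (fun a => L.psi (c.K a γ) y m * (L.Om i (c.K a γ) m x z * L.XX (c.K a γ) x y z))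
    (fun a => L.psi (c.K a γ) y m * (L.Om i (c.K a γ) m x z * L.ph (c.K a γ) z y))
    hb hγ (by positivity) (by positivity) hψb (bm_K c (L.nice_psi y m) hγ)
    (bm_K c ((L.nice_psi y m).mul ((L.nice_Om i m x z).mul (L.nice_ph z y))) hγ)
    (fun a => psi_nonneg L _ _ _)
    (fun a => mul_nonneg (psi_nonneg L _ _ _)
      (mul_nonneg (Om_nonneg L _ _ _ _ _) (ph_nonneg L _ _ _))) hup ?_ ?_
  · refine key.trans (le_of_eq ?_)
    congr 2; funext a; ring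
  · intro a
    refine ⟨mul_nonneg (psi_nonneg L _ _ _)
      (mul_nonneg (Om_nonneg L _ _ _ _ _) (XX_nonneg L _ _ _ _)), ?_⟩
    obtain ⟨t, rfl⟩ : ∃ t, a = c.s.re + c.J γ * t := ⟨_, (arc_back c hγ a).symm⟩
    set K := c.K (c.s.re + c.J γ * t) γ with hK
    have hy1 : Dy ≤ 33 * (dd K y + βy) := D_cmp c hγ _ _ hy
    have hz1 : Dz ≤ 33 * (dd K z + βz) := D_cmp c hγ _ _ hz
    have hdy := dd_nonneg K y
    have hdz := dd_nonneg K z
    have hdx : 0 < dd K x := dd_pos c hγp _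
    have h1 : L.Om i K m x z ≤ 66 * Nb / Dz := by
      rw [hK, hOm, ← hK, div_le_div_iff₀ (by positivity) hDz0]
      have := mul_le_mul (hN2 t) hz1 hDz0.le (by positivity)
      calc _ ≤ _ := this
        _ = _ := by ring
    have hT : L.T2 K z y ≤ 3 * S := by
      rw [hS, mul_sum]
      exact sum_le_sum fun j _ => by rw [hK, hf]; exact aff_sq_le _ _ _ t
    have h2 : L.XX K x y z ≤ dd K x * (1089 * (βy * βz / (Dy * Dz)) * (3 * S)) := by
      have e : L.XX K x y z =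
          dd K x * (βy * βz / ((dd K y + βy) * (dd K z + βz)) * L.T2 K z y) := by
        rw [Lat.XX, hK, cc_div c hγp _ hy, cc_div c hγp _ hz, cc_eq c hγ _ hy, cc_eq c hγ _ hz,
          ← hK, ← hβy, ← hβz]
        field_simp
      rw [e]
      refine mul_le_mul_of_nonneg_left
        (mul_le_mul ?_ hT (T2_nonneg L _ _ _) (by positivity)) hdx.le
      rw [← mul_div_assoc (1089 : ℝ), div_le_div_iff₀ (by positivity) (by positivity)]
      have := mul_le_mul_of_nonneg_left (mul_le_mul hy1 hz1 hDz0.le (by positivity))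
        (mul_pos hyp hzp).le
      calc _ ≤ _ := this
        _ = _ := by ring
    have h3 := mul_le_mul_of_nonneg_left
      (mul_le_mul h1 h2 (XX_nonneg L _ _ _ _) (by positivity)) (psi_nonneg L K y m)
    calc _ ≤ _ := h3
      _ = _ := by ring
  · have hm : Measurable fun t : ℝ => c.s.re + c.J γ * t := by fun_prop
    have h := hr _ f0 f1 f2 ![u1, u2, u3, u4]
      (fun t => L.psi (c.K (c.s.re + c.J γ * t) γ) y m *
        (L.Om i (c.K (c.s.re + c.J γ * t) γ) m x z * L.ph (c.K (c.s.re + c.J γ * t) γ) z y))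
      (c1 * (ψb * (Nb / Dz) * (βy * βz / (Dy * Dz)))) 0
      ((bm_K c ((L.nice_psi y m).mul ((L.nice_Om i m x z).mul (L.nice_ph z y))) hγ).comp hm)
      (fun a => mul_nonneg (psi_nonneg L _ _ _)
        (mul_nonneg (Om_nonneg L _ _ _ _ _) (ph_nonneg L _ _ _))) (by positivity) le_rfl ?_
    · have := mul_le_mul_of_nonneg_left h (by positivity : 0 ≤ 66 * 1089 * 3 / c1)
      calc _ = 66 * 1089 * 3 / c1 *
            (c1 * (ψb * (Nb / Dz) * (βy * βz / (Dy * Dz))) * (S + 0)) := by field_simp; ring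
        _ ≤ _ := this
        _ = _ := by ring
    intro t hj
    have p1 := hlow t l hl.le (hj 0) (hj 1)
    have p4 := hu4 t l hl.le (hj 3)
    have p3 : Nb * l ^ 2 ≤ _ :=
      (mul_le_mul_of_nonneg_left (pow_le_pow_left₀ hl.le (hj 2) 2) hNb).trans (hu3 t)
    simp only [← hf]
    set K := c.K (c.s.re + c.J γ * t) γ with hK
    have hy1 : dd K y + βy ≤ 33 * Dy := D_cmp c hγ _ _ hy
    have hz1 : dd K z + βz ≤ 33 * Dz := D_cmp c hγ _ _ hz
    have hdy := dd_nonneg K y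
    have hdz := dd_nonneg K z
    have h1 : l ^ 2 / 33 * (Nb / Dz) ≤ L.Om i K m x z := by
      rw [hK, hOm, ← hK, div_mul_div_comm, div_le_div_iff₀ (by positivity) (by positivity)]
      have := mul_le_mul p3 hz1 (by positivity) (le_trans (by positivity) p3)
      calc _ = Nb * l ^ 2 * (dd K z + βz) := by ring
        _ ≤ _ := this
    have h2 := ph_ineq (e := dd K z * dd K y) (D := Dy * Dz) hl (mul_pos hyp hzp)
      (mul_le_mul hDy1 hDz1 hzp.le hDy0.le) (by positivity)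
      (by
        have := mul_le_mul (le_trans (le_add_of_nonneg_right hzp.le) hz1)
          (le_trans (le_add_of_nonneg_right hyp.le) hy1) hdy (by positivity)
        calc _ ≤ _ := this
          _ = _ := by ring) p4 (T2_nonneg L K z y)
    have hT := T2_nonneg L K z y
    have h3 := mul_le_mul p1 (mul_le_mul h1 h2 (by positivity) (Om_nonneg L _ _ _ _ _))
      (by positivity) (psi_nonneg L K y m)
    calc _ = Real.sqrt l / 2 * ψb * (l ^ 2 / 33 * (Nb / Dz) *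
          (4 * l ^ 2 / (1089 + 4 * l ^ 2) * (βy * βz / (Dy * Dz)) * L.T2 K z y)) := by
          rw [hc1, Lat.T2]; ring
      _ ≤ _ := h3

end Crest.Agent.N334.G.S1
end
end

-- ▼ part N334/G/S12
section

/-!
# Row 334, S0519 GAIN: the two-point one-site average (helper85)
-/

set_option autoImplicit false

open MeasureTheory Finset Complex
open scoped BigOperators ComplexConjugate

noncomputable section

namespace Crest.Agent.N334.G.S1

section alg
variable {P : Type} [Fintype P] [DecidableEq P]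

omit [DecidableEq P] in
theorem mv_sq_le {ι : Type} [Fintype ι] (Φ : ι → P → ℝ) (K : P → P → ℂ) (p : P) :
    ∑ j, mv (Φ j) K p ^ 2 ≤ 2 * dd K p * Gn Φ K p := by
  have h1 := dd_le_nu K p
  have h2 := nu_le K p
  rcases (dd_nonneg K p).eq_or_lt with h | h
  · have : ∀ q, cc K p q = 0 := fun q => le_antisymm (h ▸ cc_le_dd K p q) (cc_nonneg K p q)
    simp [mv, this, ← h]
  · have hn : 0 < nu K p := h.trans_le h1
    rw [Gn, ← mul_div_assoc, le_div_iff₀ hn, mul_comm]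
    exact mul_le_mul_of_nonneg_right h2 (sum_nonneg fun _ _ => sq_nonneg _)

theorem normSq_add_mul (a w r : ℂ) :
    ‖a + w * r‖ ^ 2 = ‖a‖ ^ 2 + 2 * (w * (conj a * r)).re + ‖w‖ ^ 2 * ‖r‖ ^ 2 := by
  simp only [← Complex.normSq_eq_norm_sq, Complex.normSq_apply, add_re, add_im, mul_re, mul_im,
    conj_re, conj_im]
  ring

variable {z : P} (c : Cav z)

theorem Sm_y (a γ : ℝ) {y r : P} (hy : y ≠ z) (hr : r ≠ z) :
    Sm (c.K a γ) r y = Sm c.K0 r y + 2 * I * c.z a γ * c.rho y * c.rho r := by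
  simp only [Sm, Cav.K, Cav.vec, if_neg hy, if_neg hr]; ring

theorem Sm_z (a γ : ℝ) {r : P} (hr : r ≠ z) :
    Sm (c.K a γ) r z = 2 * I * c.z a γ * (Real.sqrt γ : ℂ) * c.rho r := by
  simp only [Sm, Cav.K, Cav.vec, if_neg hr, c.K0_y, if_true]; ring

theorem T_zy {γ : ℝ} (hγ : 0 ≤ γ) (a : ℝ) {y : P} (hy : y ≠ z) (f : P → ℝ) :
    Tm f (c.K a γ) z y = conj (2 * I * c.z a γ * (Real.sqrt γ : ℂ)) *
      (∑ r, conj (c.rho r) * ((f r - f z : ℝ) : ℂ) * Sm c.K0 r y +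
        2 * I * c.z a γ * c.rho y * ((∑ r, ‖c.rho r‖ ^ 2 * (f r - f z) : ℝ) : ℂ)) := by
  rw [← (c.port a hγ).T_shift f (f z), Tm, if_neg hy.symm, sub_zero]
  push_cast
  rw [mul_sum, ← sum_add_distrib, mul_sum]
  refine sum_congr rfl fun r _ => ?_
  by_cases hr : r = z
  · subst hr; simp
  · rw [Sm_y c a γ hy hr, Sm_z c a γ hr, map_mul _ _ (c.rho r), ← Complex.conj_mul' (c.rho r)]
    ring

theorem mv_y {γ : ℝ} (hγ : 0 ≤ γ) (a : ℝ) {y : P} (hy : y ≠ z) (f : P → ℝ) :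
    mv f (c.K a γ) y = (∑ r, (f r - f z) * ‖Sm c.K0 r y‖ ^ 2 - (f y - f z)) +
      2 * (2 * I * c.z a γ * c.rho y *
        conj (∑ r, conj (c.rho r) * ((f r - f z : ℝ) : ℂ) * Sm c.K0 r y)).re +
      ‖2 * I * c.z a γ * c.rho y‖ ^ 2 * ∑ r, ‖c.rho r‖ ^ 2 * (f r - f z) := by
  have h := (c.port a hγ).T_diag f y
  rw [← (c.port a hγ).T_shift f (f z), Tm, if_pos rfl] at h
  have h2 : mv f (c.K a γ) y = ∑ r, (f r - f z) * ‖Sm (c.K a γ) r y‖ ^ 2 - (f y - f z) := by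
    apply Complex.ofReal_injective
    rw [← h]
    push_cast
    congr 1
    refine sum_congr rfl fun r _ => ?_
    rw [← Complex.conj_mul']; ring
  rw [h2, map_sum, mul_sum, re_sum, mul_sum, mul_sum, sub_add_eq_add_sub, sub_add_eq_add_sub,
    ← sum_add_distrib, ← sum_add_distrib]
  congr 1
  refine sum_congr rfl fun r _ => ?_
  by_cases hr : r = z
  · subst hr; simp
  · rw [Sm_y c a γ hy hr, normSq_add_mul]
    have : 2 * I * c.z a γ * c.rho y * conj (conj (c.rho r) * ((f r - f z : ℝ) : ℂ) * Sm c.K0 r y) =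
        ((f r - f z : ℝ) : ℂ) * (2 * I * c.z a γ * c.rho y * (conj (Sm c.K0 r y) * c.rho r)) := by
      simp only [map_mul, conj_conj, conj_ofReal]; ring
    rw [this, re_ofReal_mul]; ring

theorem mv_z {γ : ℝ} (hγ : 0 ≤ γ) (a : ℝ) (f : P → ℝ) :
    mv f (c.K a γ) z = dd (c.K a γ) z * ((∑ r, ‖c.rho r‖ ^ 2 * (f r - f z)) / c.J γ) := by
  rw [mv, sum_div, mul_sum]
  refine sum_congr rfl fun r _ => ?_
  by_cases hr : r = z
  · subst hr; simp
  · rw [cc_eq c hγ a hr]; ring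

theorem zalg {γ : ℝ} (hγ : 0 ≤ γ) {y : P} (hy : y ≠ z) (f : P → ℝ) : ∃ f0 f1 f2 M : ℝ,
    (∀ t, mv f (c.K (c.s.re + c.J γ * t) γ) y = f0 + f1 * (uu t).re + f2 * (uu t).im) ∧
    (∀ a, mv f (c.K a γ) z = dd (c.K a γ) z * M) ∧
    ∀ a, ‖c.rho y‖ ^ 2 / c.J γ * ‖Tm f (c.K a γ) z y‖ ^ 2 ≤
      dd (c.K a γ) z * (f1 ^ 2 + f2 ^ 2 + 12 * (‖c.rho y‖ ^ 2 / c.J γ) ^ 2 * M ^ 2) := by
  have hJ := c.J_pos hγ
  have hJc : (c.J γ : ℂ) ≠ 0 := by exact_mod_cast hJ.ne'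
  set α : ℂ := ∑ r, conj (c.rho r) * ((f r - f z : ℝ) : ℂ) * Sm c.K0 r y with hα
  set Sg : ℝ := ∑ r, ‖c.rho r‖ ^ 2 * (f r - f z) with hSg
  set c1 : ℂ := 4 * I * c.rho y * conj α / c.J γ with hc1
  set β : ℝ := ‖c.rho y‖ ^ 2 / c.J γ with hβ
  refine ⟨∑ r, (f r - f z) * ‖Sm c.K0 r y‖ ^ 2 - (f y - f z), c1.re,
    -c1.im + 4 * β * (Sg / c.J γ), Sg / c.J γ, fun t => ?_, fun a => mv_z c hγ a f, fun a => ?_⟩
  · rw [mv_y c hγ _ hy, ← hα, ← hSg]
    have hz : c.z (c.s.re + c.J γ * t) γ = uu t / c.J γ := by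
      rw [← J_z c hγ t]; field_simp
    have e1 : 2 * (2 * I * c.z (c.s.re + c.J γ * t) γ * c.rho y * conj α).re = (c1 * uu t).re := by
      rw [hz, hc1, ← re_ofReal_mul]; congr 1; push_cast; ring
    have e2 : ‖2 * I * c.z (c.s.re + c.J γ * t) γ * c.rho y‖ ^ 2 =
        4 * (uu t).im * β / c.J γ := by
      rw [hz, hβ, ← uu_sq_im]
      simp only [norm_div, norm_mul, Complex.norm_I, Complex.norm_real, Real.norm_eq_abs,
        abs_of_pos hJ, Complex.norm_ofNat]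
      field_simp; ring
    rw [e1, e2, mul_re]; ring
  · rw [T_zy c hγ a hy, ← hα, ← hSg, norm_mul, mul_pow, Complex.norm_conj]
    have e1 : ‖2 * I * c.z a γ * (Real.sqrt γ : ℂ)‖ ^ 2 = dd (c.K a γ) z / c.J γ := by
      rw [c.dd_y a γ hγ]
      simp only [norm_mul, Complex.norm_I, Complex.norm_real, Real.norm_eq_abs,
        Complex.norm_ofNat, mul_pow, sq_abs, Real.sq_sqrt hγ]
      field_simp; ring
    have hz : c.J γ * ‖c.z a γ‖ ≤ 1 := norm_zz_le hJ a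
    have e2 : ‖2 * I * c.z a γ * c.rho y * (Sg : ℂ)‖ ^ 2 ≤
        4 * ‖c.rho y‖ ^ 2 * (Sg / c.J γ) ^ 2 := by
      have := pow_le_pow_left₀ (by positivity) hz 2
      calc _ = 4 * ‖c.rho y‖ ^ 2 * (Sg / c.J γ) ^ 2 * (c.J γ * ‖c.z a γ‖) ^ 2 := by
            simp only [norm_mul, Complex.norm_I, Complex.norm_real, Real.norm_eq_abs,
              Complex.norm_ofNat, mul_pow, sq_abs]
            field_simp; ring
        _ ≤ 4 * ‖c.rho y‖ ^ 2 * (Sg / c.J γ) ^ 2 * 1 ^ 2 :=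
            mul_le_mul_of_nonneg_left this (by positivity)
        _ = _ := by ring
    have e3 : ‖α + 2 * I * c.z a γ * c.rho y * (Sg : ℂ)‖ ^ 2 ≤
        2 * ‖α‖ ^ 2 + 8 * ‖c.rho y‖ ^ 2 * (Sg / c.J γ) ^ 2 := by
      have := pow_le_pow_left₀ (norm_nonneg _)
        (norm_add_le α (2 * I * c.z a γ * c.rho y * (Sg : ℂ))) 2
      nlinarith [sq_nonneg (‖α‖ - ‖2 * I * c.z a γ * c.rho y * (Sg : ℂ)‖)]
    have e4 : c1.re ^ 2 + c1.im ^ 2 = 16 * (β / c.J γ * ‖α‖ ^ 2) := by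
      rw [← Complex.normSq_add_mul_I, re_add_im, Complex.normSq_eq_norm_sq, hc1, hβ]
      simp only [norm_div, norm_mul, Complex.norm_I, Complex.norm_real, Real.norm_eq_abs,
        abs_of_pos hJ, Complex.norm_ofNat, Complex.norm_conj]
      field_simp; ring
    have hβ0 : 0 ≤ β := by positivity
    have e5 := mul_le_mul_of_nonneg_left e3 (div_nonneg hβ0 hJ.le)
    have e6 : β / c.J γ * (2 * ‖α‖ ^ 2 + 8 * ‖c.rho y‖ ^ 2 * (Sg / c.J γ) ^ 2) =
        2 * (β / c.J γ * ‖α‖ ^ 2) + 8 * (β * (Sg / c.J γ)) ^ 2 := by rw [hβ]; ring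
    rw [e1]
    calc _ = dd (c.K a γ) z * (β / c.J γ * ‖α + 2 * I * c.z a γ * c.rho y * (Sg : ℂ)‖ ^ 2) := by
          ring
      _ ≤ _ := mul_le_mul_of_nonneg_left ?_ (dd_nonneg _ _)
    rw [e6] at e5
    refine e5.trans ?_
    nlinarith [sq_nonneg c1.re, sq_nonneg (-c1.im + 4 * β * (Sg / c.J γ)),
      sq_nonneg (-c1.im + 8 * β * (Sg / c.J γ))]

end alg

open Classical in
theorem stat2' : ∃ C : ℝ, 0 < C ∧ ∀ (L : Lat) (z : L.P) (c : Cav z) (a0 b γ : ℝ) (y : L.P)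
    (m : ℕ) (W : ℝ → ℝ) (Wb C1 : ℝ) (u0 : ℂ), 0 < b → 0 ≤ γ → y ≠ z → BM W → 1 ≤ C1 → 0 ≤ Wb →
    (∀ a, 0 ≤ W a ∧ W a ≤ C1 * Wb) → (∀ a, Wb * ‖(c.J γ : ℂ) * c.z a γ - u0‖ ^ 2 ≤ C1 * W a) →
    ∫ a, (if Good a0 b γ c.s a then W a * (L.psi (c.K a γ) y m * L.ph (c.K a γ) z y) else 0)
        ∂law a0 b ≤
      C * C1 ^ 2 * ∫ a, W a * (L.psi (c.K a γ) y m * (dd (c.K a γ) z * L.GN (c.K a γ) y +
        cc (c.K a γ) z y * (L.GN (c.K a γ) z / dd (c.K a γ) z))) ∂law a0 b := by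
  obtain ⟨Ct, hCt, ht⟩ := transfer
  obtain ⟨Cr, l, hCr, hl, hr⟩ := remez_sum 3
  have hsl := Real.sqrt_pos.2 hl
  set c1 : ℝ := Real.sqrt l / 2 * l ^ 2 with hc1
  have hc10 : 0 < c1 := by positivity
  refine ⟨Ct * (33 * 66 / c1 * Cr), by positivity, ?_⟩
  intro L z c a0 b γ y m W Wb C1 u0 hb hγ hy hW hC1 hWb hW1 hW2
  have hJ := c.J_pos hγ
  have hC0 : 0 < C1 := by linarith
  set β : ℝ := ‖c.rho y‖ ^ 2 / c.J γ with hβ
  by_cases htriv : γ = 0 ∨ β = 0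
  · have h0 : ∀ a, L.ph (c.K a γ) z y = 0 := fun a => by
      have : cc (c.K a γ) z y = 0 := by
        rw [cc_eq c hγ a hy, ← hβ]
        rcases htriv with h | h
        · subst h; rw [dd_zero]; ring
        · rw [h]; ring
      rw [Lat.ph, this]; simp
    simp only [h0, mul_zero, ite_self, integral_zero]
    refine mul_nonneg (by positivity) (integral_nonneg fun a => ?_)
    exact mul_nonneg (hW1 a).1 (mul_nonneg (psi_nonneg L _ _ _) (add_nonneg
      (mul_nonneg (dd_nonneg _ _) (GN_nonneg L _ _))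
      (mul_nonneg (cc_nonneg _ _ _) (div_nonneg (GN_nonneg L _ _) (dd_nonneg _ _)))))
  push Not at htriv
  obtain ⟨hγ0, hy0⟩ := htriv
  have hγp : 0 < γ := lt_of_le_of_ne hγ (Ne.symm hγ0)
  have hyp : 0 < β := lt_of_le_of_ne (by positivity) (Ne.symm hy0)
  set D : ℝ := dd (c.K 0 γ) y + β with hD
  have hD1 : β ≤ D := le_add_of_nonneg_left (dd_nonneg _ _)
  have hD0 : 0 < D := hyp.trans_le hD1
  obtain ⟨ψb, v0, u1, u2, hψb, hup, hlow⟩ := psi_two L c hγ y m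
  choose f0 f1 f2 M hf hM hT using fun j => zalg c hγ hy (L.Phi L.N j)
  simp only [← hβ] at hT
  set S : ℝ := ∑ j, (‖(f0 j : ℂ)‖ ^ 2 + ‖(f1 j : ℂ)‖ ^ 2 + ‖(f2 j : ℂ)‖ ^ 2) with hS
  have hS0 : 0 ≤ S := sum_nonneg fun _ _ => by positivity
  set M2 : ℝ := ∑ j, M j ^ 2 with hM2
  have hM20 : 0 ≤ M2 := sum_nonneg fun _ _ => sq_nonneg _
  have hJγ : 0 < 2 * c.J γ - γ := by unfold Cav.J; linarith [c.s_pos]
  set κ : ℝ := β * (c.J γ / (2 * c.J γ - γ) * M2) with hκ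
  have hκ0 : 0 ≤ κ := by positivity
  have hκ1 : β * M2 ≤ 2 * κ := by
    have : 1 ≤ 2 * (c.J γ / (2 * c.J γ - γ)) := by
      rw [← mul_div_assoc, le_div_iff₀ hJγ]; linarith
    have := mul_le_mul_of_nonneg_left this (mul_nonneg hyp.le hM20)
    calc _ = β * M2 * 1 := by ring
      _ ≤ _ := this
      _ = _ := by rw [hκ]; ring
  have hGz : ∀ a, cc (c.K a γ) z y * (L.GN (c.K a γ) z / dd (c.K a γ) z) =
      dd (c.K a γ) z * κ := fun a => by
    have hd := (dd_pos c hγp a).ne'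
    have hz := norm_pos_iff.2 (z_ne c hγ a)
    have e : L.GN (c.K a γ) z = dd (c.K a γ) z * (c.J γ / (2 * c.J γ - γ) * M2) := by
      rw [Lat.GN, Gn]
      simp only [hM, mul_pow, ← mul_sum, ← hM2]
      rw [c.nu_y a γ hγ, c.dd_y a γ hγ]
      field_simp
    rw [e, cc_eq c hγ a hy, ← hβ, hκ]
    field_simp
  have hGb : BM fun a => W a * (L.psi (c.K a γ) y m * (L.GN (c.K a γ) y + κ)) :=
    hW.mul (bm_K c ((L.nice_psi y m).mul ((L.nice_GN y).add (Nice.const κ))) hγ)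
  have hG0 : ∀ a, 0 ≤ W a * (L.psi (c.K a γ) y m * (L.GN (c.K a γ) y + κ)) := fun a =>
    mul_nonneg (hW1 a).1 (mul_nonneg (psi_nonneg L _ _ _) (add_nonneg (GN_nonneg L _ _) hκ0))
  have key := ht L.P z c a0 b γ (33 * 66 / c1 * Cr * C1 ^ 2)
    (C1 * Wb * (33 / D * (S + 66 * D * κ))) ψb v0
    (fun a => L.psi (c.K a γ) y m)
    (fun a => W a * (L.psi (c.K a γ) y m * L.ph (c.K a γ) z y))
    (fun a => W a * (L.psi (c.K a γ) y m * (L.GN (c.K a γ) y + κ)))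
    hb hγ (by positivity) (by positivity) hψb (bm_K c (L.nice_psi y m) hγ) hGb
    (fun a => psi_nonneg L _ _ _) hG0 hup ?_ ?_
  · refine key.trans (le_of_eq ?_)
    simp only [hGz]
    rw [← mul_assoc Ct]
    congr 2; funext a; ring
  · intro a
    refine ⟨mul_nonneg (hW1 a).1 (mul_nonneg (psi_nonneg L _ _ _) (ph_nonneg L _ _ _)), ?_⟩
    have hy1 : D ≤ 33 * (dd (c.K a γ) y + β) := D_cmp c hγ _ _ hy
    have hdy := dd_nonneg (c.K a γ) y
    have hdz := dd_pos c hγp a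
    have h1 : β * L.T2 (c.K a γ) z y ≤ dd (c.K a γ) z * (S + 66 * D * κ) := by
      have e1 : β * L.T2 (c.K a γ) z y ≤ dd (c.K a γ) z * (S + 12 * β ^ 2 * M2) := by
        rw [Lat.T2, hS, hM2, mul_sum, mul_sum, ← sum_add_distrib, mul_sum]
        refine sum_le_sum fun j _ => (hT j a).trans (mul_le_mul_of_nonneg_left ?_ hdz.le)
        simp only [Complex.norm_real, Real.norm_eq_abs, sq_abs]
        linarith [sq_nonneg (f0 j)]
      refine e1.trans (mul_le_mul_of_nonneg_left ?_ hdz.le)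
      have := mul_le_mul hD1 hκ1 (by positivity) hD0.le
      nlinarith [mul_nonneg hD0.le hκ0]
    have h2 : L.ph (c.K a γ) z y ≤ dd (c.K a γ) z * (33 / D * (S + 66 * D * κ)) := by
      have e : L.ph (c.K a γ) z y = β * L.T2 (c.K a γ) z y / (dd (c.K a γ) y + β) := by
        rw [Lat.ph, cc_eq c hγ _ hy, ← hβ]
        field_simp
      rw [e, div_le_iff₀ (by positivity)]
      refine h1.trans ?_
      have : 1 ≤ 33 / D * (dd (c.K a γ) y + β) := by
        rw [div_mul_eq_mul_div, le_div_iff₀ hD0]; linarith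
      have := mul_le_mul_of_nonneg_left this
        (by positivity : 0 ≤ dd (c.K a γ) z * (S + 66 * D * κ))
      calc _ = dd (c.K a γ) z * (S + 66 * D * κ) * 1 := by ring
        _ ≤ _ := this
        _ = _ := by ring
    have h3 := mul_le_mul (hW1 a).2 (mul_le_mul_of_nonneg_left h2 (psi_nonneg L (c.K a γ) y m))
      (mul_nonneg (psi_nonneg L _ _ _) (ph_nonneg L _ _ _)) (by positivity)
    calc _ ≤ _ := h3
      _ = _ := by ring
  · have hm : Measurable fun t : ℝ => c.s.re + c.J γ * t := by fun_prop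
    have h := hr _ (fun j => (f0 j : ℂ)) (fun j => (f1 j : ℂ)) (fun j => (f2 j : ℂ)) ![u1, u2, u0]
      _ (c1 * (ψb * (Wb / C1) / (66 * D))) (66 * D * κ) (hGb.comp hm) (fun t => hG0 _)
      (by positivity) (by positivity) ?_
    · have := mul_le_mul_of_nonneg_left h (by positivity : 0 ≤ 33 * 66 / c1 * C1 ^ 2)
      calc _ = 33 * 66 / c1 * C1 ^ 2 *
            (c1 * (ψb * (Wb / C1) / (66 * D)) * (S + 66 * D * κ)) := by field_simp
        _ ≤ _ := this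
        _ = _ := by ring
    intro t hj
    have p1 := hlow t l hl.le (hj 0) (hj 1)
    have p2 : Wb / C1 * l ^ 2 ≤ W (c.s.re + c.J γ * t) := by
      have := hW2 (c.s.re + c.J γ * t)
      rw [J_z c hγ] at this
      rw [div_mul_eq_mul_div, div_le_iff₀ hC0, mul_comm _ C1]
      exact (mul_le_mul_of_nonneg_left (pow_le_pow_left₀ hl.le (hj 2) 2) hWb).trans this
    have e : ∀ j, ‖(f0 j : ℂ) + f1 j * (uu t).re + f2 j * (uu t).im‖ ^ 2 =
        mv (L.Phi L.N j) (c.K (c.s.re + c.J γ * t) γ) y ^ 2 := fun j => by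
      rw [hf, ← sq_abs (_ + _), ← Real.norm_eq_abs, ← Complex.norm_real]; push_cast; rfl
    simp only [e]
    set K := c.K (c.s.re + c.J γ * t) γ with hK
    have hy1 : dd K y + β ≤ 33 * D := D_cmp c hγ _ _ hy
    have p3 : ∑ j, mv (L.Phi L.N j) K y ^ 2 + 66 * D * κ ≤ 66 * D * (L.GN K y + κ) := by
      have := mv_sq_le (L.Phi L.N) K y
      have h2 := mul_le_mul_of_nonneg_right (by linarith : 2 * dd K y ≤ 66 * D) (GN_nonneg L K y)
      unfold Lat.GN at h2 ⊢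
      linarith
    have hg := add_nonneg (GN_nonneg L K y) hκ0
    calc _ ≤ c1 * (ψb * (Wb / C1) / (66 * D)) * (66 * D * (L.GN K y + κ)) :=
          mul_le_mul_of_nonneg_left p3 (by positivity)
      _ = Wb / C1 * l ^ 2 * (Real.sqrt l / 2 * ψb * (L.GN K y + κ)) := by
          rw [hc1]; field_simp
      _ ≤ _ := mul_le_mul p2 (mul_le_mul_of_nonneg_right p1 hg) (by positivity) (hW1 _).1

end Crest.Agent.N334.G.S1
end
end

-- ▼ part N334/G/S1
section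

/-!
# Row 334, S0519 GAIN: static hierarchy, one-site averages
-/

set_option autoImplicit false

open MeasureTheory Finset Complex
open scoped BigOperators ComplexConjugate

noncomputable section

namespace Crest.Agent.N334.G

open Classical in
theorem stat1 : ∃ C : ℝ, 0 < C ∧ ∀ (L : Lat) (x : L.P) (c : Cav x) (a0 b γ i : ℝ) (y z : L.P)
    (m : ℕ), 0 < b → 0 ≤ γ → y ≠ x → z ≠ x →
    ∫ a, (if Good a0 b γ c.s a then L.psi (c.K a γ) y m * (L.Om i (c.K a γ) m x z *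
        L.XX (c.K a γ) x y z) else 0) ∂law a0 b ≤
      C * ∫ a, L.psi (c.K a γ) y m * (L.Om i (c.K a γ) m x z *
        (dd (c.K a γ) x * L.ph (c.K a γ) z y)) ∂law a0 b := S1.stat1'
open Classical in
theorem stat2 : ∃ C : ℝ, 0 < C ∧ ∀ (L : Lat) (z : L.P) (c : Cav z) (a0 b γ : ℝ) (y : L.P)
    (m : ℕ) (W : ℝ → ℝ) (Wb C1 : ℝ) (u0 : ℂ), 0 < b → 0 ≤ γ → y ≠ z → BM W → 1 ≤ C1 → 0 ≤ Wb →
    (∀ a, 0 ≤ W a ∧ W a ≤ C1 * Wb) → (∀ a, Wb * ‖(c.J γ : ℂ) * c.z a γ - u0‖ ^ 2 ≤ C1 * W a) →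
    ∫ a, (if Good a0 b γ c.s a then W a * (L.psi (c.K a γ) y m * L.ph (c.K a γ) z y) else 0)
        ∂law a0 b ≤
      C * C1 ^ 2 * ∫ a, W a * (L.psi (c.K a γ) y m * (dd (c.K a γ) z * L.GN (c.K a γ) y +
        cc (c.K a γ) z y * (L.GN (c.K a γ) z / dd (c.K a γ) z))) ∂law a0 b := S1.stat2'

end Crest.Agent.N334.G
end
end

-- ▼ part N334/G/S0
section

/-!
# Row 334, S0519 GAIN: static hierarchy, lifting and pointwise bounds (helper85)
-/

set_option autoImplicit false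

open MeasureTheory Finset Complex
open scoped BigOperators ComplexConjugate

noncomputable section

namespace Crest.Agent.N334.G.S0
open S1

open Classical in
/-- real indicator of a proposition -/
def ind (p : Prop) : ℝ := if p then 1 else 0

theorem ind_pos {p : Prop} (h : p) : ind p = 1 := by simp [ind, h]
theorem ind_neg {p : Prop} (h : ¬p) : ind p = 0 := by simp [ind, h]
theorem ind_nonneg (p : Prop) : 0 ≤ ind p := by
  by_cases h : p
  · rw [ind_pos h]; exact zero_le_one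
  · rw [ind_neg h]
theorem ind_le_one (p : Prop) : ind p ≤ 1 := by
  by_cases h : p
  · rw [ind_pos h]
  · rw [ind_neg h]; exact zero_le_one
theorem ind_mul_le (p : Prop) {r : ℝ} (hr : 0 ≤ r) : ind p * r ≤ r :=
  mul_le_of_le_one_left hr (ind_le_one p)

open Classical in
theorem bm_ind {α : Type} [MeasurableSpace α] {p : α → Prop} (hp : MeasurableSet {a | p a}) :
    BM fun a => ind (p a) := BM.ite hp (BM.const 1) (BM.const 0)
open Classical in
theorem nice_ind {P : Type} [Fintype P] {p : (P → P → ℂ) → Prop} (hp : MeasurableSet {K | p K}) :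
    Nice fun K => ind (p K) := Nice.ite hp (Nice.const 1) (Nice.const 0)

/-- the matrix of the static ensemble -/
abbrev KK {L : Lat} (st : Stat L) (a : L.X → ℝ) : L.Mat := L.Km st.E st.η st.γ a

theorem bmK {L : Lat} (st : Stat L) {F : L.Mat → ℝ} (hF : Nice F) : BM fun a => F (KK st a) :=
  st.bm_Km hF st.γ_nonneg
theorem bm_Gd {L : Lat} (st : Stat L) (x : L.X) : BM fun a => ind (x ∈ st.Gd a) :=
  bm_ind (st.measurableSet_Gd x)
theorem bm_nGd {L : Lat} (st : Stat L) (x : L.X) : BM fun a => ind (x ∉ st.Gd a) :=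
  bm_ind (st.measurableSet_Gd x).compl
theorem portK {L : Lat} (st : Stat L) (a : L.X → ℝ) : IsPort (KK st a) :=
  L.port_Km st.E st.η_pos st.γ_nonneg a

open Classical in
/-- a one-site estimate on a good site lifts, with cavity-stable cut-offs -/
theorem liftK {L : Lat} (st : Stat L) {x : L.X} (hx : x ∈ st.Y) {q q' : L.Mat → Prop}
    (hq : MeasurableSet {K | q K}) (hq' : MeasurableSet {K | q' K}) {F G : L.Mat → ℝ}
    (hF : Nice F) (hG : Nice G) (hF0 : ∀ K, 0 ≤ F K) (hG0 : ∀ K, 0 ≤ G K) {C : ℝ} (hC : 0 ≤ C)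
    (hqq : ∀ (c : Cav ((x, true) : L.P)) t t', q (c.K t (st.γ x)) → q' (c.K t' (st.γ x)))
    (h : ∀ c : Cav ((x, true) : L.P),
      ∫ t, (if Good (st.a0 x) (st.b x) (st.γ x) c.s t then F (c.K t (st.γ x)) else 0)
        ∂law (st.a0 x) (st.b x) ≤ C * ∫ t, G (c.K t (st.γ x)) ∂law (st.a0 x) (st.b x)) :
    st.Ia (fun a => ind (x ∈ st.Gd a) * (ind (q (KK st a)) * F (KK st a))) ≤
      C * st.Ia (fun a => ind (q' (KK st a)) * G (KK st a)) := by
  rw [← st.Ia_mul]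
  refine st.lift ((bm_Gd st x).mul (bmK st ((nice_ind hq).mul hF)))
    ((bmK st ((nice_ind hq').mul hG)).const_mul C) x fun a => ?_
  obtain ⟨c, -, hK, -, hGd⟩ := st.cav a hx
  obtain ⟨hmu, hb, -, -⟩ := st.hY x hx
  have := law_prob (st.a0 x) hb
  simp only [KK, hK, hGd, hmu]
  by_cases hex : ∃ t, q (c.K t (st.γ x))
  · obtain ⟨t0, ht0⟩ := hex
    simp only [ind_pos (hqq c t0 _ ht0), one_mul, integral_const_mul]
    refine le_trans ?_ (h c)
    refine integral_mono_of_nonneg (ae_of_all _ fun t => ?_)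
      ((BM.ite (measurableSet_good' _ _ _ c.s) (bm_K c hF (st.γ_nonneg x))
        (BM.const 0)).integrable _) (ae_of_all _ fun t => ?_)
    · exact mul_nonneg (ind_nonneg _) (mul_nonneg (ind_nonneg _) (hF0 _))
    · by_cases hg : Good (st.a0 x) (st.b x) (st.γ x) c.s t
      · simp only [ind_pos hg, if_pos hg, one_mul]; exact ind_mul_le _ (hF0 _)
      · simp only [ind_neg hg, if_neg hg, zero_mul, le_refl]
  · push Not at hex
    simp only [ind_neg (hex _), zero_mul, mul_zero, integral_zero]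
    exact integral_nonneg fun t => mul_nonneg hC (mul_nonneg (ind_nonneg _) (hG0 _))

theorem Ia_sum_le {L : Lat} (st : Stat L) {ι : Type} (s : Finset ι) {F : ι → (L.X → ℝ) → ℝ}
    {H : (L.X → ℝ) → ℝ} (hF : ∀ i ∈ s, BM (F i)) (hH : BM H) (D : ℝ)
    (h : ∀ a, ∑ i ∈ s, F i a ≤ D * H a) : ∑ i ∈ s, st.Ia (F i) ≤ D * st.Ia H := by
  rw [← st.Ia_sum s hF, ← st.Ia_mul]
  exact st.Ia_mono (BM.sum s hF) (hH.const_mul D) h

theorem Ia_sum2_le {L : Lat} (st : Stat L) {ι : Type} (s : Finset ι) (t : ι → Finset ι)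
    {F : ι → ι → (L.X → ℝ) → ℝ} {H : (L.X → ℝ) → ℝ} (hF : ∀ i j, BM (F i j)) (hH : BM H) (D : ℝ)
    (h : ∀ a, ∑ i ∈ s, ∑ j ∈ t i, F i j a ≤ D * H a) :
    ∑ i ∈ s, ∑ j ∈ t i, st.Ia (F i j) ≤ D * st.Ia H := by
  rw [sum_congr rfl fun i _ => (st.Ia_sum (t i) fun j _ => hF i j).symm]
  exact Ia_sum_le st s (fun i _ => BM.sum _ fun j _ => hF i j) hH D h

/-! ### cavity-stable quantities -/

theorem kap_osc : ∃ C0 : ℝ, 0 < C0 ∧ ∀ (L : Lat) (x : L.P) (c : Cav x) (Λ2 γ t t' : ℝ) (c0 : L.X)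
    (m : ℕ), 1 ≤ Λ2 → 0 ≤ γ → L.kap Λ2 c0 m (c.K t' γ) ≤ L.kap Λ2 c0 m (c.K t γ) + C0 := by
  obtain ⟨C, hC, h⟩ := en_osc
  refine ⟨C, hC, fun L x c Λ2 γ t t' c0 m hΛ hγ => ?_⟩
  obtain ⟨F, hF1, hF⟩ := exists_stereo L c0 (R2 := Λ2 * 4 ^ m) (by positivity)
  have := h L.P x c _ F t t' γ γ hγ hγ fun p q => by
    calc wt F p q ≤ ∑ j, (2 * F j p ^ 2 + 2 * F j q ^ 2) :=
          sum_le_sum fun j _ => by nlinarith [sq_nonneg (F j p + F j q)]
      _ = 4 := by rw [sum_add_distrib, ← mul_sum, ← mul_sum, hF1, hF1]; norm_num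
  rw [hF] at this
  unfold Lat.kap
  linarith [(abs_le.1 this).2]

theorem th_const (L : Lat) {x : L.P} (c : Cav x) {γ : ℝ} (hγ : 0 ≤ γ) (t t' : ℝ) (m : ℕ) :
    L.th (c.K t γ) x m = L.th (c.K t' γ) x m := by
  have key : ∀ t, L.th (c.K t γ) x m = if γ = 0 then 0 else c.V (L.wh m) / c.J γ := fun t => by
    rw [Lat.th, Lat.nn, c.Gam_y t γ hγ (L.wh_self m x), c.dd_y t γ hγ]
    split_ifs with h
    · simp [h]
    · have := norm_pos_iff.2 (z_ne c hγ t)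
      have := c.J_pos hγ
      field_simp
  rw [key, key]

/-- the weight that dominates `d_x Om` -/
def WW (L : Lat) (i : ℝ) (K : L.Mat) (m : ℕ) (x z : L.P) : ℝ :=
  L.nn K x m * (Real.exp i * L.th K z m + cc K x z / (dd K x * dd K z + cc K x z))
def RR (L : Lat) (K : L.Mat) (z y : L.P) : ℝ :=
  dd K z * L.GN K y + cc K z y * (L.GN K z / dd K z)
def HH (L : Lat) (Y Gd : Finset L.X) (K : L.Mat) (y : L.P) : ℝ :=
  L.GN K y + ∑ z ∈ Y, cc K (z, true) y * (L.GN K (z, true) / dd K (z, true)) +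
    ∑ z ∈ Y, ind (z ∉ Gd) * L.T2 K (z, true) y

section
variable (L : Lat)

theorem fr_bd (K : L.Mat) (x z : L.P) : 0 ≤ cc K x z / (dd K x * dd K z + cc K x z) ∧
    cc K x z / (dd K x * dd K z + cc K x z) ≤ 1 := by
  have h1 := cc_nonneg K x z
  have h2 := mul_nonneg (dd_nonneg K x) (dd_nonneg K z)
  exact ⟨by positivity, div_le_one_of_le₀ (by linarith) (by positivity)⟩

theorem WW_nonneg (i : ℝ) (K : L.Mat) (m : ℕ) (x z : L.P) : 0 ≤ WW L i K m x z :=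
  mul_nonneg (nn_nonneg L K x m) (add_nonneg
    (mul_nonneg (Real.exp_pos i).le (L.th_nonneg K z m)) (fr_bd L K x z).1)

theorem CG_nonneg (K : L.Mat) (z y : L.P) : 0 ≤ cc K z y * (L.GN K z / dd K z) :=
  mul_nonneg (cc_nonneg _ _ _) (div_nonneg (GN_nonneg L _ _) (dd_nonneg _ _))

theorem RR_nonneg (K : L.Mat) (z y : L.P) : 0 ≤ RR L K z y :=
  add_nonneg (mul_nonneg (dd_nonneg _ _) (GN_nonneg L _ _)) (CG_nonneg L K z y)

theorem nice_WW (i : ℝ) (m : ℕ) (x z : L.P) : Nice fun K => WW L i K m x z :=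
  (L.nice_nn x m).mul (((Nice.const _).mul (L.nice_th z m)).add
    (Nice.div (M := 1) (nice_cc x z).meas
      (((nice_dd x).mul (nice_dd z)).add (nice_cc x z)).meas fun K _ => by
        rw [abs_of_nonneg (fr_bd L K x z).1]; exact (fr_bd L K x z).2))

theorem nice_CG (z y : L.P) : Nice fun K => cc K z y * (L.GN K z / dd K z) := by
  have h := (Nice.div (M := 1) (nice_cc z y).meas (nice_dd z).meas fun K _ => by
    rw [abs_of_nonneg (div_nonneg (cc_nonneg K z y) (dd_nonneg K z))]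
    exact div_le_one_of_le₀ (cc_le_dd K z y) (dd_nonneg K z)).mul (L.nice_GN z)
  convert h using 2
  ring

theorem nice_RR (z y : L.P) : Nice fun K => RR L K z y :=
  ((nice_dd z).mul (L.nice_GN y)).add (nice_CG L z y)

theorem WW_cav (i : ℝ) (m : ℕ) {z : L.P} (c : Cav z) {γ : ℝ} (hγ : 0 ≤ γ) {x : L.P} (hx : x ≠ z) :
    ∃ (Wb : ℝ) (u0 : ℂ), 0 ≤ Wb ∧
      (∀ a, 0 ≤ WW L i (c.K a γ) m x z ∧ WW L i (c.K a γ) m x z ≤ 66 * Wb) ∧
      ∀ a, Wb * ‖(c.J γ : ℂ) * c.z a γ - u0‖ ^ 2 ≤ 66 * WW L i (c.K a γ) m x z := by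
  rcases hγ.eq_or_lt with rfl | hγp
  · have h0 : ∀ a, WW L i (c.K a 0) m x z = 0 := fun a => by
      rw [WW, Lat.th, (c.port a le_rfl).cc_symm x z, cc_eq c le_rfl a hx, dd_zero]; simp
    exact ⟨0, 0, le_rfl, fun a => by simp [h0], fun a => by simp [h0]⟩
  have hJ := c.J_pos hγ
  set β : ℝ := ‖c.rho x‖ ^ 2 / c.J γ with hβ
  have hβ0 : 0 ≤ β := by positivity
  set θ : ℝ := Real.exp i * L.th (c.K 0 γ) z m with hθ
  have hθ0 : 0 ≤ θ := mul_nonneg (Real.exp_pos i).le (L.th_nonneg _ _ _)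
  have hW : ∀ a, WW L i (c.K a γ) m x z =
      L.nn (c.K a γ) x m * (θ + β / (dd (c.K a γ) x + β)) := fun a => by
    have hd := (dd_pos c hγp a).ne'
    rw [WW, th_const L c hγ a 0, (c.port a hγ).cc_symm x z, cc_eq c hγ a hx, ← hβ, ← hθ,
      mul_comm (dd (c.K a γ) x), ← mul_add, mul_div_mul_left _ _ hd]
  have hc : ∀ a a', β / (dd (c.K a γ) x + β) ≤ 33 * (β / (dd (c.K a' γ) x + β)) := fun a a' => by
    rcases hβ0.eq_or_lt with h | h
    · rw [← h]; simp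
    · have h1 := dd_nonneg (c.K a γ) x
      have h2 := dd_nonneg (c.K a' γ) x
      rw [← mul_div_assoc (33 : ℝ), div_le_div_iff₀ (by positivity) (by positivity)]
      have := mul_le_mul_of_nonneg_left (D_cmp c hγ a' a hx) hβ0
      calc _ ≤ _ := this
        _ = _ := by rw [← hβ]; ring
  have hf0 : ∀ a, 0 ≤ β / (dd (c.K a γ) x + β) := fun a =>
    div_nonneg hβ0 (add_nonneg (dd_nonneg _ _) hβ0)
  obtain ⟨nb, hn, -⟩ := c.aff_Gam hγ (L.wh_nonneg m) x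
  obtain ⟨hnb, hn2, u0, hu0⟩ := hn.le_two fun t => Gam_nonneg (L.wh_nonneg m) _ _
  refine ⟨nb * (θ + β / (dd (c.K 0 γ) x + β)), u0, mul_nonneg hnb (add_nonneg hθ0 (hf0 0)),
    fun a => ⟨WW_nonneg L _ _ _ _ _, ?_⟩, fun a => ?_⟩
  · obtain ⟨t, rfl⟩ : ∃ t, a = c.s.re + c.J γ * t := ⟨_, (arc_back c hγ a).symm⟩
    rw [hW]
    have := mul_le_mul (hn2 t) (show θ + β / (dd (c.K (c.s.re + c.J γ * t) γ) x + β) ≤
      33 * (θ + β / (dd (c.K 0 γ) x + β)) by linarith [hc (c.s.re + c.J γ * t) 0])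
      (add_nonneg hθ0 (hf0 _)) (by positivity)
    calc _ ≤ _ := this
      _ = _ := by ring
  · obtain ⟨t, rfl⟩ : ∃ t, a = c.s.re + c.J γ * t := ⟨_, (arc_back c hγ a).symm⟩
    rw [hW, J_z c hγ]
    have := mul_le_mul (hu0 t) (show θ + β / (dd (c.K 0 γ) x + β) ≤
      66 * (θ + β / (dd (c.K (c.s.re + c.J γ * t) γ) x + β)) by
        linarith [hc 0 (c.s.re + c.J γ * t), hf0 (c.s.re + c.J γ * t)])
      (add_nonneg hθ0 (hf0 _)) (nn_nonneg L _ _ _)
    calc _ = nb * ‖uu t - u0‖ ^ 2 * (θ + β / (dd (c.K 0 γ) x + β)) := by ring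
      _ ≤ _ := this
      _ = _ := by unfold Lat.nn; ring

/-! ### pointwise bounds -/

theorem sum_act_le {g : L.P → ℝ} (hg : ∀ p, 0 ≤ g p) (Z : Finset L.X) :
    ∑ z ∈ Z, g (z, true) ≤ ∑ p, g p := by
  rw [Fintype.sum_prod_type]
  refine le_trans (sum_le_sum_of_subset_of_nonneg (subset_univ Z) fun x _ _ => hg _)
    (sum_le_sum fun x _ => ?_)
  exact single_le_sum (f := fun b => g (x, b)) (fun b _ => hg _) (mem_univ true)

theorem dd_le_nn {i : ℝ} {K : L.Mat} {x : L.P} {m : ℕ} (h : Real.exp (-i) ≤ L.th K x m) :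
    dd K x ≤ Real.exp i * L.nn K x m := by
  rw [← L.th_mul, ← mul_assoc]
  refine le_mul_of_one_le_left (dd_nonneg K x) ?_
  have := mul_le_mul_of_nonneg_left h (Real.exp_pos i).le
  rwa [← Real.exp_add, add_neg_cancel, Real.exp_zero] at this

theorem Om_le {K : L.Mat} (hK : IsPort K) (i : ℝ) (m : ℕ) (x z : L.P) :
    L.Om i K m x z ≤ Real.exp i * L.th K z m + cc K x z / (dd K x * dd K z + cc K x z) := by
  have hx := dd_nonneg K x
  have hc := cc_nonneg K x z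
  have hn := nn_nonneg L K z m
  have he := Real.exp_pos i
  rcases (dd_nonneg K z).eq_or_lt with h | h
  · have h1 : cc K x z = 0 := le_antisymm (by rw [hK.cc_symm, h]; exact cc_le_dd K z x) hc
    rw [Lat.Om, Lat.th, h1, ← h]; simp
  rw [Lat.Om, add_div, Lat.th]
  refine add_le_add ?_ ?_
  · rw [← mul_div_assoc]
    exact div_le_div_of_nonneg_left (by positivity) h (le_add_of_nonneg_right (by positivity))
  · rcases hx.eq_or_lt with h' | h'
    · have h1 : cc K x z = 0 := le_antisymm (by rw [h']; exact cc_le_dd K x z) hc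
      rw [h1]; simp
    · refine le_of_eq ?_
      field_simp

theorem ph_le_T2 (K : L.Mat) (z y : L.P) : L.ph K z y ≤ L.T2 K z y := by
  rw [Lat.ph, mul_div_right_comm]
  exact mul_le_of_le_one_left (T2_nonneg L K z y) (fr_bd L K z y).2

theorem WW_le (i : ℝ) (K : L.Mat) (m : ℕ) (x z : L.P) :
    WW L i K m x z ≤ L.nn K x m * (67 * Real.exp i + 1) := by
  refine mul_le_mul_of_nonneg_left (add_le_add ?_ (fr_bd L K x z).2) (nn_nonneg L K x m)
  rw [mul_comm 67]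
  exact mul_le_mul_of_nonneg_left (L.th_le K z m) (Real.exp_pos i).le

theorem WW_dd (i : ℝ) (K : L.Mat) (m : ℕ) (x z : L.P) :
    WW L i K m x z * dd K z ≤ L.nn K x m * (Real.exp i * L.nn K z m + cc K x z / dd K x) := by
  rw [WW, mul_assoc, add_mul, mul_assoc, L.th_mul]
  refine mul_le_mul_of_nonneg_left (add_le_add le_rfl ?_) (nn_nonneg L K x m)
  have hc := cc_nonneg K x z
  have hz := dd_nonneg K z
  rcases (dd_nonneg K x).eq_or_lt with h | h
  · have h1 : cc K x z = 0 := le_antisymm (by rw [h]; exact cc_le_dd K x z) hc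
    rw [h1]; simp
  rcases (by positivity : 0 ≤ dd K x * dd K z + cc K x z).eq_or_lt with h' | h'
  · rw [← h']; simp only [div_zero, zero_mul]; positivity
  rw [div_mul_eq_mul_div, div_le_div_iff₀ h' h]
  nlinarith [sq_nonneg (cc K x z)]

theorem sum_WW_dd (i : ℝ) (K : L.Mat) (m : ℕ) (Z : Finset L.X) {n0 : ℝ}
    (hn : ∑ x ∈ Z, L.nn K (x, true) m ≤ n0) :
    ∑ x ∈ Z, ∑ z ∈ Z, WW L i K m (x, true) (z, true) * dd K (z, true) ≤
      Real.exp i * n0 ^ 2 + n0 := by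
  have h0 : 0 ≤ n0 := le_trans (sum_nonneg fun x _ => nn_nonneg L K _ m) hn
  have he := Real.exp_pos i
  calc _ ≤ ∑ x ∈ Z, L.nn K (x, true) m * (Real.exp i * n0 + 1) := by
        refine sum_le_sum fun x _ => le_trans (sum_le_sum fun z _ => WW_dd L i K m _ _) ?_
        rw [← mul_sum, sum_add_distrib, ← mul_sum, ← sum_div]
        refine mul_le_mul_of_nonneg_left (add_le_add (mul_le_mul_of_nonneg_left hn he.le)
          (div_le_one_of_le₀ ?_ (dd_nonneg _ _))) (nn_nonneg L K _ m)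
        exact sum_act_le L (cc_nonneg K (x, true)) Z
    _ ≤ n0 * (Real.exp i * n0 + 1) := by
        rw [← sum_mul]; exact mul_le_mul_of_nonneg_right hn (by positivity)
    _ = _ := by ring

theorem sum_WW_mul (i : ℝ) (K : L.Mat) (m : ℕ) {Z Y : Finset L.X} (hZ : Z ⊆ Y) {n0 : ℝ}
    (hn : ∑ x ∈ Z, L.nn K (x, true) m ≤ n0) {g : L.X → ℝ} (hg : ∀ z, 0 ≤ g z) :
    ∑ x ∈ Z, ∑ z ∈ Z, WW L i K m (x, true) (z, true) * g z ≤
      (67 * Real.exp i + 1) * n0 * ∑ z ∈ Y, g z := by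
  have h0 : 0 ≤ n0 := le_trans (sum_nonneg fun x _ => nn_nonneg L K _ m) hn
  have he := Real.exp_pos i
  have hs : 0 ≤ ∑ z ∈ Y, g z := sum_nonneg fun z _ => hg z
  calc _ ≤ ∑ x ∈ Z, L.nn K (x, true) m * ((67 * Real.exp i + 1) * ∑ z ∈ Y, g z) := by
        refine sum_le_sum fun x _ => le_trans (sum_le_sum fun z _ =>
          mul_le_mul_of_nonneg_right (WW_le L i K m _ _) (hg z)) ?_
        rw [← mul_sum, ← mul_assoc]
        exact mul_le_mul_of_nonneg_left (sum_le_sum_of_subset_of_nonneg hZ fun z _ _ => hg z)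
          (mul_nonneg (nn_nonneg L K _ m) (by positivity))
    _ ≤ n0 * ((67 * Real.exp i + 1) * ∑ z ∈ Y, g z) := by
        rw [← sum_mul]; exact mul_le_mul_of_nonneg_right hn (by positivity)
    _ = _ := by ring

theorem HH_parts (Y Gd : Finset L.X) (K : L.Mat) (y : L.P) :
    0 ≤ L.GN K y ∧ 0 ≤ ∑ z ∈ Y, cc K (z, true) y * (L.GN K (z, true) / dd K (z, true)) ∧
      0 ≤ ∑ z ∈ Y, ind (z ∉ Gd) * L.T2 K (z, true) y :=
  ⟨GN_nonneg L K y, sum_nonneg fun _ _ => CG_nonneg L K _ _,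
    sum_nonneg fun _ _ => mul_nonneg (ind_nonneg _) (T2_nonneg L K _ _)⟩

theorem HH_nonneg (Y Gd : Finset L.X) (K : L.Mat) (y : L.P) : 0 ≤ HH L Y Gd K y := by
  obtain ⟨h1, h2, h3⟩ := HH_parts L Y Gd K y
  exact add_nonneg (add_nonneg h1 h2) h3

theorem P2 {Y Z : Finset L.X} (hZ : Z ⊆ Y) (Gd : Finset L.X) (i : ℝ) (K : L.Mat) (m : ℕ) (y : L.P)
    {q : Prop} {n0 ψ : ℝ} (h0 : 0 ≤ n0) (hψ : 0 ≤ ψ) (hn : q → ∑ x ∈ Z, L.nn K (x, true) m ≤ n0) :
    ∑ x ∈ Z, ind (q ∧ Real.exp (-i) ≤ L.th K (x, true) m) * (ψ * RR L K (x, true) y) ≤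
      (Real.exp i * n0 + 1) * (ψ * HH L Y Gd K y) := by
  obtain ⟨h1, h2, h3⟩ := HH_parts L Y Gd K y
  have he := Real.exp_pos i
  have hH := HH_nonneg L Y Gd K y
  by_cases hq : q
  swap
  · simp only [hq, false_and, ind_neg not_false, zero_mul, sum_const_zero]; positivity
  calc _ ≤ ∑ x ∈ Z, ψ * (Real.exp i * L.nn K (x, true) m * L.GN K y +
        cc K (x, true) y * (L.GN K (x, true) / dd K (x, true))) := by
        refine sum_le_sum fun x _ => ?_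
        have := CG_nonneg L K (x, true) y
        by_cases ht : Real.exp (-i) ≤ L.th K (x, true) m
        · rw [ind_pos ⟨hq, ht⟩, one_mul]
          exact mul_le_mul_of_nonneg_left
            (add_le_add (mul_le_mul_of_nonneg_right (dd_le_nn L ht) h1) le_rfl) hψ
        · rw [ind_neg fun h => ht h.2, zero_mul]
          have := nn_nonneg L K (x, true) m
          positivity
    _ ≤ ψ * (Real.exp i * n0 * L.GN K y +
        ∑ z ∈ Y, cc K (z, true) y * (L.GN K (z, true) / dd K (z, true))) := by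
        rw [← mul_sum, sum_add_distrib, ← sum_mul, ← mul_sum]
        exact mul_le_mul_of_nonneg_left (add_le_add (mul_le_mul_of_nonneg_right
          (mul_le_mul_of_nonneg_left (hn hq) he.le) h1)
          (sum_le_sum_of_subset_of_nonneg hZ fun z _ _ => CG_nonneg L K _ _)) hψ
    _ ≤ ψ * ((Real.exp i * n0 + 1) * HH L Y Gd K y) := by
        refine mul_le_mul_of_nonneg_left ?_ hψ
        have := mul_nonneg he.le h0
        unfold HH
        nlinarith [mul_nonneg this h2, mul_nonneg this h3]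
    _ = _ := by ring

theorem sum_erase_le {Z : Finset L.X} {g : L.X → L.X → ℝ} (hg : ∀ x z, 0 ≤ g x z) :
    ∑ x ∈ Z, ∑ z ∈ Z.erase x, g x z ≤ ∑ x ∈ Z, ∑ z ∈ Z, g x z :=
  sum_le_sum fun x _ => sum_le_sum_of_subset_of_nonneg (erase_subset x Z) fun z _ _ => hg x z

theorem P3g {Y Z : Finset L.X} (hZ : Z ⊆ Y) (Gd : Finset L.X) (i : ℝ) (K : L.Mat) (m : ℕ) (y : L.P)
    {q : Prop} {n0 ψ : ℝ} (h0 : 0 ≤ n0) (hψ : 0 ≤ ψ) (hn : q → ∑ x ∈ Z, L.nn K (x, true) m ≤ n0) :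
    ∑ x ∈ Z, ∑ z ∈ Z.erase x,
      ind q * (WW L i K m (x, true) (z, true) * (ψ * RR L K (z, true) y)) ≤
      (Real.exp i * n0 ^ 2 + n0 + (67 * Real.exp i + 1) * n0) * (ψ * HH L Y Gd K y) := by
  obtain ⟨h1, h2, h3⟩ := HH_parts L Y Gd K y
  have he := Real.exp_pos i
  have hH := HH_nonneg L Y Gd K y
  by_cases hq : q
  swap
  · simp only [ind_neg hq, zero_mul, sum_const_zero]; positivity
  simp only [ind_pos hq, one_mul]
  refine (sum_erase_le L fun x z => mul_nonneg (WW_nonneg L _ _ _ _ _)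
    (mul_nonneg hψ (RR_nonneg L _ _ _))).trans ?_
  have e1 := sum_WW_dd L i K m Z (hn hq)
  have e2 := sum_WW_mul L i K m hZ (hn hq) fun z => CG_nonneg L K (z, true) y
  calc _ = ψ * ((∑ x ∈ Z, ∑ z ∈ Z, WW L i K m (x, true) (z, true) * dd K (z, true)) * L.GN K y +
        ∑ x ∈ Z, ∑ z ∈ Z, WW L i K m (x, true) (z, true) *
          (cc K (z, true) y * (L.GN K (z, true) / dd K (z, true)))) := by
        simp only [sum_mul, ← sum_add_distrib, mul_sum]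
        refine sum_congr rfl fun x _ => sum_congr rfl fun z _ => ?_
        unfold RR; ring
    _ ≤ ψ * ((Real.exp i * n0 ^ 2 + n0 + (67 * Real.exp i + 1) * n0) * HH L Y Gd K y) := by
        refine mul_le_mul_of_nonneg_left
          ((add_le_add (mul_le_mul_of_nonneg_right e1 h1) e2).trans ?_) hψ
        have p1 : 0 ≤ Real.exp i * n0 ^ 2 + n0 := by positivity
        have p2 : 0 ≤ (67 * Real.exp i + 1) * n0 := by positivity
        unfold HH
        nlinarith [mul_nonneg p1 h2, mul_nonneg p1 h3, mul_nonneg p2 h1, mul_nonneg p2 h3]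
    _ = _ := by ring

theorem P3b {Y Z : Finset L.X} (hZ : Z ⊆ Y) (Gd : Finset L.X) (i : ℝ) (K : L.Mat) (m : ℕ) (y : L.P)
    {q : Prop} {n0 ψ : ℝ} (h0 : 0 ≤ n0) (hψ : 0 ≤ ψ) (hn : q → ∑ x ∈ Z, L.nn K (x, true) m ≤ n0) :
    ∑ x ∈ Z, ∑ z ∈ Z.erase x, ind (z ∉ Gd) *
      (ind q * (WW L i K m (x, true) (z, true) * (ψ * L.T2 K (z, true) y))) ≤
      (67 * Real.exp i + 1) * n0 * (ψ * HH L Y Gd K y) := by
  obtain ⟨h1, h2, h3⟩ := HH_parts L Y Gd K y
  have he := Real.exp_pos i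
  have hH := HH_nonneg L Y Gd K y
  by_cases hq : q
  swap
  · simp only [ind_neg hq, zero_mul, mul_zero, sum_const_zero]; positivity
  simp only [ind_pos hq, one_mul]
  refine (sum_erase_le L fun x z => mul_nonneg (ind_nonneg _) (mul_nonneg (WW_nonneg L _ _ _ _ _)
    (mul_nonneg hψ (T2_nonneg L _ _ _)))).trans ?_
  have e2 := sum_WW_mul L i K m hZ (hn hq) fun z =>
    mul_nonneg (ind_nonneg (z ∉ Gd)) (T2_nonneg L K (z, true) y)
  calc _ = ψ * ∑ x ∈ Z, ∑ z ∈ Z, WW L i K m (x, true) (z, true) *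
          (ind (z ∉ Gd) * L.T2 K (z, true) y) := by
        simp only [mul_sum]
        refine sum_congr rfl fun x _ => sum_congr rfl fun z _ => ?_
        ring
    _ ≤ ψ * ((67 * Real.exp i + 1) * n0 * HH L Y Gd K y) := by
        refine mul_le_mul_of_nonneg_left (e2.trans
          (mul_le_mul_of_nonneg_left ?_ (by positivity))) hψ
        unfold HH; linarith
    _ = _ := by ring

theorem P3s {K : L.Mat} (hK : IsPort K) (i : ℝ) (m : ℕ) (x y z : L.P) (q g : Prop) {ψ : ℝ}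
    (hψ : 0 ≤ ψ) :
    ind (q ∧ Real.exp (-i) ≤ L.th K x m) * (ψ * (L.Om i K m x z * (dd K x * L.ph K z y))) ≤
      Real.exp i * (ind g * (ind q * (WW L i K m x z * (ψ * L.ph K z y))) +
        ind (¬g) * (ind q * (WW L i K m x z * (ψ * L.T2 K z y)))) := by
  have he := Real.exp_pos i
  have hW := WW_nonneg L i K m x z
  have hp := ph_nonneg L K z y
  have hT := T2_nonneg L K z y
  by_cases h : q ∧ Real.exp (-i) ≤ L.th K x m
  swap
  · rw [ind_neg h, zero_mul]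
    have := ind_nonneg g
    have := ind_nonneg (¬g)
    have := ind_nonneg q
    positivity
  rw [ind_pos h, ind_pos h.1, one_mul, one_mul, one_mul]
  have h1 : L.Om i K m x z * dd K x ≤ Real.exp i * WW L i K m x z := by
    have := mul_le_mul (Om_le L hK i m x z) (dd_le_nn L h.2) (dd_nonneg K x)
      ((Om_nonneg L i K m x z).trans (Om_le L hK i m x z))
    calc _ ≤ _ := this
      _ = _ := by unfold WW; ring
  have h2 : ψ * (L.Om i K m x z * (dd K x * L.ph K z y)) ≤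
      Real.exp i * (WW L i K m x z * (ψ * L.ph K z y)) := by
    have := mul_le_mul_of_nonneg_right h1 (mul_nonneg hψ hp)
    calc _ = L.Om i K m x z * dd K x * (ψ * L.ph K z y) := by ring
      _ ≤ _ := this
      _ = _ := by ring
  refine h2.trans (mul_le_mul_of_nonneg_left ?_ he.le)
  by_cases hg : g
  · rw [ind_pos hg, ind_neg (not_not.2 hg)]; simp
  · rw [ind_neg hg, ind_pos hg, zero_mul, zero_add, one_mul]
    exact mul_le_mul_of_nonneg_left (mul_le_mul_of_nonneg_left (ph_le_T2 L K z y) hψ) hW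

end

end Crest.Agent.N334.G.S0
end
end

-- ▼ part N334/G/S01
section

/-!
# Row 334, S0519 GAIN: static hierarchy, one cell and the sum over cells (helper85)
-/

set_option autoImplicit false

open MeasureTheory Finset Complex
open scoped BigOperators ComplexConjugate

noncomputable section

namespace Crest.Agent.N334.G.S0
open S1

def Zc (L : Lat) (Y : Finset L.X) (Λ2 : ℝ) (c : L.X) (m : ℕ) (y : L.X) : Finset L.X :=
  (Y.filter fun x => L.rx x c ≤ Λ2 * 4 ^ m).erase y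

def qq (L : Lat) (i Λ2 κ : ℝ) (c : L.X) (m : ℕ) (x : L.X) (K : L.Mat) : Prop :=
  L.kap Λ2 c m K ≤ κ ∧ Real.exp (-i) ≤ L.th K (x, true) m

def cellF {L : Lat} (st : Stat L) (i Λ2 κ0 : ℝ) (c : L.X) (m : ℕ) (y : L.X) (a : L.X → ℝ) : ℝ :=
  ind (L.kap Λ2 c m (KK st a) ≤ κ0) * (L.psi (KK st a) (y, true) m * L.GN (KK st a) (y, true)) +
  ∑ x ∈ Zc L st.Y Λ2 c m y,
    (ind (x ∈ st.Gd a) * (ind (qq L i Λ2 κ0 c m x (KK st a)) *
      (L.psi (KK st a) (y, true) m * L.ph (KK st a) (x, true) (y, true))) +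
    ∑ z ∈ (Zc L st.Y Λ2 c m y).erase x, ind (x ∈ st.Gd a) * (ind (qq L i Λ2 κ0 c m x (KK st a)) *
      (L.psi (KK st a) (y, true) m * (L.Om i (KK st a) m (x, true) (z, true) *
        L.XX (KK st a) (x, true) (y, true) (z, true)))))

theorem Gd_subset {L : Lat} (st : Stat L) (a : L.X → ℝ) : st.Gd a ⊆ st.Y := by
  classical
  unfold Stat.Gd
  exact filter_subset _ _

theorem main_eq {L : Lat} (st : Stat L) (i Λ2 κ0 : ℝ) (c : L.X) (m : ℕ) (a : L.X → ℝ) :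
    (if L.kap Λ2 c m (KK st a) ≤ κ0 then L.Main st.Y (st.Gd a) i Λ2 (KK st a) c m / 4 ^ m else 0) =
      ∑ y ∈ st.Y.filter (fun y => L.rx y c ≤ 4 ^ m), 1 / 4 ^ m * cellF st i Λ2 κ0 c m y a := by
  by_cases hk : L.kap Λ2 c m (KK st a) ≤ κ0
  swap
  · have hq : ∀ x, ind (qq L i Λ2 κ0 c m x (KK st a)) = 0 := fun x => ind_neg fun h => hk h.1
    simp [cellF, hk, hq, ind_neg]
  rw [if_pos hk, Lat.Main, sum_div]
  refine sum_congr rfl fun y _ => ?_
  rw [one_div_mul_eq_div, cellF, mul_add, ind_pos hk, one_mul, mul_sum]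
  congr 2
  have e1 : ((st.Gd a).erase y).filter
      (fun x => L.rx x c ≤ Λ2 * 4 ^ m ∧ Real.exp (-i) ≤ L.th (KK st a) (x, true) m) =
      (Zc L st.Y Λ2 c m y).filter
        (fun x => x ∈ st.Gd a ∧ Real.exp (-i) ≤ L.th (KK st a) (x, true) m) := by
    ext x
    have := @Gd_subset L st a x
    simp only [Zc, mem_filter, mem_erase]
    tauto
  rw [e1, sum_filter]
  refine sum_congr rfl fun x _ => ?_
  have e2 : ((st.Y.erase y).erase x).filter (fun z => L.rx z c ≤ Λ2 * 4 ^ m) =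
      (Zc L st.Y Λ2 c m y).erase x := by
    ext z
    simp only [Zc, mem_filter, mem_erase]
    tauto
  rw [e2]
  split_ifs with h
  · rw [ind_pos h.1, ind_pos (show qq L i Λ2 κ0 c m x (KK st a) from ⟨hk, h.2⟩)]
    simp only [one_mul, mul_add, mul_sum]
  · have : ind (x ∈ st.Gd a) = 0 ∨ ind (qq L i Λ2 κ0 c m x (KK st a)) = 0 := by
      by_cases hx : x ∈ st.Gd a
      · exact Or.inr (ind_neg fun h' => h ⟨hx, h'.2⟩)
      · exact Or.inl (ind_neg hx)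
    rcases this with h | h <;> simp [h]

theorem ms_kap (L : Lat) (Λ2 κ : ℝ) (c : L.X) (m : ℕ) :
    MeasurableSet {K | L.kap Λ2 c m K ≤ κ} :=
  measurableSet_le (nice_En _).meas measurable_const

theorem ms_qq (L : Lat) (i Λ2 κ : ℝ) (c : L.X) (m : ℕ) (x : L.X) :
    MeasurableSet {K | qq L i Λ2 κ c m x K} :=
  (ms_kap L Λ2 κ c m).inter (measurableSet_le measurable_const (L.nice_th _ m).meas)

theorem bm_HH {L : Lat} (st : Stat L) (y : L.P) : BM fun a => HH L st.Y (st.Gd a) (KK st a) y :=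
  ((bmK st (L.nice_GN y)).add (BM.sum _ fun _ _ => bmK st (nice_CG L _ _))).add
    (BM.sum _ fun z _ => (bm_nGd st z).mul (bmK st (L.nice_T2 _ _)))

theorem bm_F2 {L : Lat} (st : Stat L) (i Λ2 κ0 : ℝ) (c : L.X) (m : ℕ) (y x : L.X) :
    BM fun a => ind (x ∈ st.Gd a) * (ind (qq L i Λ2 κ0 c m x (KK st a)) *
      (L.psi (KK st a) (y, true) m * L.ph (KK st a) (x, true) (y, true))) :=
  (bm_Gd st x).mul (bmK st ((nice_ind (ms_qq L i Λ2 κ0 c m x)).mul
    ((L.nice_psi _ m).mul (L.nice_ph _ _))))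

theorem bm_F3 {L : Lat} (st : Stat L) (i Λ2 κ0 : ℝ) (c : L.X) (m : ℕ) (y x z : L.X) :
    BM fun a => ind (x ∈ st.Gd a) * (ind (qq L i Λ2 κ0 c m x (KK st a)) *
      (L.psi (KK st a) (y, true) m * (L.Om i (KK st a) m (x, true) (z, true) *
        L.XX (KK st a) (x, true) (y, true) (z, true)))) :=
  (bm_Gd st x).mul (bmK st ((nice_ind (ms_qq L i Λ2 κ0 c m x)).mul
    ((L.nice_psi _ m).mul ((L.nice_Om i m _ _).mul (L.nice_XX _ _ _)))))

theorem bm_F1 {L : Lat} (st : Stat L) (Λ2 κ0 : ℝ) (c : L.X) (m : ℕ) (y : L.X) :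
    BM fun a => ind (L.kap Λ2 c m (KK st a) ≤ κ0) *
      (L.psi (KK st a) (y, true) m * L.GN (KK st a) (y, true)) :=
  bmK st ((nice_ind (ms_kap L Λ2 κ0 c m)).mul ((L.nice_psi _ m).mul (L.nice_GN _)))

theorem bm_cellF {L : Lat} (st : Stat L) (i Λ2 κ0 : ℝ) (c : L.X) (m : ℕ) (y : L.X) :
    BM (cellF st i Λ2 κ0 c m y) :=
  (bm_F1 st Λ2 κ0 c m y).add (BM.sum _ fun x _ => (bm_F2 st i Λ2 κ0 c m y x).add
    (BM.sum _ fun z _ => bm_F3 st i Λ2 κ0 c m y x z))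

theorem act_ne {L : Lat} {x y : L.X} (h : x ≠ y) : ((x, true) : L.P) ≠ (y, true) :=
  fun e => h (congrArg Prod.fst e)

theorem cell (i Λ2 : ℝ) (hΛ : 1 ≤ Λ2) : ∃ C : ℝ, 0 < C ∧ ∀ (L : Lat) (st : Stat L) (κ0 : ℝ),
    1 ≤ κ0 → ∀ (c : L.X) (m : ℕ) (y : L.X), m < L.N →
    st.Ia (cellF st i Λ2 κ0 c m y) ≤ C * κ0 ^ 2 *
      st.Ia fun a => L.psi (KK st a) (y, true) m * HH L st.Y (st.Gd a) (KK st a) (y, true) := by
  obtain ⟨C1, hC1, h1⟩ := stat1
  obtain ⟨C2, hC2, h2⟩ := stat2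
  obtain ⟨C0, hC0, h0⟩ := kap_osc
  obtain ⟨Cn, hCn, hn⟩ := sum_nn_le_kap
  have he := Real.exp_pos i
  set e := Real.exp i with hedef
  set A : ℝ := Cn * Λ2 * (1 + 2 * C0) with hA
  have hA0 : 0 < A := by positivity
  refine ⟨1 + C2 * 1 ^ 2 * (e * A + 1) + C1 * (e * (C2 * 66 ^ 2 *
    (e * A ^ 2 + A + (67 * e + 1) * A) + (67 * e + 1) * A)), by positivity, ?_⟩
  intro L st κ0 hκ c m y hm
  set Z := Zc L st.Y Λ2 c m y with hZ
  have hZY : Z ⊆ st.Y := (erase_subset _ _).trans (filter_subset _ _)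
  have hZy : ∀ x ∈ Z, x ≠ y := fun x hx => ne_of_mem_erase hx
  have hnZ : ∀ K : L.Mat, L.kap Λ2 c m K ≤ κ0 + C0 + C0 →
      ∑ x ∈ Z, L.nn K (x, true) m ≤ A * κ0 := fun K hK => by
    refine (hn L c m Λ2 K Z hm hΛ fun x hx => (mem_filter.1 (mem_of_mem_erase hx)).2).trans ?_
    rw [hA, mul_assoc (Cn * Λ2)]
    exact mul_le_mul_of_nonneg_left (by nlinarith) (by positivity)
  have hψ : ∀ K, 0 ≤ L.psi K (y, true) m := fun K => psi_nonneg L K _ m
  have nψ := L.nice_psi (y, true) m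
  have hH : BM fun a => L.psi (KK st a) (y, true) m * HH L st.Y (st.Gd a) (KK st a) (y, true) :=
    (bmK st nψ).mul (bm_HH st _)
  set I := st.Ia fun a => L.psi (KK st a) (y, true) m * HH L st.Y (st.Gd a) (KK st a) (y, true)
    with hI
  have hI0 : 0 ≤ I := st.Ia_nonneg fun a => mul_nonneg (hψ _) (HH_nonneg L _ _ _ _)
  have hosc : ∀ (x : L.X) (k : ℝ) (cv : Cav ((x, true) : L.P)) t t',
      L.kap Λ2 c m (cv.K t (st.γ x)) ≤ k → L.kap Λ2 c m (cv.K t' (st.γ x)) ≤ k + C0 :=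
    fun x k cv t t' h => (h0 L _ cv Λ2 _ t t' c m hΛ (st.γ_nonneg x)).trans (by linarith)
  have hqq : ∀ (x : L.X) (cv : Cav ((x, true) : L.P)) t t',
      qq L i Λ2 κ0 c m x (cv.K t (st.γ x)) → qq L i Λ2 (κ0 + C0) c m x (cv.K t' (st.γ x)) :=
    fun x cv t t' h => ⟨hosc x _ cv t t' h.1, th_const L cv (st.γ_nonneg x) t t' m ▸ h.2⟩
  have n0 : 0 ≤ A * κ0 := by positivity
  -- first term
  have T1 : st.Ia (fun a => ind (L.kap Λ2 c m (KK st a) ≤ κ0) *
      (L.psi (KK st a) (y, true) m * L.GN (KK st a) (y, true))) ≤ I := by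
    refine st.Ia_mono (bm_F1 st Λ2 κ0 c m y) hH fun a => ?_
    obtain ⟨p1, p2, p3⟩ := HH_parts L st.Y (st.Gd a) (KK st a) (y, true)
    refine (ind_mul_le _ (mul_nonneg (hψ _) p1)).trans (mul_le_mul_of_nonneg_left ?_ (hψ _))
    unfold HH; linarith
  -- second term
  have T2' : ∑ x ∈ Z, st.Ia (fun a => ind (x ∈ st.Gd a) * (ind (qq L i Λ2 κ0 c m x (KK st a)) *
      (L.psi (KK st a) (y, true) m * L.ph (KK st a) (x, true) (y, true)))) ≤
      C2 * 1 ^ 2 * ((e * (A * κ0) + 1) * I) := by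
    calc _ ≤ ∑ x ∈ Z, C2 * 1 ^ 2 * st.Ia (fun a => ind (qq L i Λ2 (κ0 + C0) c m x (KK st a)) *
          (L.psi (KK st a) (y, true) m * RR L (KK st a) (x, true) (y, true))) := by
          refine sum_le_sum fun x hx => liftK st (hZY hx) (ms_qq L i Λ2 κ0 c m x)
            (ms_qq L i Λ2 _ c m x) (nψ.mul (L.nice_ph _ _)) (nψ.mul (nice_RR L _ _))
            (fun K => mul_nonneg (hψ K) (ph_nonneg L _ _ _))
            (fun K => mul_nonneg (hψ K) (RR_nonneg L _ _ _)) (by positivity) (hqq x) fun cv => ?_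
          have := h2 L _ cv (st.a0 x) (st.b x) (st.γ x) (y, true) m (fun _ => 1) 1 1 0
            (st.hY x (hZY hx)).2.1 (st.γ_nonneg x) (act_ne (hZy x hx).symm) (BM.const 1) le_rfl
            zero_le_one (fun _ => by norm_num) fun a => by
              have h1 := norm_zz_le (cv.J_pos (st.γ_nonneg x)) a
              have h2 := cv.J_pos (st.γ_nonneg x)
              rw [sub_zero, norm_mul, Complex.norm_real, Real.norm_eq_abs, abs_of_pos h2, one_mul,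
                one_mul]
              exact pow_le_one₀ (by positivity) h1
          simpa only [one_mul, RR] using this
      _ ≤ _ := by
          rw [← mul_sum]
          refine mul_le_mul_of_nonneg_left (Ia_sum_le st Z (fun x _ => bmK st
            ((nice_ind (ms_qq L i Λ2 _ c m x)).mul (nψ.mul (nice_RR L _ _)))) hH _ fun a => ?_)
            (by positivity)
          exact P2 L hZY _ i _ m _ n0 (hψ _) fun h => hnZ _ (by linarith)
  -- third term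
  have T3 : ∑ x ∈ Z, ∑ z ∈ Z.erase x, st.Ia (fun a => ind (x ∈ st.Gd a) *
      (ind (qq L i Λ2 κ0 c m x (KK st a)) *
      (L.psi (KK st a) (y, true) m * (L.Om i (KK st a) m (x, true) (z, true) *
        L.XX (KK st a) (x, true) (y, true) (z, true))))) ≤
      C1 * (e * (C2 * 66 ^ 2 * ((e * (A * κ0) ^ 2 + A * κ0 + (67 * e + 1) * (A * κ0)) * I) +
        (67 * e + 1) * (A * κ0) * I)) := by
    have b5 : ∀ x z : L.X, BM fun a => ind (z ∉ st.Gd a) *
        (ind (L.kap Λ2 c m (KK st a) ≤ κ0 + C0) * (WW L i (KK st a) m (x, true) (z, true) *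
          (L.psi (KK st a) (y, true) m * L.T2 (KK st a) (z, true) (y, true)))) := fun x z =>
      (bm_nGd st z).mul (bmK st ((nice_ind (ms_kap L Λ2 _ c m)).mul
        ((nice_WW L i m _ _).mul (nψ.mul (L.nice_T2 _ _)))))
    have b6 : ∀ x z : L.X, BM fun a =>
        ind (L.kap Λ2 c m (KK st a) ≤ κ0 + C0 + C0) * (WW L i (KK st a) m (x, true) (z, true) *
          (L.psi (KK st a) (y, true) m * RR L (KK st a) (z, true) (y, true))) := fun x z =>
      bmK st ((nice_ind (ms_kap L Λ2 _ c m)).mul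
        ((nice_WW L i m _ _).mul (nψ.mul (nice_RR L _ _))))
    have s5 := Ia_sum2_le st Z (fun x => Z.erase x) b5 hH _ fun a =>
      P3b L hZY (st.Gd a) i (KK st a) m (y, true) n0 (hψ _) fun h => hnZ _ (by linarith)
    have s6 := Ia_sum2_le st Z (fun x => Z.erase x) b6 hH _ fun a =>
      P3g L hZY (st.Gd a) i (KK st a) m (y, true) n0 (hψ _) fun h => hnZ _ h
    refine le_trans ?_ (mul_le_mul_of_nonneg_left (mul_le_mul_of_nonneg_left (add_le_add
      (mul_le_mul_of_nonneg_left s6 (by positivity : 0 ≤ C2 * 66 ^ 2)) s5) he.le) hC1.le)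
    simp only [mul_sum, ← sum_add_distrib]
    refine sum_le_sum fun x hx => sum_le_sum fun z hz => ?_
    have hzZ := mem_of_mem_erase hz
    have hzx := ne_of_mem_erase hz
    have nG : Nice fun K : L.Mat => L.psi K (y, true) m * (L.Om i K m (x, true) (z, true) *
        (dd K (x, true) * L.ph K (z, true) (y, true))) :=
      nψ.mul ((L.nice_Om i m _ _).mul ((nice_dd _).mul (L.nice_ph _ _)))
    refine (liftK st (hZY hx) (ms_qq L i Λ2 κ0 c m x) (ms_qq L i Λ2 _ c m x)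
      (nψ.mul ((L.nice_Om i m _ _).mul (L.nice_XX _ _ _))) nG
      (fun K => mul_nonneg (hψ K) (mul_nonneg (Om_nonneg L _ _ _ _ _) (XX_nonneg L _ _ _ _)))
      (fun K => mul_nonneg (hψ K) (mul_nonneg (Om_nonneg L _ _ _ _ _)
        (mul_nonneg (dd_nonneg _ _) (ph_nonneg L _ _ _)))) hC1.le (hqq x) fun cv =>
      h1 L _ cv _ _ _ i _ _ m (st.hY x (hZY hx)).2.1 (st.γ_nonneg x) (act_ne (hZy x hx).symm)
        (act_ne hzx)).trans (mul_le_mul_of_nonneg_left ?_ hC1.le)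
    have nF : Nice fun K : L.Mat => WW L i K m (x, true) (z, true) *
        (L.psi K (y, true) m * L.ph K (z, true) (y, true)) :=
      (nice_WW L i m _ _).mul (nψ.mul (L.nice_ph _ _))
    have b4 := (bm_Gd st z).mul (bmK st ((nice_ind (ms_kap L Λ2 (κ0 + C0) c m)).mul nF))
    have s4 := st.Ia_mono (bmK st ((nice_ind (ms_qq L i Λ2 (κ0 + C0) c m x)).mul nG))
      ((b4.add (b5 x z)).const_mul e) fun a =>
        P3s L (portK st a) i m (x, true) (y, true) (z, true) _ (z ∈ st.Gd a) (hψ _)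
    rw [st.Ia_mul, st.Ia_add b4 (b5 x z)] at s4
    refine s4.trans (mul_le_mul_of_nonneg_left (add_le_add ?_ le_rfl) he.le)
    refine liftK st (hZY hzZ) (ms_kap L Λ2 _ c m) (ms_kap L Λ2 _ c m) nF
      ((nice_WW L i m _ _).mul (nψ.mul (nice_RR L _ _)))
      (fun K => mul_nonneg (WW_nonneg L _ _ _ _ _) (mul_nonneg (hψ K) (ph_nonneg L _ _ _)))
      (fun K => mul_nonneg (WW_nonneg L _ _ _ _ _) (mul_nonneg (hψ K) (RR_nonneg L _ _ _)))
      (by positivity) (hosc z _) fun cv => ?_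
    obtain ⟨Wb, u0, hWb, hW1, hW2⟩ := WW_cav L i m cv (st.γ_nonneg z) (act_ne hzx.symm)
    exact h2 L _ cv (st.a0 z) (st.b z) (st.γ z) (y, true) m _ Wb 66 u0 (st.hY z (hZY hzZ)).2.1
      (st.γ_nonneg z) (act_ne (hZy z hzZ).symm) (bm_K cv (nice_WW L i m _ _) (st.γ_nonneg z))
      (by norm_num) hWb hW1 hW2
  refine le_trans (le_of_eq ?_) ((add_le_add T1 (add_le_add T2' T3)).trans ?_)
  · unfold cellF
    rw [st.Ia_add (bm_F1 st Λ2 κ0 c m y) (BM.sum _ fun x _ => (bm_F2 st i Λ2 κ0 c m y x).add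
        (BM.sum _ fun z _ => bm_F3 st i Λ2 κ0 c m y x z)),
      st.Ia_sum _ fun x _ => (bm_F2 st i Λ2 κ0 c m y x).add
        (BM.sum _ fun z _ => bm_F3 st i Λ2 κ0 c m y x z), ← sum_add_distrib]
    congr 1
    refine sum_congr rfl fun x _ => ?_
    rw [st.Ia_add (bm_F2 st i Λ2 κ0 c m y x) (BM.sum _ fun z _ => bm_F3 st i Λ2 κ0 c m y x z),
      st.Ia_sum _ fun z _ => bm_F3 st i Λ2 κ0 c m y x z]
  have k1 : κ0 ≤ κ0 ^ 2 := by nlinarith
  have k2 : 1 ≤ κ0 ^ 2 := hκ.trans k1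
  have k3 : A * κ0 ≤ A * κ0 ^ 2 := mul_le_mul_of_nonneg_left k1 hA0.le
  calc _ = (1 + C2 * 1 ^ 2 * (e * (A * κ0) + 1) + C1 * (e * (C2 * 66 ^ 2 *
        (e * (A * κ0) ^ 2 + A * κ0 + (67 * e + 1) * (A * κ0)) + (67 * e + 1) * (A * κ0)))) * I := by
        ring
    _ ≤ (κ0 ^ 2 + C2 * 1 ^ 2 * (e * (A * κ0 ^ 2) + κ0 ^ 2) + C1 * (e * (C2 * 66 ^ 2 *
        (e * (A * κ0) ^ 2 + A * κ0 ^ 2 + (67 * e + 1) * (A * κ0 ^ 2)) +
          (67 * e + 1) * (A * κ0 ^ 2)))) * I := by gcongr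
    _ = _ := by ring

theorem cells : ∃ C : ℝ, 0 < C ∧ ∀ (L : Lat) (K : L.Mat) (Y : Finset L.X) (H : L.X → ℝ),
    (∀ y, 0 ≤ H y) →
    ∑ m ∈ range L.N, ∑ c, ∑ y ∈ Y.filter (fun y => L.rx y c ≤ 4 ^ m),
      1 / 4 ^ m * (L.psi K (y, true) m * H y) ≤ C * ∑ y ∈ Y, H y := by
  obtain ⟨C, hC, h⟩ := sum_psi
  refine ⟨3 * C, by positivity, fun L K Y H hH => ?_⟩
  calc _ ≤ ∑ m ∈ range L.N, ∑ y ∈ Y, 3 * (L.psi K (y, true) m * H y) := by
        refine sum_le_sum fun m _ => ?_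
        simp only [sum_filter]
        rw [sum_comm]
        refine sum_le_sum fun y _ => ?_
        rw [← sum_filter, sum_const, nsmul_eq_mul, ← mul_assoc]
        refine mul_le_mul_of_nonneg_right ?_ (mul_nonneg (psi_nonneg L K _ m) (hH y))
        have h1 : ((univ.filter fun c => L.rx y c ≤ 4 ^ m).card : ℝ) ≤ 2 + 4 ^ m :=
          L.ball_le y (4 ^ m) (by positivity)
        have h2 : (1 : ℝ) ≤ 4 ^ m := one_le_pow₀ (by norm_num)
        rw [mul_one_div, div_le_iff₀ (by positivity)]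
        linarith
    _ = ∑ y ∈ Y, 3 * ((∑ m ∈ range L.N, L.psi K (y, true) m) * H y) := by
        rw [sum_comm]; simp only [sum_mul, mul_sum]
    _ ≤ ∑ y ∈ Y, 3 * (C * H y) := sum_le_sum fun y _ =>
        mul_le_mul_of_nonneg_left (mul_le_mul_of_nonneg_right (h L K _) (hH y)) (by norm_num)
    _ = _ := by rw [mul_sum]; exact sum_congr rfl fun y _ => by ring

theorem sum_T2_le (L : Lat) {K : L.Mat} (hK : IsPort K) (z : L.P) (Y : Finset L.X) :
    ∑ y ∈ Y, L.T2 K z (y, true) ≤ Gam L.r2 K z := by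
  refine (sum_act_le L (T2_nonneg L K z) Y).trans (le_of_eq ?_)
  have e : ∀ j p, ‖Tm (L.Phi L.N j) K z p‖ = ‖Tm (L.Phi L.N j) K p z‖ := fun j p => by
    rw [hK.T_herm, Complex.norm_conj]
  simp only [Lat.T2, e]
  rw [sum_comm]
  simp only [hK.T_col]
  rw [sum_comm, Gam]
  refine sum_congr rfl fun p _ => ?_
  rw [← mul_sum]
  exact congrArg _ (congrFun (congrFun (L.wt_Phi L.N) z) p)

theorem sum_HH (L : Lat) {K : L.Mat} (hK : IsPort K) (Y Gd : Finset L.X) :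
    ∑ y ∈ Y, HH L Y Gd K (y, true) ≤
      2 * ∑ y ∈ Y, L.GN K (y, true) + ∑ z ∈ Y, ind (z ∉ Gd) * Gam L.r2 K (z, true) := by
  simp only [HH, sum_add_distrib]
  rw [two_mul]
  refine add_le_add (add_le_add le_rfl ?_) ?_
  · rw [sum_comm]
    refine sum_le_sum fun z _ => ?_
    rw [← sum_mul]
    have h1 := sum_act_le L (cc_nonneg K (z, true)) Y
    have h2 := GN_nonneg L K (z, true)
    have h3 := dd_nonneg K (z, true)
    refine (mul_le_mul_of_nonneg_right h1 (div_nonneg h2 h3)).trans ?_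
    rw [← dd, mul_div_left_comm]
    exact mul_le_of_le_one_right h2 (div_self_le_one _)
  · rw [sum_comm]
    refine sum_le_sum fun z _ => ?_
    rw [← mul_sum]
    exact mul_le_mul_of_nonneg_left (sum_T2_le L hK _ Y) (ind_nonneg _)

theorem sum_ind_eq {X : Type} [DecidableEq X] (Y Gd : Finset X) (g : X → ℝ) :
    ∑ z ∈ Y, ind (z ∉ Gd) * g z = ∑ z ∈ Y \ Gd, g z := by
  rw [sdiff_eq_filter, sum_filter]
  refine sum_congr rfl fun z _ => ?_
  split_ifs with h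
  · rw [ind_neg (not_not.2 h), zero_mul]
  · rw [ind_pos h, one_mul]

theorem smain' (i Λ2 : ℝ) (hΛ : 1 ≤ Λ2) : ∃ C : ℝ, 0 < C ∧ ∀ (L : Lat) (st : Stat L) (κ0 : ℝ),
    1 ≤ κ0 →
    st.Ia (fun a => ∑ m ∈ range L.N, ∑ c,
      if L.kap Λ2 c m (L.Km st.E st.η st.γ a) ≤ κ0 then
        L.Main st.Y (st.Gd a) i Λ2 (L.Km st.E st.η st.γ a) c m / 4 ^ m else 0) ≤
      C * κ0 ^ 2 * (st.I0 (fun K => ∑ y ∈ st.Y, L.GN K (y, true)) +
        st.IB st.Y (fun _ => 1) L.r2) := by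
  obtain ⟨C1, hC1, h1⟩ := cell i Λ2 hΛ
  obtain ⟨C2, hC2, h2⟩ := cells
  obtain ⟨C3, hC3, h3⟩ := badShare
  refine ⟨C1 * (C2 * (2 + C3)), by positivity, fun L st κ0 hκ => ?_⟩
  have bF := fun m c y => (bm_cellF st i Λ2 κ0 c m y).const_mul (1 / 4 ^ m)
  have bH := fun m (y : L.X) => ((bmK st (L.nice_psi (y, true) m)).mul
    (bm_HH st (y, true))).const_mul (1 / 4 ^ m)
  have key : ∀ F : ℕ → L.X → L.X → (L.X → ℝ) → ℝ, (∀ m c y, BM (F m c y)) →
      st.Ia (fun a => ∑ m ∈ range L.N, ∑ c, ∑ y ∈ st.Y.filter (fun y => L.rx y c ≤ 4 ^ m),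
        F m c y a) = ∑ m ∈ range L.N, ∑ c, ∑ y ∈ st.Y.filter (fun y => L.rx y c ≤ 4 ^ m),
          st.Ia (F m c y) := fun F hF => by
    rw [st.Ia_sum _ fun m _ => BM.sum _ fun c _ => BM.sum _ fun y _ => hF m c y]
    refine sum_congr rfl fun m _ => ?_
    rw [st.Ia_sum _ fun c _ => BM.sum _ fun y _ => hF m c y]
    exact sum_congr rfl fun c _ => st.Ia_sum _ fun y _ => hF m c y
  have hr0 : ∀ p, L.r2 p p = 0 := fun p => L.rx_self p.1
  have hB := h3 L st L.r2 (r2_nonneg L) hr0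
  simp only [← sum_ind_eq] at hB
  have hB0 := st.IB_nonneg (subset_refl st.Y) (W := fun _ => 1) (fun _ => zero_le_one) (r2_nonneg L)
  have bG : BM fun a => ∑ y ∈ st.Y, L.GN (KK st a) (y, true) :=
    BM.sum _ fun y _ => bmK st (L.nice_GN _)
  have bB : BM fun a => ∑ z ∈ st.Y, ind (z ∉ st.Gd a) * Gam L.r2 (KK st a) (z, true) :=
    BM.sum _ fun z _ => (bm_nGd st z).mul (bmK st (nice_Gam _ _))
  have hG0 : 0 ≤ st.Ia fun a => ∑ y ∈ st.Y, L.GN (KK st a) (y, true) :=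
    st.Ia_nonneg fun a => sum_nonneg fun y _ => GN_nonneg L _ _
  simp only [main_eq st i Λ2 κ0]
  calc _ = _ := key _ bF
    _ ≤ C1 * κ0 ^ 2 * ∑ m ∈ range L.N, ∑ c, ∑ y ∈ st.Y.filter (fun y => L.rx y c ≤ 4 ^ m),
        st.Ia fun a => 1 / 4 ^ m *
          (L.psi (KK st a) (y, true) m * HH L st.Y (st.Gd a) (KK st a) (y, true)) := by
        simp only [mul_sum, st.Ia_mul]
        refine sum_le_sum fun m hm => sum_le_sum fun c _ => sum_le_sum fun y _ => ?_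
        have := mul_le_mul_of_nonneg_left (h1 L st κ0 hκ c m y (mem_range.1 hm))
          (by positivity : (0 : ℝ) ≤ 1 / 4 ^ m)
        calc _ ≤ _ := this
          _ = _ := by ring
    _ ≤ C1 * κ0 ^ 2 * (C2 * (2 * st.Ia (fun a => ∑ y ∈ st.Y, L.GN (KK st a) (y, true)) +
        st.Ia fun a => ∑ z ∈ st.Y, ind (z ∉ st.Gd a) * Gam L.r2 (KK st a) (z, true))) := by
        refine mul_le_mul_of_nonneg_left ?_ (by positivity)
        rw [← key _ fun m _ y => bH m y, ← st.Ia_mul, ← st.Ia_add (bG.const_mul 2) bB,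
          ← st.Ia_mul]
        refine st.Ia_mono (BM.sum _ fun m _ => BM.sum _ fun c _ => BM.sum _ fun y _ => bH m y)
          (((bG.const_mul 2).add bB).const_mul C2) fun a => ?_
        exact (h2 L (KK st a) st.Y _ fun y => HH_nonneg L _ _ _ _).trans
          (mul_le_mul_of_nonneg_left (sum_HH L (portK st a) _ _) hC2.le)
    _ ≤ C1 * κ0 ^ 2 * (C2 * ((2 + C3) * (st.Ia (fun a => ∑ y ∈ st.Y, L.GN (KK st a) (y, true)) +
        st.IB st.Y (fun _ => 1) L.r2))) := by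
        refine mul_le_mul_of_nonneg_left (mul_le_mul_of_nonneg_left ?_ hC2.le) (by positivity)
        nlinarith [mul_nonneg hC3.le hG0]
    _ = _ := by unfold Stat.I0 Stat.Ig; ring

end Crest.Agent.N334.G.S0
end
end

-- ▼ part N334/G/S

/-!
# Row 334, S0519 GAIN: static hierarchy, ensemble level
-/

set_option autoImplicit false

open MeasureTheory Finset Complex
open scoped BigOperators ComplexConjugate

noncomputable section

namespace Crest.Agent.N334.G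

theorem smain : ∀ i Λ2 : ℝ, 1 ≤ i → 1 ≤ Λ2 → ∃ C : ℝ, 0 < C ∧ ∀ (L : Lat) (st : Stat L) (κ0 : ℝ),
    1 ≤ κ0 →
    st.Ia (fun a => ∑ m ∈ range L.N, ∑ c,
      if L.kap Λ2 c m (L.Km st.E st.η st.γ a) ≤ κ0 then
        L.Main st.Y (st.Gd a) i Λ2 (L.Km st.E st.η st.γ a) c m / 4 ^ m else 0) ≤
      C * κ0 ^ 2 * (st.I0 (fun K => ∑ y ∈ st.Y, L.GN K (y, true)) +
        st.IB st.Y (fun _ => 1) L.r2) := fun i Λ2 _ hΛ => S0.smain' i Λ2 hΛ

end Crest.Agent.N334.G
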