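import Crest.Agent.N334.G.Lift
import Crest.Agent.N334.G.Gain1
import Mathlib

-- ▼ part N334/G/Flow
section

/-!
# Row 334, S0519 GAIN: jump chains of levels and the derivative of ensemble averages
-/

set_option autoImplicit false

open MeasureTheory Finset Complex
open scoped BigOperators ComplexConjugate

noncomputable section

namespace Crest.Agent.N334.G

namespace Fl

/-- push-forward along `nxt` -/
def PP {α : Type} [Fintype α] [DecidableEq α] (nxt : α → α) : (α → ℝ) →L[ℝ] (α → ℝ) :=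
  ContinuousLinearMap.pi fun l =>
    ∑ l' ∈ univ.filter (fun l' => nxt l' = l), ContinuousLinearMap.proj l'

theorem PP_apply {α : Type} [Fintype α] [DecidableEq α] (nxt : α → α) (q : α → ℝ) (l : α) :
    PP nxt q l = ∑ l' ∈ univ.filter (fun l' => nxt l' = l), q l' := by
  simp [PP]

theorem PP_pow_nonneg {α : Type} [Fintype α] [DecidableEq α] (nxt : α → α) {q : α → ℝ}
    (hq : ∀ l, 0 ≤ q l) (k : ℕ) (l : α) : 0 ≤ (PP nxt ^ k) q l := by
  induction k generalizing l with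
  | zero => simpa using hq l
  | succ k ih =>
    rw [pow_succ', mul_apply_eq_comp, PP_apply]
    exact sum_nonneg fun l' _ => ih l'

theorem sum_swap {X α : Type} [Fintype X] [DecidableEq X] [Fintype α] (y : X)
    (G : (X → α) → α → ℝ) :
    ∑ lam, ∑ j, G lam j = ∑ lam, ∑ j, G (Function.update lam y j) (lam y) := by
  have h : Function.Involutive fun z : (X → α) × α => (Function.update z.1 y z.2, z.1 y) := by
    intro z; simp
  rw [← Fintype.sum_prod_type', ← Fintype.sum_prod_type']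
  exact (Equiv.sum_comp h.toPerm fun z => G z.1 z.2).symm

theorem jump {X α : Type} [Fintype X] [DecidableEq X] [Fintype α] [DecidableEq α] (y : X)
    (nx : α → α) (q : X → α → ℝ) (Q : (X → α) → ℝ) :
    ∑ lam : X → α, (∏ x ∈ univ.erase y, q x (lam x)) *
        (∑ l' ∈ univ.filter (fun l' => nx l' = lam y), q y l') * Q lam =
      ∑ lam : X → α, (∏ x, q x (lam x)) * Q (Function.update lam y (nx (lam y))) := by
  simp only [sum_filter, mul_sum, sum_mul]
  rw [sum_swap y]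
  refine sum_congr rfl fun lam _ => ?_
  rw [sum_eq_single (nx (lam y))]
  · have : ∏ x ∈ univ.erase y, q x (Function.update lam y (nx (lam y)) x) =
        ∏ x ∈ univ.erase y, q x (lam x) :=
      prod_congr rfl fun x hx => by rw [Function.update_of_ne (ne_of_mem_erase hx)]
    rw [this, Function.update_self, if_pos rfl, prod_erase_mul _ _ (mem_univ y)]
  · intro j _ hj
    rw [Function.update_self, if_neg (Ne.symm hj), mul_zero, zero_mul]
  · simp

theorem fac_le_one {n : ℕ} (j : Lv n) : fac j ≤ 1 := by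
  cases j <;> simp [fac, inv_le_one_iff₀, one_le_pow₀]

theorem fac_hlf {n : ℕ} (j : Lv n) : fac (hlf j) - fac j ≤ -1 / 2 * fac j + (1 / 2) ^ n / 2 := by
  have hn : (0 : ℝ) ≤ (1 / 2) ^ n / 2 := by positivity
  rcases j with _ | j
  · simpa [fac, hlf] using hn
  · by_cases h : (j : ℕ) + 1 < n + 1
    · simp only [hlf, dif_pos h, fac, pow_succ]
      linarith
    · have : (j : ℕ) = n := by have := j.2; omega
      simp only [hlf, dif_neg h, sub_self]
      simp only [fac, this]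
      linarith

end Fl

open Fl

theorem exists_flow {n : ℕ} (nxt : Lv n → Lv n) : ∃ fl : (Lv n → ℝ) → ℝ → Lv n → ℝ,
    ∀ q0, (∀ l, 0 ≤ q0 l) → ∑ l, q0 l = 1 → fl q0 0 = q0 ∧ IsFlow nxt (fl q0) := by
  refine ⟨fun q0 t l => Real.exp (-t) * NormedSpace.exp (t • PP nxt) q0 l, fun q0 h0 h1 => ?_⟩
  have hd : ∀ t l, HasDerivAt (fun s => Real.exp (-s) * NormedSpace.exp (s • PP nxt) q0 l)
      ((∑ l' ∈ univ.filter (fun l' => nxt l' = l),
        Real.exp (-t) * NormedSpace.exp (t • PP nxt) q0 l') -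
        Real.exp (-t) * NormedSpace.exp (t • PP nxt) q0 l) t := by
    intro t l
    have h1 := (hasDerivAt_exp_smul_const' (PP nxt) t).clm_apply (hasDerivAt_const t q0)
    have h2 := (hasDerivAt_neg t).exp.mul (hasDerivAt_pi.1 h1 l)
    refine HasDerivAt.congr_deriv h2 ?_
    simp only [map_zero, add_zero, mul_apply_eq_comp, PP_apply, ← mul_sum]
    ring
  refine ⟨by funext l; simp, fun t ht l => mul_nonneg (Real.exp_pos _).le ?_, fun t => ?_, hd⟩
  · have h := (NormedSpace.exp_series_hasSum_exp' (𝕂 := ℝ) (t • PP nxt)).mapL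
      ((ContinuousLinearMap.proj l).comp (ContinuousLinearMap.apply ℝ (Lv n → ℝ) q0))
    refine h.nonneg fun k => ?_
    have := PP_pow_nonneg nxt h0 k l
    simp only [smul_pow, ContinuousLinearMap.comp_apply, ContinuousLinearMap.apply_apply,
      smul_apply, ContinuousLinearMap.proj_apply, Pi.smul_apply, smul_eq_mul]
    positivity
  · have hs : ∀ t, HasDerivAt
        (fun s => ∑ l, Real.exp (-s) * NormedSpace.exp (s • PP nxt) q0 l) 0 t := by
      intro t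
      refine HasDerivAt.congr_deriv (HasDerivAt.fun_sum fun l _ => hd t l) ?_
      rw [sum_sub_distrib, sum_fiberwise, sub_self]
    have := is_const_of_deriv_eq_zero (fun t => (hs t).differentiableAt) (fun t => (hs t).deriv) t 0
    simpa [h1] using this
theorem Ens.hasDerivAt_Ex {L : Lat} (e : Ens L) {n : ℕ} (nxt : e.Ω → L.X → Lv n → Lv n)
    (q : ℝ → e.Ω → L.X → Lv n → ℝ) (hq : ∀ l x, IsFlow (nxt l x) fun t => q t l x)
    (Q : e.Ω → (L.X → Lv n) → ℝ) (t : ℝ) :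
    HasDerivAt (fun s => e.Ex (q s) Q) (e.Ex (q t) fun l lam =>
      ∑ y, (Q l (Function.update lam y (nxt l y (lam y))) - Q l lam)) t := by
  unfold Ens.Ex
  refine HasDerivAt.fun_sum fun l _ => HasDerivAt.const_mul _ ?_
  refine HasDerivAt.congr_deriv (HasDerivAt.fun_sum fun lam _ => HasDerivAt.mul_const
    (HasDerivAt.fun_finsetProd fun x _ => (hq l x).deriv t (lam x)) (Q l lam)) ?_
  simp only [smul_eq_mul, sum_mul, mul_sum (s := univ)]
  refine sum_comm.trans (Eq.trans (sum_congr rfl fun y _ => ?_) sum_comm)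
  simp only [mul_sub, sub_mul, sum_sub_distrib]
  rw [jump y (nxt l y) (q t l) (Q l)]
  congr 1
  exact sum_congr rfl fun lam _ => by rw [prod_erase_mul _ _ (mem_univ y)]
/-- the derivative in terms of the static drift over the moving sites -/
theorem Ens.hasDerivAt_ExS {L : Lat} (e : Ens L) {n : ℕ} (nxt : e.Ω → L.X → Lv n → Lv n)
    (q : ℝ → e.Ω → L.X → Lv n → ℝ) (hq : ∀ l x, IsFlow (nxt l x) fun t => q t l x)
    (hY : ∀ l x, x ∉ (e.S l).Y → (e.S l).γ x = 0 ∨ ∀ j, nxt l x j = j)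
    (F : e.Ω → L.Mat → ℝ) (t : ℝ) :
    HasDerivAt (fun s => e.Ex (q s) fun l lam => ((e.S l).lev lam).I0 (F l))
      (e.Ex (q t) fun l lam => ((e.S l).lev lam).dr
        ((e.S l).Y.filter fun y => nxt l y (lam y) ≠ lam y)
        (fun y => (e.S l).γ y * fac (nxt l y (lam y))) (F l)) t := by
  refine HasDerivAt.congr_deriv (e.hasDerivAt_Ex nxt q hq _ t) ?_
  congr 1
  funext l lam
  have key : ∀ y, ((e.S l).lev (Function.update lam y (nxt l y (lam y)))).I0 (F l) =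
      ((e.S l).lev lam).Ig (Function.update ((e.S l).lev lam).γ y
        ((e.S l).γ y * fac (nxt l y (lam y)))) (F l) := by
    intro y
    have : ((e.S l).lev (Function.update lam y (nxt l y (lam y)))).γ =
        Function.update ((e.S l).lev lam).γ y ((e.S l).γ y * fac (nxt l y (lam y))) := by
      funext x
      by_cases hx : x = y
      · subst hx; simp [Stat.lev]
      · simp [Stat.lev, hx]
    rw [Stat.I0, this]; rfl
  simp only [key, Stat.dr]
  symm
  refine sum_subset (subset_univ _) fun y _ hy => ?_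
  have : (e.S l).γ y * fac (nxt l y (lam y)) = ((e.S l).lev lam).γ y := by
    change _ = (e.S l).γ y * fac (lam y)
    by_cases h : y ∈ (e.S l).Y
    · have : nxt l y (lam y) = lam y := by simpa [h] using hy
      rw [this]
    · rcases hY l y h with h0 | h0
      · rw [h0, zero_mul, zero_mul]
      · rw [h0]
  rw [this, Function.update_eq_self, Stat.I0, sub_self]
theorem Ens.Ex_mono {L : Lat} (e : Ens L) {n : ℕ} {q : e.Ω → L.X → Lv n → ℝ}
    (hq : ∀ l x j, 0 ≤ q l x j) {Q Q' : e.Ω → (L.X → Lv n) → ℝ} (h : ∀ l lam, Q l lam ≤ Q' l lam) :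
    e.Ex q Q ≤ e.Ex q Q' :=
  sum_le_sum fun l _ => mul_le_mul_of_nonneg_left (sum_le_sum fun lam _ =>
    mul_le_mul_of_nonneg_left (h l lam) (prod_nonneg fun x _ => hq l x _)) (e.pr_nonneg l)
theorem Ens.Ex_add {L : Lat} (e : Ens L) {n : ℕ} (q : e.Ω → L.X → Lv n → ℝ)
    (Q Q' : e.Ω → (L.X → Lv n) → ℝ) :
    e.Ex q (fun l lam => Q l lam + Q' l lam) = e.Ex q Q + e.Ex q Q' := by
  simp only [Ens.Ex, mul_add, sum_add_distrib]
theorem Ens.Ex_mul {L : Lat} (e : Ens L) {n : ℕ} (q : e.Ω → L.X → Lv n → ℝ) (r : ℝ)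
    (Q : e.Ω → (L.X → Lv n) → ℝ) : e.Ex q (fun l lam => r * Q l lam) = r * e.Ex q Q := by
  simp only [Ens.Ex, mul_sum]
  exact sum_congr rfl fun l _ => sum_congr rfl fun lam _ => by ring
theorem Ens.Ex_sum {L : Lat} (e : Ens L) {n : ℕ} (q : e.Ω → L.X → Lv n → ℝ) {ι : Type}
    (s : Finset ι) (Q : ι → e.Ω → (L.X → Lv n) → ℝ) :
    e.Ex q (fun l lam => ∑ i ∈ s, Q i l lam) = ∑ i ∈ s, e.Ex q (Q i) := by
  simp only [Ens.Ex, mul_sum]
  rw [sum_comm (s := s)]
  exact sum_congr rfl fun l _ => sum_comm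
theorem Ens.Ex_label {L : Lat} (e : Ens L) {n : ℕ} {q : e.Ω → L.X → Lv n → ℝ}
    (hq : ∀ l x, ∑ j, q l x j = 1) (Q : e.Ω → ℝ) :
    e.Ex q (fun l _ => Q l) = ∑ l, e.pr l * Q l := by
  refine sum_congr rfl fun l _ => ?_
  have : ∑ lam : L.X → Lv n, ∏ x, q l x (lam x) = 1 := by
    rw [← Fintype.piFinset_univ, ← prod_univ_sum]
    simp [hq]
  rw [← sum_mul, this, one_mul]
/-- decay of the mean strength under halving -/
theorem Ens.Ex_fac {L : Lat} (e : Ens L) {n : ℕ} (q : ℝ → e.Ω → L.X → Lv n → ℝ)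
    (hq : ∀ l x, IsFlow hlf fun t => q t l x) (x : L.X) {t : ℝ} (ht : 0 ≤ t) :
    e.Ex (q t) (fun _ lam => fac (lam x)) ≤ Real.exp (-t / 2) + (1 / 2) ^ n := by
  set φ : ℝ → ℝ := fun s => e.Ex (q s) fun _ lam => fac (lam x) with hφ
  have hc : ∀ s (c : ℝ), e.Ex (q s) (fun _ _ => c) = c := fun s c => by
    rw [e.Ex_label fun l x => (hq l x).sum s, ← sum_mul, e.pr_sum, one_mul]
  have hd : ∀ s, HasDerivAt φ (e.Ex (q s) fun _ lam => fac (hlf (lam x)) - fac (lam x)) s := by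
    intro s
    refine HasDerivAt.congr_deriv (e.hasDerivAt_Ex (fun _ _ => hlf) q hq _ s) ?_
    congr 1
    funext l lam
    rw [sum_eq_single x]
    · rw [Function.update_self]
    · intro y _ hy
      rw [Function.update_of_ne (Ne.symm hy), sub_self]
    · simp
  have hle : ∀ s, 0 ≤ s → (e.Ex (q s) fun _ lam => fac (hlf (lam x)) - fac (lam x)) ≤
      -1 / 2 * φ s + (1 / 2) ^ n / 2 := by
    intro s hs
    refine (e.Ex_mono (fun l x j => (hq l x).nonneg s hs j) fun l lam => fac_hlf (lam x)).trans ?_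
    rw [e.Ex_add, e.Ex_mul, hc]
  have hψ : ∀ s, HasDerivAt (fun s => Real.exp (s / 2) * (φ s - (1 / 2) ^ n))
      (Real.exp (s / 2) * (1 / 2) * (φ s - (1 / 2) ^ n) + Real.exp (s / 2) *
        e.Ex (q s) fun _ lam => fac (hlf (lam x)) - fac (lam x)) s := fun s =>
    ((hasDerivAt_id s).div_const 2).exp.mul ((hd s).sub_const _)
  have han := antitoneOn_of_deriv_nonpos (convex_Ici (0 : ℝ))
    (fun s _ => (hψ s).continuousAt.continuousWithinAt)
    (fun s _ => (hψ s).differentiableAt.differentiableWithinAt) (fun s hs => by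
      rw [(hψ s).deriv]
      have h1 := hle s (interior_subset hs)
      have h2 := Real.exp_pos (s / 2)
      nlinarith)
  have h1 := han (Set.mem_Ici.2 le_rfl) (Set.mem_Ici.2 ht) ht
  have h0 : φ 0 ≤ 1 := by
    rw [← hc 0 1]
    exact e.Ex_mono (fun l x j => (hq l x).nonneg 0 le_rfl j) fun l lam => fac_le_one _
  simp only [zero_div, Real.exp_zero, one_mul] at h1
  have h2 : Real.exp (-t / 2) * Real.exp (t / 2) = 1 := by
    rw [← Real.exp_add]; simp [neg_div]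
  have h3 := Real.exp_pos (-t / 2)
  have h4 : (0 : ℝ) ≤ (1 / 2) ^ n := by positivity
  have h5 := mul_le_mul_of_nonneg_left (h1.trans (by linarith : φ 0 - (1 / 2) ^ n ≤ 1)) h3.le
  rw [← mul_assoc, h2] at h5
  change φ t ≤ _
  linarith

end Crest.Agent.N334.G
end
end

-- ▼ part N334/G/Gain2
section

/-!
# Row 334, S0519 GAIN: transport along the halving flow, final closing
-/

set_option autoImplicit false

open MeasureTheory Finset Complex
open scoped BigOperators ComplexConjugate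

noncomputable section

namespace Crest.Agent.N334.G

theorem gron {f f' : ℝ → ℝ} {a b K e : ℝ} (hab : a ≤ b) (hK : 0 ≤ K) (he : 0 ≤ e)
    (hd : ∀ t, HasDerivAt f (f' t) t) (h : ∀ t, a ≤ t → t ≤ b → f' t ≤ K * f t + e) :
    f b ≤ Real.exp (K * (b - a)) * (f a + e * (b - a)) := by
  set g : ℝ → ℝ := fun t => Real.exp (-(K * (t - a))) * f t - e * (t - a) with hg
  have hgd : ∀ t, HasDerivAt g (Real.exp (-(K * (t - a))) * (f' t - K * f t) - e) t := by
    intro t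
    have h1 : HasDerivAt (fun t => -(K * (t - a))) (-K) t := by
      have := (((hasDerivAt_id' t).sub_const a).const_mul K).fun_neg
      rwa [mul_one] at this
    have h2 := (h1.exp.fun_mul (hd t)).fun_sub (((hasDerivAt_id' t).sub_const a).const_mul e)
    exact h2.congr_deriv (by ring)
  have hanti : AntitoneOn g (Set.Icc a b) := by
    refine antitoneOn_of_deriv_nonpos (convex_Icc a b)
      (fun t _ => (hgd t).continuousAt.continuousWithinAt)
      (fun t _ => (hgd t).differentiableAt.differentiableWithinAt) fun t ht => ?_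
    rw [interior_Icc] at ht
    rw [(hgd t).deriv]
    have h1 := h t ht.1.le ht.2.le
    have h2 : Real.exp (-(K * (t - a))) ≤ 1 :=
      Real.exp_le_one_iff.2 (by nlinarith [ht.1])
    have h3 := Real.exp_pos (-(K * (t - a)))
    nlinarith
  have := hanti (Set.left_mem_Icc.2 hab) (Set.right_mem_Icc.2 hab) hab
  simp only [hg, sub_self, mul_zero, neg_zero, Real.exp_zero, one_mul, sub_zero] at this
  have h4 : Real.exp (K * (b - a)) * Real.exp (-(K * (b - a))) = 1 := by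
    rw [← Real.exp_add]; simp
  have h5 := mul_le_mul_of_nonneg_left (sub_le_iff_le_add.1 this) (Real.exp_pos (K * (b - a))).le
  rwa [← mul_assoc, h4, one_mul] at h5

theorem exp_half_le : Real.exp (1 / 2) ≤ 2 := by
  have h := Real.exp_one_lt_d9
  have h2 : Real.exp (1 / 2) * Real.exp (1 / 2) = Real.exp 1 := by rw [← Real.exp_add]; norm_num
  nlinarith [Real.exp_pos (1 / 2 : ℝ)]

/-- the moving sites -/
def Ens.mov {L : Lat} (e : Ens L) {n : ℕ} (l : e.Ω) (lam : L.X → Lv n) : Finset L.X :=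
  (e.S l).Y.filter fun y => hlf (lam y) ≠ lam y

theorem fac_hlf_mov {n : ℕ} {j : Lv n} (h : hlf j ≠ j) : fac (hlf j) = fac j / 2 := by
  cases j with
  | none => exact absurd rfl h
  | some j =>
    unfold hlf at h ⊢
    dsimp only at h ⊢
    split_ifs at h ⊢ with h'
    · simp [fac, pow_succ]; ring
    · exact absurd rfl h

theorem fac_floor {n : ℕ} {j : Lv n} (h : hlf j = j) : fac j ≤ (1 / 2) ^ n := by
  cases j with
  | none => simp [fac]
  | some j =>
    unfold hlf at h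
    dsimp only at h
    split_ifs at h with h'
    · simp [Fin.ext_iff] at h
    · have : (j : ℕ) = n := by have := j.2; omega
      simp [fac, this]

namespace Ens
variable {L : Lat} (e : Ens L) {n : ℕ}

theorem mov_sub (l : e.Ω) (lam : L.X → Lv n) : e.mov l lam ⊆ ((e.S l).lev lam).Y :=
  filter_subset _ _

theorem floor_le (l : e.Ω) (lam : L.X → Lv n) :
    ∀ y ∈ ((e.S l).lev lam).Y \ e.mov l lam, ((e.S l).lev lam).γ y ≤ (1 / 2) ^ n := by
  intro y hy
  obtain ⟨h1, h2⟩ := mem_sdiff.1 hy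
  have h3 : hlf (lam y) = lam y := by
    by_contra h; exact h2 (mem_filter.2 ⟨h1, h⟩)
  exact (mul_le_of_le_one_left (by cases lam y <;> simp [fac]) ((e.S l).γ_le y)).trans
    (fac_floor h3)

theorem deriv_hlf (q : ℝ → e.Ω → L.X → Lv n → ℝ) (hq : ∀ l x, IsFlow hlf fun t => q t l x)
    (hY : ∀ l x, x ∉ (e.S l).Y → (e.S l).γ x = 0) (F : e.Ω → L.Mat → ℝ) (t : ℝ) :
    HasDerivAt (fun s => e.Ex (q s) fun l lam => ((e.S l).lev lam).I0 (F l))
      (e.Ex (q t) fun l lam =>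
        ((e.S l).lev lam).dr (e.mov l lam) ((e.S l).lev lam).half (F l)) t := by
  have := e.hasDerivAt_ExS (fun _ _ => hlf) q hq (fun l x hx => Or.inl (hY l x hx)) F t
  convert this using 4 with l lam
  refine Stat.dr_congr _ _ (fun y hy => ?_) _
  rw [fac_hlf_mov (mem_filter.1 hy).2]
  show (e.S l).γ y * fac (lam y) / 2 = _
  ring

theorem Ex_nonneg {q : e.Ω → L.X → Lv n → ℝ} (hq : ∀ l x j, 0 ≤ q l x j)
    {Q : e.Ω → (L.X → Lv n) → ℝ} (h : ∀ l lam, 0 ≤ Q l lam) : 0 ≤ e.Ex q Q :=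
  sum_nonneg fun l _ => mul_nonneg (e.pr_nonneg l) (sum_nonneg fun lam _ =>
    mul_nonneg (prod_nonneg fun x _ => hq l x _) (h l lam))

theorem Ex_const {q : e.Ω → L.X → Lv n → ℝ} (hq : ∀ l x, ∑ j, q l x j = 1) (r : ℝ) :
    e.Ex q (fun _ _ => r) = r := by
  rw [e.Ex_label hq fun _ => r, ← sum_mul, e.pr_sum, one_mul]

/-- mean energy -/
def Qf (q : ℝ → e.Ω → L.X → Lv n → ℝ) (t : ℝ) : ℝ := e.ExS (q t) fun st => st.I0 (En L.r2)
end Ens

theorem half_ok {L : Lat} (st : Stat L) (Y1 : Finset L.X) :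
    ∀ y ∈ Y1, 0 ≤ st.half y ∧ st.half y ≤ st.γ y := fun y _ =>
  ⟨st.half_nonneg y, half_le_self (st.γ_nonneg y)⟩

theorem Q_mono : ∃ C : ℝ, 0 < C ∧ ∀ (L : Lat) (e : Ens L) (n : ℕ)
    (q : ℝ → e.Ω → L.X → Lv n → ℝ) (ε err T0 : ℝ), (∀ l x, IsFlow hlf fun t => q t l x) →
    (∀ l x, x ∉ (e.S l).Y → (e.S l).γ x = 0) → 0 ≤ ε → 0 ≤ err → C * ε * T0 ≤ 1 / 2 →
    (∀ t, 0 ≤ t → t ≤ T0 → e.BPq (q t) ε err) → ∀ s t, 0 ≤ s → s ≤ t → t ≤ T0 →
    e.Qf q t ≤ 2 * (e.Qf q s + C * err * Fintype.card L.X * T0) := by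
  obtain ⟨C, hC, h⟩ := driftQ
  refine ⟨C, hC, fun L e n q ε err T0 hq hY hε herr hT hBP s t hs hst ht => ?_⟩
  have hd := e.deriv_hlf q hq hY fun _ => En L.r2
  have g := gron (K := C * ε) (e := C * err * Fintype.card L.X) hst (by positivity)
    (by positivity) hd fun u hu hu' => by
      have h0 : ∀ l x j, 0 ≤ q u l x j := fun l x j => (hq l x).nonneg u (hs.trans hu) j
      have b := mul_le_mul_of_nonneg_left (hBP u (hs.trans hu) (hu'.trans ht)) hC.le
      refine le_trans ?_ (b.trans_eq (by unfold Ens.ExS; ring))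
      unfold Ens.ExS
      rw [← e.Ex_mul]
      refine e.Ex_mono h0 fun l lam => ?_
      have a := h L _ _ (e.mov_sub l lam) _ (L.Phi L.N) _ (half_ok _ _)
      rw [L.wt_Phi] at a
      exact a.trans (mul_le_mul_of_nonneg_left (Stat.IB_mono _ (e.mov_sub l lam) Subset.rfl
        (Nice.const 1) (Nice.const 1) (fun _ => zero_le_one) (fun _ => le_rfl) L.r2_nonneg
        fun _ _ => le_rfl) hC.le)
  have hQ : 0 ≤ e.Qf q s := e.Ex_nonneg (fun l x j => (hq l x).nonneg s hs j) fun l lam =>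
    Stat.I0_nonneg _ fun K => En_nonneg L.r2_nonneg K
  refine g.trans (mul_le_mul ((Real.exp_le_exp.2 ?_).trans exp_half_le)
    (add_le_add le_rfl ?_) (add_nonneg hQ (mul_nonneg (by positivity) (by linarith))) two_pos.le)
  · exact (mul_le_mul_of_nonneg_left (by linarith) (by positivity)).trans hT
  · exact mul_le_mul_of_nonneg_left (by linarith) (by positivity)

theorem D_bound : ∃ C : ℝ, 0 < C ∧ ∀ (L : Lat) (e : Ens L) (n : ℕ)
    (q : ℝ → e.Ω → L.X → Lv n → ℝ), (∀ l x, IsFlow hlf fun t => q t l x) →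
    (∀ l x, x ∉ (e.S l).Y → (e.S l).γ x = 0) → ∀ (m : ℕ) (t : ℝ), 0 ≤ t →
    e.ExS (q t) (fun st => st.I0 (En (L.s4 m))) ≤
      Real.exp (C * t) * e.ExS (q 0) (fun st => st.I0 (En (L.s4 m))) := by
  obtain ⟨C, hC, h⟩ := driftD
  refine ⟨2 * C + 1, by positivity, fun L e n q hq hY m t ht => ?_⟩
  have hd := e.deriv_hlf q hq hY fun _ => En (L.s4 m)
  have g := gron (K := 2 * C + 1) (e := 0) ht (by positivity) le_rfl hd fun u hu _ => by
    have h0 : ∀ l x j, 0 ≤ q u l x j := fun l x j => (hq l x).nonneg u hu j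
    rw [add_zero, ← e.Ex_mul]
    refine e.Ex_mono h0 fun l lam => ?_
    have a := h L _ _ (e.mov_sub l lam) m _ 1 one_pos (half_ok _ _)
    have b := Stat.I0_mono ((e.S l).lev lam) (Nice.sum (e.mov l lam) fun y _ =>
      nice_Gam (L.s4 m) (y, true)) (nice_En (L.s4 m)) fun K _ => sum_Gam_le _ (L.s4_nonneg m) K
    have c := mul_le_mul_of_nonneg_left b (by positivity : 0 ≤ C * (1 + 1 / 1))
    linarith
  simpa [Ens.ExS] using g

theorem K_bound : ∃ C : ℝ, 0 < C ∧ ∀ (L : Lat) (e : Ens L) (n : ℕ)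
    (q : ℝ → e.Ω → L.X → Lv n → ℝ) (ε lam T0 : ℝ) (p : ℕ), (∀ l x, IsFlow hlf fun t => q t l x) →
    (∀ l x, x ∉ (e.S l).Y → (e.S l).γ x = 0) → 0 ≤ ε → 1 ≤ p → C * p ≤ lam →
    C * p * ε * T0 ≤ 1 / 2 → (∀ t, 0 ≤ t → t ≤ T0 → e.BPk (q t) ε lam p) →
    ∀ (c : L.X) (R2 t : ℝ), 1 ≤ R2 → 0 ≤ t → t ≤ T0 →
    e.ExS (q t) (fun st => st.I0 fun K => (lam + En (L.wF c R2) K) ^ p) ≤
      2 * e.ExS (q 0) (fun st => st.I0 fun K => (lam + En (L.wF c R2) K) ^ p) := by
  obtain ⟨C, hC, h⟩ := driftK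
  refine ⟨C, hC, fun L e n q ε lam T0 p hq hY hε hp hl hT hBP c R2 t hR ht htT => ?_⟩
  have hR0 : 0 < R2 := by linarith
  have hl0 : 0 ≤ lam := le_trans (by positivity) hl
  obtain ⟨F, hF, hw⟩ := exists_stereo L c hR0
  have hpos : ∀ (k : ℕ) (K : L.Mat), 0 ≤ (lam + En (L.wF c R2) K) ^ k := fun k K =>
    pow_nonneg (add_nonneg hl0 (En_nonneg (wF_nonneg L c hR0) K)) k
  have hd := e.deriv_hlf q hq hY fun _ K => (lam + En (L.wF c R2) K) ^ p
  have g := gron (K := C * p * ε) (e := 0) ht (by positivity) le_rfl hd fun u hu hu' => by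
    have h0 : ∀ l x j, 0 ≤ q u l x j := fun l x j => (hq l x).nonneg u hu j
    have b := mul_le_mul_of_nonneg_left (hBP u hu (hu'.trans htT) c R2 hR)
      (by positivity : 0 ≤ C * p)
    refine le_trans ?_ (b.trans_eq (by unfold Ens.ExS; ring))
    unfold Ens.ExS
    rw [← e.Ex_mul]
    refine e.Ex_mono h0 fun l lam' => ?_
    have a := h L _ _ (e.mov_sub l lam') _ F _ p lam hF (half_ok _ _) hp hl
    rw [hw] at a
    have nW := ((Nice.const lam).add (nice_En (L.wF c R2))).pow (p - 1)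
    exact a.trans (mul_le_mul_of_nonneg_left (Stat.IB_mono _ (e.mov_sub l lam') Subset.rfl
      nW nW (hpos _) (fun _ => le_rfl) (wF_nonneg L c hR0) fun _ _ => le_rfl) (by positivity))
  have hQ : 0 ≤ e.ExS (q 0) (fun st => st.I0 fun K => (lam + En (L.wF c R2) K) ^ p) :=
    e.Ex_nonneg (fun l x j => (hq l x).nonneg 0 le_rfl j) fun l lam => Stat.I0_nonneg _ (hpos p)
  simp only [zero_mul, add_zero, sub_zero] at g
  refine g.trans (mul_le_mul_of_nonneg_right ((Real.exp_le_exp.2 ?_).trans exp_half_le) hQ)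
  exact (mul_le_mul_of_nonneg_left htT (by positivity)).trans hT

/-- the static ensemble with the sites of `s` closed -/
def Stat.zero {L : Lat} (st : Stat L) (s : Finset L.X) : Stat L :=
  { st with
    γ := fun x => if x ∈ s then 0 else st.γ x
    γ_nonneg := fun x => by split_ifs; exacts [le_rfl, st.γ_nonneg x]
    γ_le := fun x => by split_ifs; exacts [zero_le_one, st.γ_le x]
    hY := fun x hx => ⟨(st.hY x hx).1, (st.hY x hx).2.1, (st.hY x hx).2.2.1, by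
      split_ifs; exacts [(st.hY x hx).2.1.le, (st.hY x hx).2.2.2]⟩ }

theorem closeS : ∃ C : ℝ, 0 < C ∧ ∀ (L : Lat) (st : Stat L), (∀ x, x ∉ st.Y → st.γ x = 0) →
    st.Ig 0 (En L.r2) ≤ st.I0 (En L.r2) + C / st.η ^ 4 * ∑ x, st.γ x := by
  obtain ⟨C, hC, h⟩ := driftQ
  obtain ⟨Cd, hCd, hd⟩ := det_r2
  refine ⟨C * Cd, by positivity, fun L st hY => ?_⟩
  have hη := st.η_pos
  have key : ∀ s : Finset L.X, s ⊆ st.Y →
      (st.zero s).I0 (En L.r2) ≤ st.I0 (En L.r2) + C * Cd / st.η ^ 4 * ∑ x ∈ s, st.γ x := by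
    intro s
    induction s using Finset.induction_on with
    | empty =>
      intro _
      simp only [sum_empty, mul_zero, add_zero]
      exact le_of_eq (by unfold Stat.I0 Stat.zero; simp only [notMem_empty, if_false])
    | insert y s hy ih =>
      intro hs
      have hyY : y ∈ st.Y := hs (mem_insert_self _ _)
      have i1 := ih ((subset_insert _ _).trans hs)
      have a := h L (st.zero s) {y} (singleton_subset_iff.2 hyY) _ (L.Phi L.N) (fun _ => 0)
        fun x _ => ⟨le_rfl, (st.zero s).γ_nonneg x⟩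
      rw [L.wt_Phi] at a
      have e1 : (st.zero s).dr {y} (fun _ => 0) (En (L.rho2 L.N)) =
          (st.zero (insert y s)).I0 (En L.r2) - (st.zero s).I0 (En L.r2) := by
        unfold Stat.dr
        rw [sum_singleton]
        have : Function.update (st.zero s).γ y 0 = (st.zero (insert y s)).γ := by
          funext x
          by_cases hx : x = y
          · subst hx; simp [Stat.zero]
          · simp [Stat.zero, hx]
        rw [this]; rfl
      have hb := (st.hY y hyY).2.1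
      have e2 : (st.zero s).IB {y} (fun _ => 1) (L.rho2 L.N) ≤ Cd / st.η ^ 4 * st.γ y := by
        unfold Stat.IB
        simp only [sum_singleton, one_mul]
        have := (st.zero s).Ia_mono (((st.zero s).bm_Kr (nice_Gam (L.rho2 L.N) (y, true))
          hyY).const_mul ((st.zero s).γ y / (st.zero s).b y)) (BM.const (Cd / st.η ^ 4 * st.γ y))
          fun a => by
            have d := hd L st.E st.η st.η (Function.update (st.zero s).γ y (st.b y))
              (Function.update a y (st.a0 y)) hη st.η_le hη st.η_le (fun x => by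
                by_cases hx : x = y
                · subst hx; simp only [Function.update_self]
                  exact ⟨hb.le, (st.hY x hyY).2.2.1, by linarith⟩
                · simp only [Function.update_of_ne hx]
                  exact ⟨(st.zero s).γ_nonneg x, (st.zero s).γ_le x,
                    by linarith [(st.zero s).γ_nonneg x]⟩) (y, true)
            have e3 : L.str st.η (Function.update (st.zero s).γ y (st.b y)) (y, true) = st.b y := by
              simp [Lat.str]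
            have e4 : (st.zero s).γ y = st.γ y := by simp [Stat.zero, hy]
            rw [e3] at d
            rw [e4]
            refine (mul_le_mul_of_nonneg_left d
              (div_nonneg (st.γ_nonneg y) hb.le)).trans_eq ?_
            show st.γ y / st.b y * _ = _
            field_simp
        rwa [Stat.Ia_const] at this
      rw [sum_insert hy]
      have := mul_le_mul_of_nonneg_left e2 hC.le
      have e5 : C * Cd / st.η ^ 4 * (st.γ y + ∑ x ∈ s, st.γ x) =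
        C * (Cd / st.η ^ 4 * st.γ y) + C * Cd / st.η ^ 4 * ∑ x ∈ s, st.γ x := by ring
      linarith
  have e0 : (st.zero st.Y).γ = 0 := by
    funext x; by_cases hx : x ∈ st.Y <;> simp [Stat.zero, hx, hY]
  have := key st.Y Subset.rfl
  unfold Stat.I0 at this
  rw [e0] at this
  exact this.trans (add_le_add le_rfl (mul_le_mul_of_nonneg_left
    (sum_le_sum_of_subset_of_nonneg (subset_univ _) fun x _ _ => st.γ_nonneg x) (by positivity)))

theorem Ens.Ex_gam {L : Lat} (e : Ens L) {n : ℕ} (q : ℝ → e.Ω → L.X → Lv n → ℝ)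
    (hq : ∀ l x, IsFlow hlf fun t => q t l x) {t : ℝ} (ht : 0 ≤ t) :
    e.Ex (q t) (fun l lam => ∑ x, ((e.S l).lev lam).γ x) ≤
      (Real.exp (-t / 2) + (1 / 2) ^ n) * Fintype.card L.X := by
  rw [e.Ex_sum (q t) univ fun x l lam => ((e.S l).lev lam).γ x, mul_comm, ← nsmul_eq_mul]
  refine sum_le_card_nsmul _ _ _ fun x _ => le_trans ?_ (e.Ex_fac q hq x ht)
  exact e.Ex_mono (fun l x j => (hq l x).nonneg t ht j) fun l lam =>
    mul_le_of_le_one_left (by cases lam x <;> simp [fac]) ((e.S l).γ_le x)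

theorem closeE : ∃ C : ℝ, 0 < C ∧ ∀ (L : Lat) (e : Ens L) (n : ℕ)
    (q : ℝ → e.Ω → L.X → Lv n → ℝ) (η : ℝ), (∀ l x, IsFlow hlf fun t => q t l x) →
    (∀ l x, x ∉ (e.S l).Y → (e.S l).γ x = 0) → (∀ l, (e.S l).η = η) → ∀ t, 0 ≤ t →
    ∑ l, e.pr l * (e.S l).Ig 0 (En L.r2) ≤
      e.Qf q t + C / η ^ 4 * ((Real.exp (-t / 2) + (1 / 2) ^ n) * Fintype.card L.X) := by
  obtain ⟨C, hC, h⟩ := closeS
  refine ⟨C, hC, fun L e n q η hq hY hη t ht => ?_⟩
  rw [← e.Ex_label (q := q t) fun l x => (hq l x).sum t]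
  refine le_trans ?_ (add_le_add le_rfl (mul_le_mul_of_nonneg_left (e.Ex_gam q hq ht)
    (by positivity)))
  unfold Ens.Qf Ens.ExS
  rw [← e.Ex_mul, ← e.Ex_add]
  refine e.Ex_mono (fun l x j => (hq l x).nonneg t ht j) fun l lam => ?_
  have := h L ((e.S l).lev lam) fun x hx => by
    show (e.S l).γ x * _ = 0
    rw [hY l x hx, zero_mul]
  rw [← hη l]
  exact this

theorem massE : ∃ C : ℝ, 0 < C ∧ ∀ (L : Lat) (e : Ens L) (n : ℕ)
    (q : ℝ → e.Ω → L.X → Lv n → ℝ) (η D : ℝ), (∀ l x, IsFlow hlf fun t => q t l x) →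
    (∀ l, (e.S l).η = η) → 0 ≤ D →
    (∀ l x, (e.S l).mu x ≤ ENNReal.ofReal D • (volume : Measure ℝ)) → ∀ (m : ℕ) (t : ℝ), 0 ≤ t →
    e.ExS (q t) (fun st => st.I0 (En (L.rho2 m))) ≤
      C * 4 ^ m * D * ((η + Real.exp (-t / 2) + (1 / 2) ^ n) * Fintype.card L.X) := by
  obtain ⟨C, hC, h⟩ := mass
  refine ⟨8 * C, by positivity, fun L e n q η D hq hη hD hmu m t ht => ?_⟩
  have h1 := e.Ex_gam q hq ht
  have h2 := e.Ex_const (q := q t) (fun l x => (hq l x).sum t) (η * Fintype.card L.X)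
  have h3 : e.ExS (q t) (fun st => st.I0 (En (L.rho2 m))) ≤ e.Ex (q t) fun l lam =>
      8 * C * 4 ^ m * D * (η * Fintype.card L.X + ∑ x, ((e.S l).lev lam).γ x) := by
    refine e.Ex_mono (fun l x j => (hq l x).nonneg t ht j) fun l lam => ?_
    have a := h L ((e.S l).lev lam) D hD (hmu l)
    have nd : Nice fun K : L.Mat => ∑ p, dd K p := Nice.sum _ fun p _ => nice_dd p
    have b := Stat.I0_mono ((e.S l).lev lam) (nice_En (L.rho2 m))
      ((Nice.const (8 * 4 ^ m)).mul nd) fun K _ => by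
        unfold En Gam dd
        rw [mul_sum]
        refine sum_le_sum fun p _ => ?_
        rw [mul_sum]
        exact sum_le_sum fun r _ => by
          rw [mul_comm]; exact mul_le_mul_of_nonneg_right (L.rho2_le_pow m p r) (cc_nonneg _ _ _)
    have c := Stat.Ig_mul ((e.S l).lev lam) (8 * 4 ^ m) (fun K : L.Mat => ∑ p, dd K p)
      ((e.S l).lev lam).γ
    have d : ((e.S l).lev lam).η = η := hη l
    rw [sum_add_distrib, sum_const, card_univ, nsmul_eq_mul, d] at a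
    have f := mul_le_mul_of_nonneg_left a (by positivity : (0 : ℝ) ≤ 8 * 4 ^ m)
    unfold Stat.I0 at b f ⊢
    rw [c] at b
    linarith
  rw [e.Ex_mul, e.Ex_add, h2] at h3
  refine h3.trans (mul_le_mul_of_nonneg_left (by linarith) (by positivity))

end Crest.Agent.N334.G
end
end

-- ▼ part N334/G/Gain3
section

/-!
# Row 334, S0519 GAIN: one time interval
-/

set_option autoImplicit false

open MeasureTheory Finset Complex
open scoped BigOperators ComplexConjugate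

noncomputable section

namespace Crest.Agent.N334.G

theorem Pot_bounds (L : Lat) (Y : Finset L.X) {i : ℝ} (hi : 0 ≤ i) (K : L.Mat) :
    -5 * En L.r2 K ≤ L.Pot Y i K ∧ L.Pot Y i K ≤ i * En L.r2 K := by
  unfold Lat.Pot En
  rw [mul_sum, mul_sum]
  constructor <;> refine sum_le_sum fun p _ => ?_ <;> rw [← L.sum_nn, mul_sum] <;>
    refine sum_le_sum fun m _ => ?_
  · have h0 : 0 ≤ 4 ^ m * L.nn K p m := mul_nonneg (by positivity) (Gam_nonneg (L.wh_nonneg m) K _)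
    nlinarith [(L.gd_bdd Y hi K p m).1]
  · have h0 : 0 ≤ 4 ^ m * L.nn K p m := mul_nonneg (by positivity) (Gam_nonneg (L.wh_nonneg m) K _)
    nlinarith [(L.gd_bdd Y hi K p m).2]

theorem En_sub_eq (L : Lat) {m : ℕ} (hm : m ≤ L.N) (K : L.Mat) :
    En L.r2 K - En (L.rho2 m) K = ∑ k ∈ Ico m L.N, 4 ^ k * En (L.s4 k) K := by
  unfold En Gam
  simp only [mul_sum]
  rw [← sum_sub_distrib, sum_comm]
  refine sum_congr rfl fun p _ => ?_
  rw [← sum_sub_distrib, sum_comm]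
  refine sum_congr rfl fun r _ => ?_
  rw [← mul_sub, L.r2_sub_rho2 hm, mul_sum]
  exact sum_congr rfl fun k _ => by ring

theorem geo_quarter (m N : ℕ) : ∑ k ∈ Ico m N, (1 / 4 : ℝ) ^ k ≤ 4 / 3 * (1 / 4) ^ m :=
  (geom_sum_Ico_le_of_lt_one (by norm_num) (by norm_num)).trans_eq (by ring)

theorem sum_four_le (m0 m1 : ℕ) : ∑ k ∈ Ico m0 m1, (4 : ℝ) ^ k ≤ 4 ^ m1 := by
  refine (sum_le_sum_of_subset_of_nonneg (t := range m1)
    (fun k hk => mem_range.2 (mem_Ico.1 hk).2) fun _ _ _ => by positivity).trans ?_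
  rw [geom_sum_eq (by norm_num)]
  have : (0 : ℝ) < 4 ^ m1 := by positivity
  linarith

theorem trunc_le {κ κ0 lam : ℝ} {p : ℕ} (hp : 1 ≤ p) (h0 : 0 < κ0) (hl : 0 ≤ lam) (hκ : 0 ≤ κ) :
    (if κ0 < κ then κ else 0) ≤ 1 / κ0 ^ (p - 1) * (lam + κ) ^ p := by
  split_ifs with h
  · obtain ⟨k, rfl⟩ : ∃ k, p = k + 1 := ⟨p - 1, by omega⟩
    rw [Nat.add_sub_cancel, one_div, ← div_eq_inv_mul, le_div_iff₀ (by positivity), pow_succ,
      mul_comm]
    exact mul_le_mul (pow_le_pow_left₀ h0.le (by linarith) _) (by linarith) hκ (by positivity)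
  · positivity

namespace Ens
variable {L : Lat} (e : Ens L) {n : ℕ}

theorem ExS_I0_mono {q : e.Ω → L.X → Lv n → ℝ} (hq : ∀ l x j, 0 ≤ q l x j)
    {F G : e.Ω → L.Mat → ℝ} (hF : ∀ l, Nice (F l)) (hG : ∀ l, Nice (G l))
    (h : ∀ l K, IsPort K → F l K ≤ G l K) :
    (e.Ex q fun l lam => ((e.S l).lev lam).I0 (F l)) ≤
      e.Ex q fun l lam => ((e.S l).lev lam).I0 (G l) :=
  e.Ex_mono hq fun l _ => Stat.I0_mono _ (hF l) (hG l) (h l)

theorem ExS_I0_mul (q : e.Ω → L.X → Lv n → ℝ) (r : ℝ) (F : L.Mat → ℝ) :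
    (e.Ex q fun l lam => ((e.S l).lev lam).I0 fun K => r * F K) =
      r * e.ExS q fun st => st.I0 F := by
  unfold ExS
  rw [← e.Ex_mul]
  exact congrArg _ (funext fun l => funext fun lam => Stat.Ig_mul _ _ _ _)

theorem ExS_I0_sum (q : e.Ω → L.X → Lv n → ℝ) {ι : Type} (s : Finset ι) {F : ι → L.Mat → ℝ}
    (hF : ∀ i ∈ s, Nice (F i)) :
    (e.Ex q fun l lam => ((e.S l).lev lam).I0 fun K => ∑ i ∈ s, F i K) =
      ∑ i ∈ s, e.ExS q fun st => st.I0 (F i) := by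
  unfold ExS
  rw [← e.Ex_sum]
  exact congrArg _ (funext fun l => funext fun lam => Stat.Ig_sum _ s hF (Stat.γ_nonneg _))

theorem ExS_I0_sub (q : e.Ω → L.X → Lv n → ℝ) {F G : L.Mat → ℝ} (hF : Nice F) (hG : Nice G) :
    (e.ExS q fun st => st.I0 fun K => F K - G K) =
      (e.ExS q fun st => st.I0 F) - e.ExS q fun st => st.I0 G := by
  unfold ExS
  rw [eq_sub_iff_add_eq, ← e.Ex_add]
  refine congrArg _ (funext fun l => funext fun lam => ?_)
  unfold Stat.I0
  beta_reduce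
  rw [Stat.Ig_sub _ hF hG (Stat.γ_nonneg _), sub_add_cancel]
end Ens

theorem interval : ∀ δ : ℝ, 0 < δ → ∃ C : ℝ, 1 ≤ C ∧ ∀ (L : Lat) (e : Ens L) (n : ℕ)
    (q : ℝ → e.Ω → L.X → Lv n → ℝ) (η ε err ta tb κ0 lam Kb Qb D Db : ℝ) (m0 m1 M p : ℕ),
    (∀ l x, IsFlow hlf fun t => q t l x) → (∀ l x, x ∉ (e.S l).Y → (e.S l).γ x = 0) →
    (∀ l, (e.S l).η = η) → 0 < η → 0 ≤ ε → 0 ≤ err → 0 ≤ ta → ta ≤ tb → m0 ≤ m1 → m1 ≤ L.N →
    1 ≤ κ0 → 0 ≤ lam → 1 ≤ p → 0 ≤ D → 0 ≤ Db → 0 ≤ Kb →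
    (∀ l x, (e.S l).mu x ≤ ENNReal.ofReal D • (volume : Measure ℝ)) →
    (∀ t, ta ≤ t → t ≤ tb → e.BPq (q t) ε err) → (∀ t, ta ≤ t → t ≤ tb → e.Qf q t ≤ Qb) →
    (∀ (c : L.X) (R2 t : ℝ), 1 ≤ R2 → ta ≤ t → t ≤ tb →
      e.ExS (q t) (fun st => st.I0 fun K => (lam + En (L.wF c R2) K) ^ p) ≤ Kb) →
    (∀ m, m < L.N → e.ExS (q ta) (fun st => st.I0 (En (L.s4 m))) ≤
      Db / 16 ^ m * Fintype.card L.X) →
    ((m1 : ℝ) - m0) * e.Qf q tb ≤
      (2 * Db / 4 ^ m0 + C * 4 ^ m1 * D * (η + Real.exp (-tb / 2) + (1 / 2) ^ n)) *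
        Fintype.card L.X + C * κ0 ^ 4 * Qb +
      (tb - ta) * (δ * Qb + C * (m1 + κ0 ^ 4) * (ε * Qb + err * Fintype.card L.X) +
        C * (κ0 ^ 4 * (1 / 2) ^ n / η ^ 4 + (M + 1) / (4 ^ M * η ^ 6) + M * Kb / κ0 ^ (p - 1)) *
          Fintype.card L.X) := by
  intro δ hδ
  obtain ⟨i, Λ2, c', C, hi, hΛ, hc', hC, h⟩ := core δ hδ
  obtain ⟨Cm, hCm, hmass⟩ := massE
  have hi0 : 0 ≤ i := by linarith
  set C' := 1 + C + C ^ 2 + Cm + c' * (i + 5) with hC'
  have hci : 0 ≤ c' * (i + 5) := by positivity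
  have hCC : C ≤ C' ∧ C ^ 2 ≤ C' ∧ Cm ≤ C' ∧ C + c' * (i + 5) ≤ C' ∧ 1 ≤ C' := by
    have : 0 ≤ C ^ 2 := by positivity
    refine ⟨?_, ?_, ?_, ?_, ?_⟩ <;> rw [hC'] <;> linarith
  refine ⟨C', hCC.2.2.2.2, fun L e n q η ε err ta tb κ0 lam Kb Qb D Db m0 m1 M p hq hY hη hη0 hε
    herr hta hab hm01 hm1 hκ hl hp hD hDb hKb hmu hBP hQ hK hD0 => ?_⟩
  set V : ℝ := (Fintype.card L.X : ℝ) with hV
  have hV0 : 0 ≤ V := by positivity
  have hq0 : ∀ t, ta ≤ t → ∀ l x j, 0 ≤ q t l x j := fun t ht l x j =>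
    (hq l x).nonneg t (hta.trans ht) j
  have hQ0 : ∀ t, ta ≤ t → 0 ≤ e.Qf q t := fun t ht => e.Ex_nonneg (hq0 t ht) fun l lam =>
    Stat.I0_nonneg _ fun K => En_nonneg L.r2_nonneg K
  have hQb : 0 ≤ Qb := (hQ0 ta le_rfl).trans (hQ ta le_rfl hab)
  have k4 : 1 ≤ κ0 ^ 4 := one_le_pow₀ hκ
  have d1 := e.deriv_hlf q hq hY fun _ => L.Lam m0 m1
  have d2 := e.deriv_hlf q hq hY fun l => L.Pot (e.S l).Y i
  have d3 := e.deriv_hlf q hq hY fun _ => En L.r2
  have hd := fun t => ((d1 t).fun_sub ((d2 t).const_mul c')).fun_add ((d3 t).const_mul (C * κ0 ^ 4))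
  set B := δ * Qb + C' * (m1 + κ0 ^ 4) * (ε * Qb + err * V) +
    C' * (κ0 ^ 4 * (1 / 2) ^ n / η ^ 4 + (M + 1) / (4 ^ M * η ^ 6) + M * Kb / κ0 ^ (p - 1)) * V
    with hB
  have hC'0 : 0 ≤ C' := by linarith [hCC.2.2.2.2]
  have hB0 : 0 ≤ B := by positivity
  have g := gron (K := 0) (e := B) hab le_rfl hB0 hd fun u hu hu' => by
    have h0 := hq0 u hu
    have hs : ∀ l x, ∑ j, q u l x j = 1 := fun l x => (hq l x).sum u
    rw [zero_mul, zero_add, sub_eq_add_neg, ← neg_mul, ← e.Ex_mul, ← e.Ex_mul, ← e.Ex_add,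
      ← e.Ex_add]
    have a := e.Ex_mono h0 fun l lam' => h L ((e.S l).lev lam') (e.mov l lam') m0 m1 M κ0
      ((1 / 2) ^ n) (e.mov_sub l lam') hm1 hκ (by positivity) (e.floor_le l lam')
    refine le_trans (le_of_eq (congrArg _ (funext fun l => funext fun lam' => ?_))) (a.trans ?_)
    · show _ = _ - c' * ((e.S l).lev lam').dr _ _ (L.Pot (e.S l).Y i) + _
      ring
    have eη : ∀ l (lam' : L.X → Lv n), ((e.S l).lev lam').η = η := fun l _ => hη l
    simp only [eη]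
    rw [e.Ex_add, e.Ex_add, e.Ex_add, e.Ex_mul, e.Ex_mul, e.Ex_mul _ C, e.Ex_const hs,
      e.Ex_sum (q u) (range (min M L.N))]
    have t1 : ∀ m ∈ range (min M L.N), (e.Ex (q u) fun l lam' => ∑ c, ((e.S l).lev lam').I0
        fun K => if κ0 < L.kap Λ2 c m K then L.kap Λ2 c m K else 0) ≤ Kb / κ0 ^ (p - 1) * V := by
      intro m _
      rw [e.Ex_sum (q u) univ, hV, mul_comm, ← nsmul_eq_mul]
      refine sum_le_card_nsmul _ _ _ fun c _ => ?_
      have hR : 1 ≤ Λ2 * 4 ^ m := one_le_mul_of_one_le_of_one_le hΛ (one_le_pow₀ (by norm_num))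
      have nk : Nice (L.kap Λ2 c m) := nice_En _
      refine (e.ExS_I0_mono h0 (G := fun _ K => 1 / κ0 ^ (p - 1) *
        (lam + En (L.wF c (Λ2 * 4 ^ m)) K) ^ p) (fun _ => Nice.ite
          (measurableSet_lt measurable_const nk.meas) nk (Nice.const 0))
        (fun _ => (Nice.const _).mul (((Nice.const lam).add (nice_En _)).pow p))
        fun _ K _ => trunc_le hp (by linarith) hl
          (En_nonneg (wF_nonneg L c (by linarith)) K)).trans ?_
      rw [e.ExS_I0_mul, div_eq_mul_one_div Kb, mul_comm Kb]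
      exact mul_le_mul_of_nonneg_left (hK c _ u hR hu hu') (by positivity)
    have t2 := sum_le_card_nsmul _ _ _ t1
    rw [card_range, nsmul_eq_mul] at t2
    have t3 : ((min M L.N : ℕ) : ℝ) * (Kb / κ0 ^ (p - 1) * V) ≤ M * (Kb / κ0 ^ (p - 1) * V) :=
      mul_le_mul_of_nonneg_right (by exact_mod_cast min_le_left _ _) (by positivity)
    have t4 := mul_le_mul (hCC.1) (t2.trans t3) (sum_nonneg fun m _ => e.Ex_nonneg h0
      fun l lam' => sum_nonneg fun c _ => Stat.I0_nonneg _ fun K => by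
        split_ifs with h
        · linarith
        · exact le_rfl) hC'0
    have t5 := mul_le_mul_of_nonneg_left (hQ u hu hu') hδ.le
    have t6 : e.ExS (q u) (fun st => st.IB st.Y (fun _ => 1) L.r2) ≤ ε * Qb + err * V :=
      (hBP u hu hu').trans (add_le_add (mul_le_mul_of_nonneg_left (hQ u hu hu') hε) le_rfl)
    have t7 : C ^ 2 * (m1 + κ0 ^ 4) * e.ExS (q u) (fun st => st.IB st.Y (fun _ => 1) L.r2) ≤
        C' * (m1 + κ0 ^ 4) * (ε * Qb + err * V) :=
      (mul_le_mul_of_nonneg_left t6 (by positivity)).trans (by gcongr; exact hCC.2.1)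
    have t8 : C * (κ0 ^ 4 * (1 / 2) ^ n / η ^ 4 + (M + 1) / (4 ^ M * η ^ 6)) * V ≤
        C' * (κ0 ^ 4 * (1 / 2) ^ n / η ^ 4 + (M + 1) / (4 ^ M * η ^ 6)) * V := by
      gcongr; exact hCC.1
    have t9 : B = δ * Qb + C' * (m1 + κ0 ^ 4) * (ε * Qb + err * V) +
      C' * (κ0 ^ 4 * (1 / 2) ^ n / η ^ 4 + (M + 1) / (4 ^ M * η ^ 6)) * V +
      C' * (M * (Kb / κ0 ^ (p - 1) * V)) := by rw [hB]; ring
    rw [t9]
    exact add_le_add (add_le_add (add_le_add t5 t7) t8) t4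
  simp only [zero_mul, Real.exp_zero, one_mul] at g
  -- the values at the end points
  have nP : ∀ l, Nice (L.Pot (e.S l).Y i) := fun l => L.nice_Pot _ hi0
  have p1 := e.ExS_I0_mono (hq0 tb hab) nP (fun _ => (Nice.const i).mul (nice_En L.r2))
    fun l K _ => (Pot_bounds L _ hi0 K).2
  have p2 := e.ExS_I0_mono (hq0 ta le_rfl) (fun _ => (Nice.const (-5)).mul (nice_En L.r2)) nP
    fun l K _ => (Pot_bounds L _ hi0 K).1
  rw [e.ExS_I0_mul] at p1 p2
  have nL : ∀ m ∈ Ico m0 m1, Nice fun K => En L.r2 K - En (L.rho2 m) K := fun _ _ =>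
    (nice_En _).sub (nice_En _)
  have l1 : ((m1 : ℝ) - m0) * e.Qf q tb - Cm * 4 ^ m1 * D *
      ((η + Real.exp (-tb / 2) + (1 / 2) ^ n) * V) ≤
      e.Ex (q tb) fun l lam => ((e.S l).lev lam).I0 (L.Lam m0 m1) := by
    unfold Lat.Lam
    rw [e.ExS_I0_sum _ _ nL, sum_congr rfl fun m _ => e.ExS_I0_sub _ (nice_En _) (nice_En _),
      sum_sub_distrib, sum_const, Nat.card_Ico, nsmul_eq_mul, Nat.cast_sub hm01]
    refine sub_le_sub_left ((sum_le_sum fun m _ =>
      hmass L e n q η D hq hη hD hmu m tb (hta.trans hab)).trans ?_) _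
    rw [← sum_mul, ← sum_mul, ← mul_sum]
    gcongr
    exact sum_four_le _ _
  have l2 : (e.Ex (q ta) fun l lam => ((e.S l).lev lam).I0 (L.Lam m0 m1)) ≤
      2 * Db / 4 ^ m0 * V := by
    unfold Lat.Lam
    rw [e.ExS_I0_sum _ _ nL]
    have : ∀ m ∈ Ico m0 m1, (e.ExS (q ta) fun st => st.I0 fun K => En L.r2 K - En (L.rho2 m) K) ≤
        4 / 3 * Db * V * (1 / 4) ^ m := by
      intro m hm
      have hmN : m ≤ L.N := (mem_Ico.1 hm).2.le.trans hm1
      simp only [En_sub_eq L hmN]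
      unfold Ens.ExS
      rw [e.ExS_I0_sum _ _ fun k _ => (Nice.const _).mul (nice_En _)]
      calc _ ≤ ∑ k ∈ Ico m L.N, Db * V * (1 / 4) ^ k := sum_le_sum fun k hk => by
            unfold Ens.ExS
            rw [e.ExS_I0_mul]
            refine (mul_le_mul_of_nonneg_left (hD0 k (mem_Ico.1 hk).2) (by positivity)).trans_eq ?_
            rw [show (16 : ℝ) = 4 * 4 by norm_num, mul_pow, one_div, inv_pow]
            field_simp
        _ ≤ _ := by
            rw [← mul_sum]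
            exact (mul_le_mul_of_nonneg_left (geo_quarter _ _) (by positivity)).trans_eq (by ring)
    refine (sum_le_sum this).trans ?_
    rw [← mul_sum]
    refine (mul_le_mul_of_nonneg_left (geo_quarter _ _) (by positivity)).trans ?_
    have e1 : 2 * Db / 4 ^ m0 * V = 2 * (Db * V * (1 / 4) ^ m0) := by
      rw [one_div, inv_pow]; ring
    have e2 : 0 ≤ Db * V * (1 / 4) ^ m0 := by positivity
    rw [e1]; linarith
  have qa := hQ ta le_rfl hab
  have qb := hQ tb hab le_rfl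
  have z1 : 0 ≤ C * κ0 ^ 4 * e.Qf q tb := mul_nonneg (by positivity) (hQ0 tb hab)
  have z2 : C * κ0 ^ 4 * e.Qf q ta ≤ C * κ0 ^ 4 * Qb := by gcongr
  have z3 := mul_le_mul_of_nonneg_left (p1.trans (mul_le_mul_of_nonneg_left qb hi0)) hc'.le
  have z4 := mul_le_mul_of_nonneg_left p2 hc'.le
  have z5 : c' * (5 * e.Qf q ta) ≤ c' * (5 * Qb) := by gcongr
  have z6 : c' * (i + 5) * Qb ≤ c' * (i + 5) * κ0 ^ 4 * Qb := by
    calc _ = c' * (i + 5) * 1 * Qb := by ring
      _ ≤ _ := by gcongr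
  have z7 : (C + c' * (i + 5)) * κ0 ^ 4 * Qb ≤ C' * κ0 ^ 4 * Qb := by gcongr; exact hCC.2.2.2.1
  have z8 : Cm * 4 ^ m1 * D * ((η + Real.exp (-tb / 2) + (1 / 2) ^ n) * V) ≤
      C' * 4 ^ m1 * D * ((η + Real.exp (-tb / 2) + (1 / 2) ^ n) * V) := by
    gcongr; exact hCC.2.2.1
  unfold Ens.Qf Ens.ExS at *
  linarith

end Crest.Agent.N334.G
end
end

-- ▼ part N334/G/Gain4
section

/-!
# Row 334, S0519 GAIN: numerical bookkeeping
-/

set_option autoImplicit false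

noncomputable section

namespace Crest.Agent.N334.G

theorem exp_le_four_pow (m : ℕ) : Real.exp m ≤ 4 ^ m := by
  rw [← mul_one (m : ℝ), Real.exp_nat_mul]
  exact pow_le_pow_left₀ (Real.exp_pos _).le (by linarith [Real.exp_one_lt_d9]) _

theorem four_pow_le_exp (m : ℕ) : (4 : ℝ) ^ m ≤ Real.exp (2 * m) := by
  rw [mul_comm, Real.exp_nat_mul]
  refine pow_le_pow_left₀ (by norm_num) ?_ _
  have h : Real.exp 2 = Real.exp 1 * Real.exp 1 := by rw [← Real.exp_add]; norm_num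
  nlinarith [Real.exp_one_gt_d9]

theorem half_pow_le_exp (n : ℕ) : (1 / 2 : ℝ) ^ n ≤ Real.exp (-(n / 2)) := by
  rw [show -((n : ℝ) / 2) = n * (-(1 / 2)) by ring, Real.exp_nat_mul]
  refine pow_le_pow_left₀ (by norm_num) ?_ _
  linarith [Real.add_one_le_exp (-(1 / 2) : ℝ)]

theorem exists_tau : ∃ τ0 : ℝ, ∀ τ, τ0 ≤ τ → 1 ≤ τ → Real.exp (-τ ^ 16) ≤ 1 / τ ^ 300 := by
  obtain ⟨τ0, h⟩ := Filter.eventually_atTop.1
    ((Real.tendsto_pow_mul_exp_neg_atTop_nhds_zero 300).eventually (gt_mem_nhds one_pos))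
  refine ⟨τ0, fun τ h0 h1 => ?_⟩
  rw [le_div_iff₀ (by positivity), mul_comm]
  refine le_trans (mul_le_mul_of_nonneg_left (Real.exp_le_exp.2 ?_) (by positivity)) (h τ h0).le
  exact neg_le_neg (le_self_pow₀ h1 (by norm_num))

theorem scales {c CD ta : ℝ} (hCD : 0 < CD) (hc : c = 32 * (CD + 3)) (hta : 1 ≤ ta) :
    c * ta / 16 ≤ (⌊c * ta / 8⌋₊ : ℝ) - ⌈(CD + 2) * ta⌉₊ := by
  have h1 := Nat.lt_floor_add_one (c * ta / 8)
  have h2 := Nat.ceil_lt_add_one (show 0 ≤ (CD + 2) * ta by positivity)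
  rw [hc] at h1 ⊢
  nlinarith

theorem nums {C c CD τ ta η V Qb Qt : ℝ} {n : ℕ} (hC : 1 ≤ C) (hCD : 0 < CD)
    (hc : c = 32 * (CD + 3)) (hτ : 1000 * c ^ 12 * C ≤ τ)
    (hE : Real.exp (-τ ^ 16) ≤ 1 / τ ^ 300) (hta : τ ^ 16 ≤ ta) (htb : c * ta ≤ τ ^ 32)
    (hη1 : Real.exp (-τ ^ 32) ≤ η) (hη2 : η ≤ Real.exp (-τ ^ 32 / 2)) (hn : 20 * τ ^ 32 ≤ n)
    (hV : 0 ≤ V) (hQb : 0 ≤ Qb) (hQt : 0 ≤ Qt)
    (H : ((⌊c * ta / 8⌋₊ : ℝ) - ⌈(CD + 2) * ta⌉₊) * Qt ≤
      (2 * Real.exp (τ ^ 16 + CD * ta) / 4 ^ ⌈(CD + 2) * ta⌉₊ + C * 4 ^ ⌊c * ta / 8⌋₊ *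
        Real.exp (τ ^ 16) * (η + Real.exp (-(c * ta) / 2) + (1 / 2) ^ n)) * V +
      C * (τ ^ 2) ^ 4 * Qb + (c * ta - ta) * (1 / (96 * c ^ 12) * Qb +
        C * (⌊c * ta / 8⌋₊ + (τ ^ 2) ^ 4) * (1 / τ ^ 64 * Qb + 1 / τ ^ 288 * V) +
        C * ((τ ^ 2) ^ 4 * (1 / 2) ^ n / η ^ 4 +
          (⌈10 * τ ^ 32⌉₊ + 1) / (4 ^ ⌈10 * τ ^ 32⌉₊ * η ^ 6) +
          ⌈10 * τ ^ 32⌉₊ * (2 * τ ^ 300) / (τ ^ 2) ^ (300 - 1)) * V)) :
    Qt ≤ Qb / (2 * c ^ 12) + V / τ ^ 200 := by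
  have hc96 : 96 ≤ c := by rw [hc]; linarith
  have hc12 : 1 ≤ c ^ 12 := one_le_pow₀ (by linarith)
  have hτC : 1000 * C ≤ τ := by nlinarith
  have hτ1 : 1000 ≤ τ := by linarith
  have hτ1' : 1 ≤ τ := by linarith
  have hτ0 : 0 < τ := by linarith
  have pw : ∀ {a b : ℕ}, a ≤ b → τ ^ a ≤ τ ^ b := fun h => pow_le_pow_right₀ hτ1' h
  have ipw : ∀ {a b : ℕ}, a ≤ b → 1 / τ ^ b ≤ 1 / τ ^ a := fun h =>
    one_div_le_one_div_of_le (by positivity) (pw h)
  have ha1 : 1 ≤ τ ^ 16 := one_le_pow₀ hτ1'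
  have hT1 : 1 ≤ τ ^ 32 := one_le_pow₀ hτ1'
  have hta1 : 1 ≤ ta := ha1.trans hta
  have haT : τ ^ 16 ≤ τ ^ 32 := pw (by norm_num)
  have hη0 : 0 < η := (Real.exp_pos _).trans_le hη1
  set tb := c * ta with htb'
  have h16 : 16 * ta ≤ tb := by rw [htb']; nlinarith
  set m0 := ⌈(CD + 2) * ta⌉₊
  set m1 := ⌊tb / 8⌋₊
  set M := ⌈10 * τ ^ 32⌉₊
  have hm0 : (CD + 2) * ta ≤ m0 := Nat.le_ceil _
  have hm1 : (m1 : ℝ) ≤ tb / 8 := Nat.floor_le (by linarith)
  have hM : 10 * τ ^ 32 ≤ M := Nat.le_ceil _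
  have hM' : (M : ℝ) ≤ 11 * τ ^ 32 := by
    have := Nat.ceil_lt_add_one (show 0 ≤ 10 * τ ^ 32 by positivity); linarith
  have hsc : tb / 16 ≤ (m1 : ℝ) - m0 := scales hCD hc hta1
  have hhalf : (1 / 2 : ℝ) ^ n ≤ Real.exp (-(10 * τ ^ 32)) :=
    (half_pow_le_exp n).trans (Real.exp_le_exp.2 (by linarith))
  have A1 : 2 * Real.exp (τ ^ 16 + CD * ta) / 4 ^ m0 ≤ 2 * (1 / τ ^ 255) := by
    rw [mul_div_assoc]
    refine mul_le_mul_of_nonneg_left (le_trans ?_ (hE.trans (ipw (by norm_num)))) two_pos.le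
    rw [div_le_iff₀ (by positivity)]
    refine le_trans ?_ (mul_le_mul_of_nonneg_left (exp_le_four_pow m0) (Real.exp_pos _).le)
    rw [← Real.exp_add]
    exact Real.exp_le_exp.2 (by nlinarith)
  have hCτ : ∀ {k : ℝ} {a : ℕ}, 0 ≤ k → k ≤ 1000 → 256 ≤ a → k * C * (1 / τ ^ a) ≤ 1 / τ ^ 255 := by
    intro k a hk hk' ha
    calc k * C * (1 / τ ^ a) ≤ τ * (1 / τ ^ 256) :=
          mul_le_mul (by nlinarith) (ipw ha) (by positivity) hτ0.le
      _ = 1 / τ ^ 255 := by field_simp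
  have A2 : C * 4 ^ m1 * Real.exp (τ ^ 16) * (η + Real.exp (-tb / 2) + (1 / 2) ^ n) ≤
      1 / τ ^ 255 := by
    have b1 : η + Real.exp (-tb / 2) + (1 / 2) ^ n ≤ 3 * Real.exp (-tb / 2) := by
      have := hη2.trans (Real.exp_le_exp.2 (show -τ ^ 32 / 2 ≤ -tb / 2 by linarith))
      have := hhalf.trans (Real.exp_le_exp.2 (show -(10 * τ ^ 32) ≤ -tb / 2 by linarith))
      linarith
    calc _ ≤ C * Real.exp (2 * m1) * Real.exp (τ ^ 16) * (3 * Real.exp (-tb / 2)) := by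
          gcongr; exact four_pow_le_exp m1
      _ = 3 * C * Real.exp (2 * m1 + τ ^ 16 + -tb / 2) := by
          rw [Real.exp_add, Real.exp_add]; ring
      _ ≤ 3 * C * (1 / τ ^ 300) := by
          refine mul_le_mul_of_nonneg_left (le_trans (Real.exp_le_exp.2 ?_) hE) (by positivity)
          linarith
      _ ≤ _ := hCτ (by norm_num) (by norm_num) (by norm_num)
  have k8 : (τ ^ 2) ^ 4 = τ ^ 8 := by ring
  have hm8 : (m1 : ℝ) + (τ ^ 2) ^ 4 ≤ 2 * τ ^ 32 := by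
    have : τ ^ 8 ≤ τ ^ 32 := pw (by norm_num)
    rw [k8]; linarith
  have A3 : 16 * (C * (m1 + (τ ^ 2) ^ 4) * (1 / τ ^ 288)) ≤ 1 / τ ^ 255 := by
    calc _ ≤ 16 * (C * (2 * τ ^ 32) * (1 / τ ^ 288)) := by gcongr
      _ = 32 * C * (1 / τ ^ 256) := by field_simp; ring
      _ ≤ _ := hCτ (by norm_num) (by norm_num) (by norm_num)
  have hηk : ∀ k : ℕ, Real.exp (-(k * τ ^ 32)) ≤ η ^ k := fun k => by
    rw [show -(k * τ ^ 32) = k * (-τ ^ 32) by ring, Real.exp_nat_mul]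
    exact pow_le_pow_left₀ (Real.exp_pos _).le hη1 k
  have A4 : 16 * (C * ((τ ^ 2) ^ 4 * (1 / 2) ^ n / η ^ 4 + (M + 1) / (4 ^ M * η ^ 6) +
      M * (2 * τ ^ 300) / (τ ^ 2) ^ (300 - 1))) ≤ 1 / τ ^ 255 := by
    have b1 : (τ ^ 2) ^ 4 * (1 / 2) ^ n / η ^ 4 ≤ 1 / τ ^ 266 := by
      have : (1 / 2) ^ n / η ^ 4 ≤ 1 / τ ^ 300 := by
        refine le_trans ?_ hE
        rw [div_le_iff₀ (by positivity)]
        refine hhalf.trans (le_trans ?_ (mul_le_mul_of_nonneg_left (hηk 4) (Real.exp_pos _).le))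
        rw [← Real.exp_add]
        exact Real.exp_le_exp.2 (by push_cast; linarith)
      calc _ = τ ^ 8 * ((1 / 2) ^ n / η ^ 4) := by ring
        _ ≤ τ ^ 34 * (1 / τ ^ 300) := mul_le_mul (pw (by norm_num)) this (by positivity)
            (by positivity)
        _ = _ := by field_simp
    have b2 : ((M : ℝ) + 1) / (4 ^ M * η ^ 6) ≤ 12 * (1 / τ ^ 266) := by
      have : 1 / (4 ^ M * η ^ 6) ≤ 1 / τ ^ 300 := by
        refine le_trans ?_ hE
        rw [div_le_iff₀ (by positivity)]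
        refine le_trans ?_ (mul_le_mul_of_nonneg_left (mul_le_mul (exp_le_four_pow M) (hηk 6)
          (Real.exp_pos _).le (by positivity)) (Real.exp_pos _).le)
        rw [← Real.exp_add, ← Real.exp_add]
        exact Real.one_le_exp (by push_cast; linarith)
      calc _ = ((M : ℝ) + 1) * (1 / (4 ^ M * η ^ 6)) := by ring
        _ ≤ (12 * τ ^ 34) * (1 / τ ^ 300) := mul_le_mul (by
            have : τ ^ 32 ≤ τ ^ 34 := pw (by norm_num)
            linarith) this (by positivity) (by positivity)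
        _ = _ := by field_simp
    have b3 : (M : ℝ) * (2 * τ ^ 300) / (τ ^ 2) ^ (300 - 1) ≤ 22 * (1 / τ ^ 266) := by
      calc _ ≤ 11 * τ ^ 32 * (2 * τ ^ 300) / (τ ^ 2) ^ (300 - 1) := by gcongr
        _ = _ := by norm_num; field_simp; ring
    calc _ ≤ 16 * (C * (35 * (1 / τ ^ 266))) := by gcongr; linarith
      _ = 560 * C * (1 / τ ^ 266) := by ring
      _ ≤ _ := hCτ (by norm_num) (by norm_num) (by norm_num)
  have hc0 : 0 < c ^ 12 := by positivity
  have hq : ∀ {k : ℝ} {a : ℕ}, 0 ≤ k → k ≤ 32 → 1 ≤ a → k * C / τ ^ a ≤ 1 / (6 * c ^ 12) := by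
    intro k a hk hk' ha
    rw [div_le_div_iff₀ (by positivity) (by positivity), one_mul]
    have : τ ≤ τ ^ a := le_self_pow₀ hτ1' (by omega)
    have : 0 ≤ c ^ 12 * C := by positivity
    nlinarith
  have B2 : C * (τ ^ 2) ^ 4 ≤ tb / 16 * (1 / (6 * c ^ 12)) := by
    have := hq (k := 1) (a := 8) (by norm_num) (by norm_num) (by norm_num)
    calc _ = τ ^ 16 * (1 * C / τ ^ 8) := by field_simp
      _ ≤ _ := mul_le_mul (by linarith) this (by positivity) (by linarith)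
  have B3 : 16 * (C * (m1 + (τ ^ 2) ^ 4) * (1 / τ ^ 64)) ≤ 1 / (6 * c ^ 12) := by
    calc _ ≤ 16 * (C * (2 * τ ^ 32) * (1 / τ ^ 64)) := by gcongr
      _ = 32 * C / τ ^ 32 := by field_simp; ring
      _ ≤ _ := hq (by norm_num) (by norm_num) (by norm_num)
  set w := 1 / τ ^ 255 with hw
  set d := 1 / (6 * c ^ 12) with hd
  set X1 := 2 * Real.exp (τ ^ 16 + CD * ta) / 4 ^ m0
  set X2 := C * 4 ^ m1 * Real.exp (τ ^ 16) * (η + Real.exp (-tb / 2) + (1 / 2) ^ n)
  set X3 := C * (m1 + (τ ^ 2) ^ 4) with hX3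
  set X4 := C * ((τ ^ 2) ^ 4 * (1 / 2) ^ n / η ^ 4 + (M + 1) / (4 ^ M * η ^ 6) +
      M * (2 * τ ^ 300) / (τ ^ 2) ^ (300 - 1)) with hX4
  have hw0 : 0 ≤ w := by positivity
  have hd0 : 0 ≤ d := by positivity
  have e96 : 1 / (96 * c ^ 12) = d / 16 := by rw [hd]; field_simp; norm_num
  have hR : 1 / (96 * c ^ 12) * Qb + X3 * (1 / τ ^ 64 * Qb + 1 / τ ^ 288 * V) + X4 * V ≤
      (2 * d * Qb + 2 * w * V) / 16 := by
    have y1 := mul_le_mul_of_nonneg_right B3 hQb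
    have y2 := mul_le_mul_of_nonneg_right A3 hV
    have y3 := mul_le_mul_of_nonneg_right A4 hV
    rw [e96]; linarith
  have hR0 : 0 ≤ 1 / (96 * c ^ 12) * Qb + X3 * (1 / τ ^ 64 * Qb + 1 / τ ^ 288 * V) + X4 * V := by
    positivity
  have y4 := mul_le_mul (show tb - ta ≤ tb by linarith) hR hR0 (by linarith)
  have y5 : (X1 + X2) * V ≤ tb / 16 * (3 * w * V) := by
    calc _ ≤ 1 * (3 * w * V) := by
          rw [one_mul]; exact mul_le_mul_of_nonneg_right (by linarith) hV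
      _ ≤ _ := mul_le_mul_of_nonneg_right (by linarith) (by positivity)
  have y6 := mul_le_mul_of_nonneg_right B2 hQb
  have y7 := mul_le_mul_of_nonneg_right hsc hQt
  have y8 : tb / 16 * Qt ≤ tb / 16 * (3 * d * Qb + 5 * w * V) := by linarith
  have y9 := le_of_mul_le_mul_left y8 (by linarith)
  have e1 : 3 * d * Qb = Qb / (2 * c ^ 12) := by rw [hd]; field_simp; ring
  have e2 : 5 * w * V ≤ V / τ ^ 200 := by
    rw [div_eq_mul_one_div V, mul_comm V]
    refine mul_le_mul_of_nonneg_right ?_ hV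
    calc 5 * w ≤ τ ^ 55 * (1 / τ ^ 255) := mul_le_mul_of_nonneg_right
          (le_trans (by linarith) (le_self_pow₀ hτ1' (by norm_num))) hw0
      _ = _ := by field_simp
  linarith

theorem iterate {Q : ℝ → ℝ} {c a u Q0 : ℝ} (hc : 2 ≤ c) (ha : 1 ≤ a) (hu : 0 ≤ u) (hQ0 : 0 ≤ Q0)
    (h0 : Q a ≤ Q0) (h : ∀ t, a ≤ t → c * t ≤ a ^ 2 → Q (c * t) ≤ Q t / c ^ 12 + u) :
    ∃ t, a ≤ t ∧ t ≤ a ^ 2 ∧ Q t ≤ c ^ 12 / a ^ 12 * Q0 + 2 * u := by
  have hc1 : 1 ≤ c := by linarith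
  have hc2 : 2 ≤ c ^ 12 := hc.trans (le_self_pow₀ hc1 (by norm_num))
  have key : ∀ j : ℕ, c ^ j ≤ a → Q (c ^ j * a) ≤ Q0 / (c ^ j) ^ 12 + 2 * u := by
    intro j
    induction j with
    | zero => intro _; simp only [pow_zero, one_mul, one_pow, div_one]; linarith
    | succ j ih =>
      intro hj
      have h1 : c ^ j ≤ a := (pow_le_pow_right₀ hc1 (Nat.le_succ j)).trans hj
      have h2 := h (c ^ j * a) (le_mul_of_one_le_left (by linarith) (one_le_pow₀ hc1))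
        (by rw [← mul_assoc, ← pow_succ', sq]; exact mul_le_mul_of_nonneg_right hj (by linarith))
      rw [← mul_assoc, ← pow_succ'] at h2
      have h3 := div_le_div_of_nonneg_right (ih h1) (by positivity : 0 ≤ c ^ 12)
      have h4 : (Q0 / (c ^ j) ^ 12 + 2 * u) / c ^ 12 = Q0 / (c ^ (j + 1)) ^ 12 + 2 * u / c ^ 12 := by
        field_simp; ring
      have h5 : 2 * u / c ^ 12 ≤ u := by
        rw [div_le_iff₀ (by positivity)]; nlinarith
      linarith
  obtain ⟨j, h1, h2⟩ := exists_nat_pow_near ha (show 1 < c by linarith)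
  refine ⟨c ^ j * a, le_mul_of_one_le_left (by linarith) (one_le_pow₀ hc1),
    by rw [sq]; exact mul_le_mul_of_nonneg_right h1 (by linarith), (key j h1).trans ?_⟩
  refine add_le_add ?_ le_rfl
  rw [div_eq_mul_one_div Q0, mul_comm]
  refine mul_le_mul_of_nonneg_right ?_ hQ0
  rw [div_le_div_iff₀ (by positivity) (by positivity), one_mul, ← mul_pow, ← pow_succ']
  exact pow_le_pow_left₀ (by linarith) h2.le _

end Crest.Agent.N334.G
end
end

-- ▼ part N334/G/Gain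

/-!
# Row 334, S0519 GAIN: the gain theorem
-/

set_option autoImplicit false

open MeasureTheory Finset Complex
open scoped BigOperators ComplexConjugate

noncomputable section

namespace Crest.Agent.N334.G

theorem gain : ∃ (τ0 Cl C : ℝ) (p : ℕ), 1 ≤ p ∧ ∀ τ : ℝ, τ0 ≤ τ →
    ∀ (L : Lat) (e : Ens L) (n : ℕ) (q : ℝ → e.Ω → L.X → Lv n → ℝ) (η lam : ℝ),
    (∀ l, (e.S l).η = η) → Real.exp (-τ ^ 32) ≤ η → η ≤ Real.exp (-τ ^ 32 / 2) →
    τ ^ 32 ≤ L.N → 20 * τ ^ 32 ≤ n →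
    (∀ l x, x ∉ (e.S l).Y → (e.S l).γ x = 0) →
    (∀ l x, (e.S l).mu x ≤ ENNReal.ofReal (Real.exp (τ ^ 16)) • (volume : Measure ℝ)) →
    (∀ l x, IsFlow hlf fun t => q t l x) → Cl ≤ lam → lam ≤ τ →
    (∀ t, 0 ≤ t → t ≤ 20 * τ ^ 32 → e.BPq (q t) (1 / τ ^ 64) (1 / τ ^ 288) ∧
      e.BPk (q t) (1 / τ ^ 64) lam p) →
    e.ExS (q 0) (fun st => st.I0 (En L.r2)) ≤ τ ^ 16 * Fintype.card L.X →
    (∀ m, m < L.N → e.ExS (q 0) (fun st => st.I0 (En (L.s4 m))) ≤
      Real.exp (τ ^ 16) / 16 ^ m * Fintype.card L.X) →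
    (∀ (c : L.X) (R2 : ℝ), 1 ≤ R2 →
      e.ExS (q 0) (fun st => st.I0 fun K => (lam + En (L.wF c R2) K) ^ p) ≤ τ ^ p) →
    ∑ l, e.pr l * (e.S l).Ig 0 (En L.r2) ≤ C / τ ^ 160 * Fintype.card L.X 
  := by
  obtain ⟨CQ, hCQ, hQ⟩ := Q_mono
  obtain ⟨CD, hCD, hD⟩ := D_bound
  obtain ⟨CK, hCK, hK⟩ := K_bound
  obtain ⟨Cc, hCc, hcl⟩ := closeE
  obtain ⟨τ1, hτ1⟩ := exists_tau
  set c := 32 * (CD + 3) with hc
  have hc96 : 96 ≤ c := by rw [hc]; linarith
  have hc12 : 1 ≤ c ^ 12 := one_le_pow₀ (by linarith)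
  obtain ⟨C, hC, hI⟩ := interval (1 / (96 * c ^ 12)) (by positivity)
  refine ⟨max τ1 (1000 * c ^ 12 * C + 40 * CQ + 12000 * CK), CK * 300, 8 * c ^ 12 + 10 + 2 * Cc, 300,
    by norm_num, fun τ hτ L e n q η lam hη hη1 hη2 hN hn hY hmu hq hl hl' hBP hQ0 hD0 hK0 => ?_⟩
  have hτ2 := (le_max_right _ _).trans hτ
  have hcC : 1000 ≤ 1000 * c ^ 12 * C := by nlinarith
  have hτ3 : 1000 * c ^ 12 * C ≤ τ := by linarith
  have h1 : 1 ≤ τ := by linarith
  have h0 : 0 < τ := by linarith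
  have hE := hτ1 τ ((le_max_left _ _).trans hτ) h1
  have pw : ∀ {a b : ℕ}, a ≤ b → τ ^ a ≤ τ ^ b := fun h => pow_le_pow_right₀ h1 h
  have hτT : τ ≤ τ ^ 32 := le_self_pow₀ h1 (by norm_num)
  have ha1 : 1 ≤ τ ^ 16 := one_le_pow₀ h1
  have hT1 : 1 ≤ τ ^ 32 := one_le_pow₀ h1
  have haT : (τ ^ 16) ^ 2 = τ ^ 32 := by ring
  have hη0 : 0 < η := (Real.exp_pos _).trans_le hη1
  set V : ℝ := (Fintype.card L.X : ℝ) with hV
  have hV0 : 0 ≤ V := by positivity
  set u := V / τ ^ 200 with hu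
  have hu0 : 0 ≤ u := by positivity
  have hQn : ∀ t, 0 ≤ t → 0 ≤ e.Qf q t := fun t ht =>
    e.Ex_nonneg (fun l x j => (hq l x).nonneg t ht j) fun l lam =>
      Stat.I0_nonneg _ fun K => En_nonneg L.r2_nonneg K
  have small : ∀ {k : ℝ}, 40 * k ≤ τ → k * (1 / τ ^ 64) * (20 * τ ^ 32) ≤ 1 / 2 := by
    intro k hk
    calc _ = 20 * k / τ ^ 32 := by field_simp
      _ ≤ _ := by rw [div_le_iff₀ (by positivity)]; linarith
  have mono : ∀ s t, 0 ≤ s → s ≤ t → t ≤ 20 * τ ^ 32 → e.Qf q t ≤ 2 * (e.Qf q s + u) := by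
    intro s t hs hst ht
    refine (hQ L e n q _ _ _ hq hY (by positivity) (by positivity) (small (by linarith))
      (fun t a b => (hBP t a b).1) s t hs hst ht).trans ?_
    refine mul_le_mul_of_nonneg_left (add_le_add le_rfl ?_) two_pos.le
    calc _ = 20 * CQ / τ ^ 56 * u := by rw [hu]; field_simp; rfl
      _ ≤ 1 * u := by
          refine mul_le_mul_of_nonneg_right ?_ hu0
          rw [div_le_one (by positivity)]
          exact le_trans (by linarith) (le_self_pow₀ h1 (by norm_num))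
      _ = u := one_mul u
  have kb : ∀ (c0 : L.X) (R2 t : ℝ), 1 ≤ R2 → 0 ≤ t → t ≤ 20 * τ ^ 32 →
      e.ExS (q t) (fun st => st.I0 fun K => (lam + En (L.wF c0 R2) K) ^ 300) ≤ 2 * τ ^ 300 :=
    fun c0 R2 t hR ht ht' => (hK L e n q _ lam _ 300 hq hY (by positivity) (by norm_num)
      (by exact_mod_cast hl) (small (by push_cast; linarith)) (fun t a b => (hBP t a b).2) c0 R2 t
      hR ht ht').trans (mul_le_mul_of_nonneg_left (hK0 c0 R2 hR) two_pos.le)
  have step : ∀ t, τ ^ 16 ≤ t → c * t ≤ (τ ^ 16) ^ 2 → e.Qf q (c * t) ≤ e.Qf q t / c ^ 12 + 2 * u := by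
    intro t ht htb
    rw [haT] at htb
    have ht1 : 1 ≤ t := ha1.trans ht
    have htc : t ≤ c * t := le_mul_of_one_le_left (by linarith) (by linarith)
    have hsc := scales hCD hc ht1
    have hm : ⌈(CD + 2) * t⌉₊ ≤ ⌊c * t / 8⌋₊ := by
      have : (⌈(CD + 2) * t⌉₊ : ℝ) ≤ ⌊c * t / 8⌋₊ := by linarith
      exact_mod_cast this
    have hm1 : ⌊c * t / 8⌋₊ ≤ L.N := by
      have : (⌊c * t / 8⌋₊ : ℝ) ≤ L.N := (Nat.floor_le (by linarith)).trans (by linarith)
      exact_mod_cast this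
    have H := hI L e n q η (1 / τ ^ 64) (1 / τ ^ 288) t (c * t) (τ ^ 2) lam (2 * τ ^ 300)
      (2 * (e.Qf q t + u)) (Real.exp (τ ^ 16)) (Real.exp (τ ^ 16 + CD * t)) _ _ ⌈10 * τ ^ 32⌉₊ 300
      hq hY hη hη0 (by positivity) (by positivity) (by linarith) htc hm hm1 (one_le_pow₀ h1)
      (le_trans (by positivity) hl) (by norm_num) (by positivity) (by positivity) (by positivity)
      hmu (fun s a b => (hBP s (by linarith) (by linarith)).1)
      (fun s a b => mono t s (by linarith) a (by linarith))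
      (fun c0 R2 s hR a b => kb c0 R2 s hR (by linarith) (by linarith))
      (fun m hm => (hD L e n q hq hY m t (by linarith)).trans
        ((mul_le_mul_of_nonneg_left (hD0 m hm) (Real.exp_pos _).le).trans_eq
          (by rw [Real.exp_add]; ring)))
    have hQt := hQn t (by linarith)
    have := nums hC hCD hc hτ3 hE ht htb hη1 hη2 hn hV0 (by positivity) (hQn _ (by linarith)) H
    have e1 : 2 * (e.Qf q t + u) / (2 * c ^ 12) = e.Qf q t / c ^ 12 + u / c ^ 12 := by field_simp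
    have e2 : u / c ^ 12 ≤ u := div_le_self hu0 hc12
    linarith
  have q0 : e.Qf q (τ ^ 16) ≤ 4 * τ ^ 16 * V := by
    have a := mono 0 (τ ^ 16) le_rfl (by positivity) (by linarith [pw (show 16 ≤ 32 by norm_num)])
    have b : u ≤ τ ^ 16 * V := (div_le_self hV0 (one_le_pow₀ h1)).trans
      (le_mul_of_one_le_left hV0 ha1)
    have c : e.Qf q 0 ≤ τ ^ 16 * V := hQ0
    linarith
  obtain ⟨t, ht1, ht2, ht3⟩ := iterate (by linarith) ha1 (by positivity) (by positivity) q0 step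
  rw [haT] at ht2
  have f1 := mono t (20 * τ ^ 32) (by linarith) (by linarith) le_rfl
  have f2 := hcl L e n q η hq hY hη (20 * τ ^ 32) (by positivity)
  have g1 : c ^ 12 / (τ ^ 16) ^ 12 * (4 * τ ^ 16 * V) ≤ 4 * c ^ 12 * (V / τ ^ 160) := by
    calc _ = 4 * c ^ 12 * (V / τ ^ 176) := by field_simp
      _ ≤ _ := by gcongr; norm_num
  have g2 : u ≤ V / τ ^ 160 := by rw [hu]; gcongr; norm_num
  have g3 : Cc / η ^ 4 * ((Real.exp (-(20 * τ ^ 32) / 2) + (1 / 2) ^ n) * V) ≤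
      2 * Cc * (V / τ ^ 160) := by
    have a1 : (1 / 2 : ℝ) ^ n ≤ Real.exp (-(20 * τ ^ 32) / 2) :=
      (half_pow_le_exp n).trans (Real.exp_le_exp.2 (by linarith))
    have a2 : Real.exp (-(4 * τ ^ 32)) ≤ η ^ 4 := by
      rw [show -(4 * τ ^ 32) = (4 : ℕ) * (-τ ^ 32) by push_cast; ring, Real.exp_nat_mul]
      exact pow_le_pow_left₀ (Real.exp_pos _).le hη1 4
    have a3 : Real.exp (-(20 * τ ^ 32) / 2) / η ^ 4 ≤ 1 / τ ^ 160 := by
      refine le_trans ?_ (hE.trans (one_div_le_one_div_of_le (by positivity) (pw (by norm_num))))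
      rw [div_le_iff₀ (by positivity)]
      refine le_trans ?_ (mul_le_mul_of_nonneg_left a2 (Real.exp_pos _).le)
      rw [← Real.exp_add]
      exact Real.exp_le_exp.2 (by linarith [pw (show 16 ≤ 32 by norm_num)])
    calc _ ≤ Cc / η ^ 4 * ((Real.exp (-(20 * τ ^ 32) / 2) + Real.exp (-(20 * τ ^ 32) / 2)) * V) := by
          gcongr
      _ = 2 * Cc * (Real.exp (-(20 * τ ^ 32) / 2) / η ^ 4 * V) := by ring
      _ ≤ 2 * Cc * (1 / τ ^ 160 * V) := by gcongr
      _ = _ := by ring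
  have e3 : (8 * c ^ 12 + 10 + 2 * Cc) / τ ^ 160 * V =
    8 * c ^ 12 * (V / τ ^ 160) + 10 * (V / τ ^ 160) + 2 * Cc * (V / τ ^ 160) := by ring
  rw [e3]
  linarith

end Crest.Agent.N334.G
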