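import Crest.Agent.N334.G.Law
import Crest.Agent.N334.G.Basic

-- ▼ part N334/G/Arc
section

/-!
# Row 334, S0519 GAIN: the arc lemmas
-/

set_option autoImplicit false

open MeasureTheory Finset Complex
open scoped BigOperators ComplexConjugate

noncomputable section

namespace Crest.Agent.N334.G

namespace ArcAux

theorem den_pos (t : ℝ) : 0 < 1 + t ^ 2 := by positivity

theorem sub_I_ne (t : ℝ) : (t : ℂ) - I ≠ 0 := by
  intro h
  have := congrArg Complex.im h
  simp at this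

theorem uu_re (t : ℝ) : (uu t).re = t / (1 + t ^ 2) := by
  have := den_pos t
  simp [uu, Complex.normSq_apply]
  field_simp
  ring

theorem uu_im (t : ℝ) : (uu t).im = 1 / (1 + t ^ 2) := by
  have := den_pos t
  simp [uu, Complex.normSq_apply]
  field_simp
  ring

theorem nsq (z : ℂ) : ‖z‖ ^ 2 = z.re ^ 2 + z.im ^ 2 := by
  rw [Complex.sq_norm, Complex.normSq_apply]; ring

theorem continuous_uu : Continuous uu :=
  continuous_const.div (by fun_prop) sub_I_ne

end ArcAux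
open ArcAux

theorem uu_normSq (t : ℝ) : ‖uu t‖ ^ 2 = 1 / (1 + t ^ 2) ∧ (uu t).im = 1 / (1 + t ^ 2) ∧
    (uu t).re = t / (1 + t ^ 2) := by
  refine ⟨?_, uu_im t, uu_re t⟩
  have := den_pos t
  rw [nsq, uu_re, uu_im]
  field_simp
  ring

theorem ArcAux.circ (t : ℝ) : ‖uu t - I / 2‖ ^ 2 = 1 / 4 := by
  have := den_pos t
  rw [nsq]
  simp [uu_re, uu_im]
  field_simp
  ring

theorem IsAff.le_two {q : ℝ → ℝ} {qb : ℝ} (h : IsAff q qb) (h0 : ∀ t, 0 ≤ q t) :
    0 ≤ qb ∧ (∀ t, q t ≤ 2 * qb) ∧ ∃ u0 : ℂ, ∀ t, qb * ‖uu t - u0‖ ^ 2 ≤ q t := by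
  obtain ⟨β, hβ⟩ := h
  have key : ∀ t : ℝ, 0 ≤ (qb + β.im / 2) * (t * t) + β.re * t + (qb - β.im / 2) := by
    intro t
    have hd := den_pos t
    have h1 := mul_nonneg (h0 t) hd.le
    have h2 : q t * (1 + t ^ 2) = (qb + β.im / 2) * (t * t) + β.re * t + (qb - β.im / 2) := by
      rw [hβ t]
      simp [uu_re, uu_im]
      field_simp
      ring
    linarith
  have hq : 0 ≤ qb := by have := key 1; have := key (-1); linarith
  have hdisc : discrim (qb + β.im / 2) β.re (qb - β.im / 2) ≤ 0 := discrim_le_zero key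
  have hb : ‖β‖ ^ 2 ≤ (2 * qb) ^ 2 := by
    rw [nsq]; unfold discrim at hdisc; nlinarith
  have hb' : ‖β‖ ≤ 2 * qb := by
    exact le_of_sq_le_sq hb (by linarith)
  have hc : ∀ t, ‖uu t - I / 2‖ = 1 / 2 := fun t => by
    have := ArcAux.circ t
    nlinarith [norm_nonneg (uu t - I / 2)]
  refine ⟨hq, fun t => ?_, ?_⟩
  · have h1 : (β * (uu t - I / 2)).re ≤ ‖β‖ * (1 / 2) := by
      rw [← hc t, ← norm_mul]; exact Complex.re_le_norm _
    rw [hβ t]; linarith
  · rcases hq.eq_or_lt with h | h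
    · exact ⟨0, fun t => by rw [← h, zero_mul]; exact h0 t⟩
    refine ⟨I / 2 - conj β / (4 * qb : ℝ), fun t => ?_⟩
    have h1 : uu t - (I / 2 - conj β / (4 * qb : ℝ)) =
        (uu t - I / 2) + conj β / (4 * qb : ℝ) := by ring
    have h2 := ArcAux.circ t
    have h3 := h0 t
    rw [h1]
    rw [hβ t] at h3 ⊢
    generalize uu t - I / 2 = w at h2 h3 ⊢
    rw [nsq] at h2 hb ⊢
    simp only [Complex.add_re, Complex.add_im, Complex.div_ofReal_re, Complex.div_ofReal_im,
      Complex.conj_re, Complex.conj_im, Complex.mul_re] at h3 ⊢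
    have e : qb * ((w.re + β.re / (4 * qb)) ^ 2 + (w.im + -β.im / (4 * qb)) ^ 2) =
        qb * (w.re ^ 2 + w.im ^ 2) + (β.re * w.re - β.im * w.im) / 2 +
          (β.re ^ 2 + β.im ^ 2) / (16 * qb) := by
      field_simp; ring
    have e2 : (β.re ^ 2 + β.im ^ 2) / (16 * qb) ≤ qb / 4 := by
      rw [div_le_iff₀ (by positivity)]; nlinarith
    rw [e, h2]; linarith

theorem IsAff.add {q q' : ℝ → ℝ} {qb qb' : ℝ} (h : IsAff q qb) (h' : IsAff q' qb') :
    IsAff (fun t => q t + q' t) (qb + qb') := by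
  obtain ⟨β, hβ⟩ := h
  obtain ⟨β', hβ'⟩ := h'
  refine ⟨β + β', fun t => ?_⟩
  simp only [hβ, hβ', add_mul, Complex.add_re]; ring
theorem IsAff.smul {q : ℝ → ℝ} {qb : ℝ} (h : IsAff q qb) (r : ℝ) :
    IsAff (fun t => r * q t) (r * qb) := by
  obtain ⟨β, hβ⟩ := h
  refine ⟨r * β, fun t => ?_⟩
  simp only [hβ, mul_assoc, Complex.re_ofReal_mul]; ring
theorem IsAff.const (r : ℝ) : IsAff (fun _ => r) r := ⟨0, fun t => by simp⟩
/-- `‖k + u w‖²` is affine on the circle, with mean at least `‖w‖²/4` -/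
theorem isAff_normSq (k w : ℂ) :
    IsAff (fun t => ‖k + uu t * w‖ ^ 2) (‖k + I / 2 * w‖ ^ 2 + ‖w‖ ^ 2 / 4) := by
  refine ⟨2 * conj (k + I / 2 * w) * w, fun t => ?_⟩
  have h1 : k + uu t * w = (k + I / 2 * w) + (uu t - I / 2) * w := by ring
  have h2 := ArcAux.circ t
  show ‖k + uu t * w‖ ^ 2 = _
  rw [h1]
  generalize uu t - I / 2 = v at h2 ⊢
  generalize k + I / 2 * w = m
  simp only [nsq] at h2 ⊢
  simp only [Complex.add_re, Complex.add_im, Complex.mul_re, Complex.mul_im, Complex.conj_re,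
    Complex.conj_im, Complex.re_ofNat, Complex.im_ofNat]
  linear_combination (w.re ^ 2 + w.im ^ 2) * h2

theorem ArcAux.uu_sub (t t' : ℝ) (ht : t ∈ Set.Icc (-1 : ℝ) 1) (ht' : t' ∈ Set.Icc (-1 : ℝ) 1) :
    |t - t'| ≤ 2 * ‖uu t - uu t'‖ := by
  have h1 : uu t - uu t' = ((t' - t : ℝ) : ℂ) * uu t * uu t' := by
    have := sub_I_ne t
    have := sub_I_ne t'
    unfold uu; push_cast; field_simp; ring
  have h2 : ∀ s ∈ Set.Icc (-1 : ℝ) 1, 1 / 2 ≤ ‖uu s‖ ^ 2 := fun s hs => by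
    rw [(uu_normSq s).1]
    apply one_div_le_one_div_of_le (den_pos s)
    nlinarith [hs.1, hs.2]
  have h3 : 1 / 2 ≤ ‖uu t‖ * ‖uu t'‖ := by
    apply le_of_sq_le_sq _ (by positivity)
    have := mul_le_mul (h2 t ht) (h2 t' ht') (by norm_num) (by positivity)
    nlinarith
  rw [h1, norm_mul, norm_mul, Complex.norm_real, Real.norm_eq_abs, abs_sub_comm t']
  nlinarith [abs_nonneg (t - t')]

/-- short arcs -/
theorem arc_small : ∃ C : ℝ, 0 < C ∧ ∀ (u0 : ℂ) (l : ℝ), 0 < l →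
    (volume ({t | ‖uu t - u0‖ ≤ l} ∩ Set.Icc (-1 : ℝ) 1)).toReal ≤ C * l := by
  refine ⟨8, by norm_num, fun u0 l hl => ?_⟩
  rcases ({t | ‖uu t - u0‖ ≤ l} ∩ Set.Icc (-1 : ℝ) 1).eq_empty_or_nonempty with h | ⟨t0, h0, h0'⟩
  · rw [h]; simp; positivity
  have hs : {t | ‖uu t - u0‖ ≤ l} ∩ Set.Icc (-1 : ℝ) 1 ⊆ Set.Icc (t0 - 4 * l) (t0 + 4 * l) := by
    rintro t ⟨h1, h1'⟩
    have h2 := ArcAux.uu_sub t t0 h1' h0'
    have h3 : ‖uu t - uu t0‖ ≤ ‖uu t - u0‖ + ‖uu t0 - u0‖ := by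
      have := norm_sub_le (uu t - u0) (uu t0 - u0)
      rwa [sub_sub_sub_cancel_right] at this
    have h4 : ‖uu t - u0‖ ≤ l := h1
    have h5 : ‖uu t0 - u0‖ ≤ l := h0
    have := abs_le.1 (show |t - t0| ≤ 4 * l by linarith)
    constructor <;> linarith [this.1, this.2]
  have h2 := measure_mono (μ := volume) hs
  rw [Real.volume_Icc] at h2
  have h3 := ENNReal.toReal_mono ENNReal.ofReal_ne_top h2
  rw [ENNReal.toReal_ofReal (by linarith)] at h3
  linarith

namespace ArcAux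

def hs (s : ℝ) : ℝ := (Metric.ball (0 : ℝ) 3).indicator (fun x => ‖x‖ ^ (-(1 / 2 : ℝ))) s

theorem hs_int : Integrable hs := by
  unfold hs
  rw [integrable_indicator_iff Metric.isOpen_ball.measurableSet]
  refine integrableOn_ball_of_norm_le_rpow (C := 1) (α := 1 / 2) (by simp) (by simp; norm_num)
    (ae_of_all _ fun x => ?_) (Measurable.aestronglyMeasurable (by fun_prop))
  rw [one_mul, Real.norm_of_nonneg (by positivity)]

theorem hs_nonneg (s : ℝ) : 0 ≤ hs s :=
  Set.indicator_nonneg (fun x _ => by positivity) s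

theorem core (u0 : ℂ) (g : ℝ → ℝ) {B : ℝ} (hB : 0 ≤ B) (h0 : ∀ t, 0 ≤ g t) {S : Set ℝ}
    (hS : MeasurableSet S) (hS1 : S ⊆ Set.Icc (-1 : ℝ) 1)
    (hg : ∀ t ∈ S, g t ^ 2 * ‖uu t - u0‖ ≤ B ^ 2) :
    ∫ t in S, g t ≤ 2 * (∫ s, hs s) * B := by
  obtain ⟨t0, ht0, hmin⟩ := (isCompact_Icc (a := (-1 : ℝ)) (b := 1)).exists_isMinOn
    ⟨0, by simp⟩ (f := fun t => ‖uu t - u0‖)
    ((continuous_uu.sub continuous_const).norm.continuousOn)
  rw [← integral_indicator hS]
  have hi : Integrable fun t => 2 * B * hs (t - t0) := (hs_int.comp_sub_right t0).const_mul _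
  refine (integral_mono_of_nonneg (ae_of_all _ fun t => Set.indicator_nonneg (fun x _ => h0 x) t)
    hi ?_).trans (le_of_eq ?_)
  · filter_upwards [compl_mem_ae_iff.2 (measure_singleton t0)] with t ht
    by_cases htS : t ∈ S
    · rw [Set.indicator_of_mem htS]
      have hr : 0 < |t - t0| := abs_pos.2 (sub_ne_zero.2 ht)
      have h1 := ArcAux.uu_sub t t0 (hS1 htS) ht0
      have h2 : ‖uu t0 - u0‖ ≤ ‖uu t - u0‖ := hmin (hS1 htS)
      have h3 : ‖uu t - uu t0‖ ≤ ‖uu t - u0‖ + ‖uu t0 - u0‖ := by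
        have := norm_sub_le (uu t - u0) (uu t0 - u0)
        rwa [sub_sub_sub_cancel_right] at this
      have h4 : g t ^ 2 * |t - t0| ≤ 4 * B ^ 2 := by
        have := hg t htS
        nlinarith [sq_nonneg (g t)]
      have h5 : t - t0 ∈ Metric.ball (0 : ℝ) 3 := by
        rw [mem_ball_zero_iff, Real.norm_eq_abs, abs_lt]
        have := hS1 htS
        constructor <;> linarith [this.1, this.2, ht0.1, ht0.2]
      unfold hs
      rw [Set.indicator_of_mem h5, Real.norm_eq_abs]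
      refine le_of_sq_le_sq ?_ (by positivity)
      have h6 : (|t - t0| ^ (-(1 / 2 : ℝ))) ^ 2 = |t - t0|⁻¹ := by
        rw [← Real.rpow_natCast, ← Real.rpow_mul hr.le, ← Real.rpow_neg_one]; norm_num
      rw [mul_pow, h6, ← div_eq_mul_inv, le_div_iff₀ hr]
      linarith
    · rw [Set.indicator_of_notMem htS]
      exact mul_nonneg (by positivity) (hs_nonneg _)
  · rw [integral_const_mul, integral_sub_right_eq_self]; ring

theorem uu_inv {t : ℝ} (ht : t ≠ 0) : uu (-t⁻¹) = I - uu t := by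
  have h1 := sub_I_ne t
  have h2 := sub_I_ne (-t⁻¹)
  have h3 : (t : ℂ) ≠ 0 := by exact_mod_cast ht
  unfold uu
  rw [div_eq_iff h2]
  push_cast
  field_simp
  linear_combination ((t : ℂ) ^ 2 - t * I - 1) * I_mul_I

theorem image_inv : (fun t : ℝ => -t⁻¹) '' (Set.Ioo (-1) 1 \ {0}) = (Set.Icc (-1 : ℝ) 1)ᶜ := by
  ext x
  simp only [Set.mem_image, Set.mem_sdiff, Set.mem_Ioo, Set.mem_singleton_iff, Set.mem_compl_iff,
    Set.mem_Icc, ← abs_lt, ← abs_le, not_le]
  constructor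
  · rintro ⟨t, ⟨h1, h2⟩, rfl⟩
    rw [abs_neg, abs_inv]
    exact (one_lt_inv₀ (abs_pos.2 h2)).2 h1
  · intro h
    have hx : x ≠ 0 := by rintro rfl; norm_num at h
    refine ⟨-x⁻¹, ⟨?_, by simpa using hx⟩, by simp⟩
    rw [abs_neg, abs_inv]
    exact inv_lt_one_of_one_lt₀ h

theorem bm_int {f : ℝ → ℝ} (hf : BM f) : Integrable fun t => f t / (1 + t ^ 2) := by
  obtain ⟨M, hM⟩ := hf.bdd
  simp only [div_eq_mul_inv]
  exact integrable_inv_one_add_sq.bdd_mul hf.meas.aestronglyMeasurable (ae_of_all _ hM)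

end ArcAux

/-- `|u - u0|^{-1/2}` is integrable for the arc measure -/
theorem arc_sing : ∃ C : ℝ, 0 < C ∧ ∀ (u0 : ℂ) (f : ℝ → ℝ) (B : ℝ), BM f → 0 ≤ B → (∀ t, 0 ≤ f t) →
    (∀ t, f t ^ 2 * ‖uu t - u0‖ ≤ B ^ 2) → ∫ t, f t / (1 + t ^ 2) ≤ C * B := by
  have hC : 0 ≤ ∫ s, hs s := integral_nonneg hs_nonneg
  refine ⟨4 * (∫ s, hs s) + 1, by positivity, fun u0 f B hf hB h0 hb => ?_⟩
  have aux : ∀ (x n t : ℝ), 0 ≤ n → x ^ 2 * n ≤ B ^ 2 → (x / (1 + t ^ 2)) ^ 2 * n ≤ B ^ 2 := by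
    intro x n t hn h
    refine le_trans (mul_le_mul_of_nonneg_right ?_ hn) h
    rw [div_pow]
    exact div_le_self (sq_nonneg _) (one_le_pow₀ (by nlinarith [sq_nonneg t]))
  rw [← integral_add_compl (s := Set.Icc (-1 : ℝ) 1) measurableSet_Icc (bm_int hf)]
  have h1 := core u0 (fun t => f t / (1 + t ^ 2)) hB (fun t => div_nonneg (h0 t) (den_pos t).le)
    measurableSet_Icc subset_rfl fun t _ => aux _ _ _ (norm_nonneg _) (hb t)
  have hm : MeasurableSet (Set.Ioo (-1 : ℝ) 1 \ {0}) :=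
    measurableSet_Ioo.diff (measurableSet_singleton _)
  have h2 := core (I - u0) (fun t => f (-t⁻¹) / (1 + t ^ 2)) hB
    (fun t => div_nonneg (h0 _) (den_pos t).le) hm
    (fun t ht => Set.Ioo_subset_Icc_self ht.1) fun t ht => aux _ _ _ (norm_nonneg _) (by
      have := hb (-t⁻¹)
      rw [uu_inv ht.2] at this
      rwa [← norm_neg, show -(uu t - (I - u0)) = I - uu t - u0 by ring])
  have h3 : ∫ t in (Set.Icc (-1 : ℝ) 1)ᶜ, f t / (1 + t ^ 2) =
      ∫ t in Set.Ioo (-1 : ℝ) 1 \ {0}, f (-t⁻¹) / (1 + t ^ 2) := by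
    rw [← image_inv, integral_image_eq_integral_abs_deriv_smul hm (f' := fun t => (t ^ 2)⁻¹)]
    · refine setIntegral_congr_fun hm fun t ht => ?_
      have ht0 : t ≠ 0 := ht.2
      simp only [smul_eq_mul]
      rw [abs_of_nonneg (by positivity)]
      field_simp
      ring
    · intro t ht
      have := (hasDerivAt_inv (show t ≠ 0 from ht.2)).neg
      rw [neg_neg] at this
      exact this.hasDerivWithinAt
    · intro x _ y _ h
      simpa using h
  rw [h3]
  nlinarith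

namespace ArcAux

theorem quad_int (a b c : ℝ) : ∫ t in Set.Icc (-1 : ℝ) 1, (a * t ^ 2 + b * t + c) ^ 2 =
    2 * a ^ 2 / 5 + 2 * b ^ 2 / 3 + 2 * c ^ 2 + 4 * a * c / 3 := by
  rw [integral_Icc_eq_integral_Ioc, ← intervalIntegral.integral_of_le (by norm_num)]
  have h : ∀ t ∈ Set.uIcc (-1 : ℝ) 1, HasDerivAt (fun t : ℝ => a ^ 2 * t ^ 5 / 5 +
      a * b * t ^ 4 / 2 + (b ^ 2 + 2 * a * c) * t ^ 3 / 3 + b * c * t ^ 2 + c ^ 2 * t)
      ((a * t ^ 2 + b * t + c) ^ 2) t := by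
    intro t _
    have h5 := ((hasDerivAt_pow 5 t).const_mul (a ^ 2)).div_const 5
    have h4 := ((hasDerivAt_pow 4 t).const_mul (a * b)).div_const 2
    have h3 := ((hasDerivAt_pow 3 t).const_mul (b ^ 2 + 2 * a * c)).div_const 3
    have h2 := (hasDerivAt_pow 2 t).const_mul (b * c)
    have h1 := (hasDerivAt_id' t).const_mul (c ^ 2)
    refine ((((h5.fun_add h4).fun_add h3).fun_add h2).fun_add h1).congr_deriv ?_
    norm_num; ring
  rw [intervalIntegral.integral_eq_sub_of_hasDerivAt h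
    (Continuous.intervalIntegrable (by fun_prop) _ _)]
  ring

/-- real case of the lower bound on the full arc -/
theorem low_re (a b c : ℝ) : (a ^ 2 + b ^ 2 + c ^ 2) / 80 ≤
    ∫ t in Set.Icc (-1 : ℝ) 1, (a + b * (uu t).re + c * (uu t).im) ^ 2 := by
  have hc : Continuous fun t => (a + b * (uu t).re + c * (uu t).im) ^ 2 := by
    have := continuous_uu
    fun_prop
  have h1 : ∫ t in Set.Icc (-1 : ℝ) 1, (1 / 4 : ℝ) * (a * t ^ 2 + b * t + (a + c)) ^ 2 ≤
      ∫ t in Set.Icc (-1 : ℝ) 1, (a + b * (uu t).re + c * (uu t).im) ^ 2 := by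
    refine setIntegral_mono_on (Continuous.integrableOn_Icc (by fun_prop)) hc.integrableOn_Icc
      measurableSet_Icc fun t ht => ?_
    have hd := den_pos t
    have e : a + b * (uu t).re + c * (uu t).im = (a * t ^ 2 + b * t + (a + c)) / (1 + t ^ 2) := by
      rw [uu_re, uu_im]; field_simp; ring
    rw [e, div_pow, le_div_iff₀ (by positivity)]
    have h2 : t ^ 2 ≤ 1 := by nlinarith [ht.1, ht.2]
    have h3 : (1 + t ^ 2) ^ 2 ≤ 4 := by nlinarith
    nlinarith [sq_nonneg (a * t ^ 2 + b * t + (a + c))]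
  rw [integral_const_mul, quad_int] at h1
  nlinarith [sq_nonneg (a + c), sq_nonneg (5 * a + 3 * c), sq_nonneg (3 * a + 2 * c), sq_nonneg b,
    sq_nonneg a, sq_nonneg c]

theorem low (f0 f1 f2 : ℂ) : (‖f0‖ ^ 2 + ‖f1‖ ^ 2 + ‖f2‖ ^ 2) / 80 ≤
    ∫ t in Set.Icc (-1 : ℝ) 1, ‖f0 + f1 * (uu t).re + f2 * (uu t).im‖ ^ 2 := by
  have hc : ∀ a b c : ℝ, IntegrableOn (fun t => (a + b * (uu t).re + c * (uu t).im) ^ 2)
      (Set.Icc (-1 : ℝ) 1) := fun a b c => by
    have := continuous_uu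
    exact Continuous.integrableOn_Icc (by fun_prop)
  have e : ∀ t, ‖f0 + f1 * (uu t).re + f2 * (uu t).im‖ ^ 2 =
      (f0.re + f1.re * (uu t).re + f2.re * (uu t).im) ^ 2 +
      (f0.im + f1.im * (uu t).re + f2.im * (uu t).im) ^ 2 := fun t => by
    rw [nsq]; simp
  simp only [e]
  rw [integral_add (hc _ _ _) (hc _ _ _), nsq, nsq, nsq]
  linarith [low_re f0.re f1.re f2.re, low_re f0.im f1.im f2.im]

theorem up (f0 f1 f2 : ℂ) (t : ℝ) : ‖f0 + f1 * (uu t).re + f2 * (uu t).im‖ ^ 2 ≤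
    3 * (‖f0‖ ^ 2 + ‖f1‖ ^ 2 + ‖f2‖ ^ 2) := by
  have hd := den_pos t
  have h0 : ‖uu t‖ ≤ 1 := by
    refine le_of_sq_le_sq ?_ zero_le_one
    rw [(uu_normSq t).1, one_pow, div_le_one hd]; nlinarith [sq_nonneg t]
  have h1 : ‖f1 * (uu t).re‖ ≤ ‖f1‖ := by
    rw [norm_mul, Complex.norm_real]
    exact mul_le_of_le_one_right (norm_nonneg _) ((Complex.abs_re_le_norm _).trans h0)
  have h2 : ‖f2 * (uu t).im‖ ≤ ‖f2‖ := by
    rw [norm_mul, Complex.norm_real]
    exact mul_le_of_le_one_right (norm_nonneg _) ((Complex.abs_im_le_norm _).trans h0)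
  have h3 : ‖f0 + f1 * (uu t).re + f2 * (uu t).im‖ ≤ ‖f0‖ + ‖f1‖ + ‖f2‖ :=
    (norm_add₃_le).trans (by linarith)
  have h4 := pow_le_pow_left₀ (norm_nonneg _) h3 2
  nlinarith [sq_nonneg (‖f0‖ - ‖f1‖), sq_nonneg (‖f0‖ - ‖f2‖), sq_nonneg (‖f1‖ - ‖f2‖)]

end ArcAux

/-- Remez: a complex affine function off finitely many short arcs -/
theorem remez : ∀ k : ℕ, ∃ C l : ℝ, 0 < C ∧ 0 < l ∧ ∀ (f0 f1 f2 : ℂ) (u0 : Fin k → ℂ),
    ‖f0‖ ^ 2 + ‖f1‖ ^ 2 + ‖f2‖ ^ 2 ≤ C * ∫ t in Set.Icc (-1 : ℝ) 1,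
      if ∀ j, l ≤ ‖uu t - u0 j‖ then ‖f0 + f1 * (uu t).re + f2 * (uu t).im‖ ^ 2 else 0 := by
  intro k
  obtain ⟨C, hC, hs⟩ := arc_small
  set l : ℝ := 1 / (480 * C * (k + 1)) with hl
  have hl0 : 0 < l := by positivity
  refine ⟨160, l, by norm_num, hl0, fun f0 f1 f2 u0 => ?_⟩
  set N := ‖f0‖ ^ 2 + ‖f1‖ ^ 2 + ‖f2‖ ^ 2 with hN
  have hN0 : 0 ≤ N := by positivity
  set F : ℝ → ℝ := fun t => ‖f0 + f1 * (uu t).re + f2 * (uu t).im‖ ^ 2 with hF
  have hu := continuous_uu
  have hFc : Continuous F := by rw [hF]; fun_prop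
  have hm : ∀ j, MeasurableSet {t | ‖uu t - u0 j‖ ≤ l} := fun j =>
    measurableSet_le (Continuous.measurable (by fun_prop)) measurable_const
  have hm' : MeasurableSet {t | ∀ j, l ≤ ‖uu t - u0 j‖} := by
    rw [Set.ofPred_forall]
    exact MeasurableSet.iInter fun j =>
      measurableSet_le measurable_const (Continuous.measurable (by fun_prop))
  have hI : IntegrableOn (fun t => if ∀ j, l ≤ ‖uu t - u0 j‖ then F t else 0)
      (Set.Icc (-1 : ℝ) 1) := by
    have := (hFc.integrableOn_Icc (a := -1) (b := 1) (μ := volume)).indicator hm'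
    refine this.congr_fun (fun t _ => ?_) measurableSet_Icc
    simp only [Set.indicator_apply, Set.mem_ofPred_eq]
  have hJ : ∀ j, IntegrableOn ({t | ‖uu t - u0 j‖ ≤ l}.indicator fun _ => (1 : ℝ))
      (Set.Icc (-1 : ℝ) 1) := fun j =>
    (continuous_const.integrableOn_Icc (μ := volume)).indicator (hm j)
  have h1 : ∫ t in Set.Icc (-1 : ℝ) 1, F t ≤ ∫ t in Set.Icc (-1 : ℝ) 1,
      ((if ∀ j, l ≤ ‖uu t - u0 j‖ then F t else 0) +
        3 * N * ∑ j, {t | ‖uu t - u0 j‖ ≤ l}.indicator (fun _ => (1 : ℝ)) t) := by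
    refine setIntegral_mono_on hFc.integrableOn_Icc
      (hI.add ((integrable_finsetSum _ fun j _ => hJ j).const_mul _))
      measurableSet_Icc fun t _ => ?_
    have hn : ∀ j ∈ (univ : Finset (Fin k)),
        0 ≤ {t | ‖uu t - u0 j‖ ≤ l}.indicator (fun _ => (1 : ℝ)) t :=
      fun j _ => Set.indicator_nonneg (fun _ _ => zero_le_one) t
    split_ifs with h
    · have := sum_nonneg hn
      nlinarith
    · push Not at h
      obtain ⟨j, hj⟩ := h
      have h2 := single_le_sum hn (mem_univ j)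
      rw [Set.indicator_of_mem (show t ∈ {t | ‖uu t - u0 j‖ ≤ l} from hj.le)] at h2
      have h3 : F t ≤ 3 * N := up f0 f1 f2 t
      nlinarith
  rw [integral_add hI ((integrable_finsetSum _ fun j _ => hJ j).const_mul _), integral_const_mul,
    integral_finsetSum _ fun j _ => hJ j] at h1
  have h2 : ∑ j, ∫ t in Set.Icc (-1 : ℝ) 1, {t | ‖uu t - u0 j‖ ≤ l}.indicator
      (fun _ => (1 : ℝ)) t ≤ k * (C * l) := by
    refine (sum_le_card_nsmul _ _ (C * l) fun j _ => ?_).trans (by simp)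
    rw [integral_indicator (hm j), Measure.restrict_restrict (hm j)]
    simpa [Measure.real] using hs (u0 j) l hl0
  have h3 : (k : ℝ) * (C * l) ≤ 1 / 480 := by
    rw [hl, show (k : ℝ) * (C * (1 / (480 * C * (k + 1)))) = k / (480 * (k + 1)) by field_simp,
      div_le_div_iff₀ (by positivity) (by positivity)]
    linarith
  have h4 : N / 80 ≤ ∫ t in Set.Icc (-1 : ℝ) 1, F t := low f0 f1 f2
  have h5 := mul_le_mul_of_nonneg_left (h2.trans h3) (show 0 ≤ 3 * N by positivity)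
  linarith

namespace ArcAux

/-- change of variables `a = Re s + J t` -/
theorem cov (H : ℝ → ℝ) (x : ℝ) {J : ℝ} (hJ : 0 < J) : ∫ a, H a = J * ∫ t, H (x + J * t) := by
  rw [Measure.integral_comp_mul_left (fun a => H (x + a)) J, integral_add_left_eq_self,
    abs_of_pos (inv_pos.2 hJ), smul_eq_mul, ← mul_assoc, mul_inv_cancel₀ hJ.ne', one_mul]

theorem zz_arc {s : ℂ} {γ : ℝ} (h : 0 < γ + s.im) (t : ℝ) :
    ‖zz s (s.re + (γ + s.im) * t) γ‖ ^ 2 = 1 / ((γ + s.im) ^ 2 * (1 + t ^ 2)) := by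
  have h1 := congrArg (fun z => ‖z‖ ^ 2) (zz_eq_uu h t)
  simp only [norm_mul, Complex.norm_real, Real.norm_eq_abs, mul_pow, sq_abs] at h1
  rw [(uu_normSq t).1] at h1
  have := den_pos t
  field_simp at h1 ⊢
  linarith

theorem zz_re (s : ℂ) (a γ : ℝ) : ‖zz s a γ‖ ^ 2 * (a - s.re) ^ 2 ≤ 1 := by
  unfold zz
  have h1 : |a - s.re| ≤ ‖(a : ℂ) - I * γ - s‖ := by
    have := Complex.abs_re_le_norm ((a : ℂ) - I * γ - s)
    simpa using this
  rw [norm_div, norm_one, ← sq_abs (a - s.re), ← mul_pow, one_div, inv_mul_eq_div]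
  exact pow_le_one₀ (by positivity) (div_le_one_of_le₀ h1 (norm_nonneg _))

end ArcAux

open Classical in
/-- comparison on a good site -/
theorem cmp : ∃ C : ℝ, 0 < C ∧ ∀ (s : ℂ) (a0 b γ Λ : ℝ) (f g : ℝ → ℝ), 0 < s.im → 0 ≤ γ → 0 < b →
    0 ≤ Λ → BM f → BM g → (∀ t, 0 ≤ f t) → (∀ t, 0 ≤ g t) →
    ∫ t, f t / (1 + t ^ 2) ≤ Λ * ∫ t in Set.Icc (-1 : ℝ) 1, g t →
    ∫ a, (if Good a0 b γ s a then ‖zz s a γ‖ ^ 2 * f ((a - s.re) / (γ + s.im)) else 0)
        ∂law a0 b ≤
      C * Λ * ∫ a, ‖zz s a γ‖ ^ 2 * g ((a - s.re) / (γ + s.im)) ∂law a0 b := by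
  refine ⟨144, by norm_num, fun s a0 b γ Λ f g hs hγ hb hΛ hf hg hf0 hg0 H => ?_⟩
  have hJ : 0 < γ + s.im := by linarith
  by_cases hD : 0 < b - |s.re - a0| ∧ 2 * (γ + s.im) * b ≤ (b - |s.re - a0|) ^ 2
  swap
  · have : ∀ a, ¬ Good a0 b γ s a := fun a h => hD ⟨h.1, h.2.1⟩
    simp only [this, if_false, integral_zero]
    exact mul_nonneg (by positivity) (integral_nonneg fun a => mul_nonneg (by positivity) (hg0 _))
  obtain ⟨hD, hD2⟩ := hD
  rw [integral_law a0 hb, integral_law a0 hb, cov _ s.re hJ, cov (fun a => lawD a0 b a * _) s.re hJ]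
  set J := γ + s.im with hJd
  set D := b - |s.re - a0| with hDd
  have hJD : J ≤ D / 2 := by
    have : D ≤ b := by have := abs_nonneg (s.re - a0); linarith
    nlinarith
  have e : ∀ t, (s.re + J * t - s.re) / J = t := fun t => by field_simp; ring
  have hz : ∀ t, ‖zz s (s.re + J * t) γ‖ ^ 2 = 1 / (J ^ 2 * (1 + t ^ 2)) := zz_arc hJ
  simp only [e, hz]
  have near : ∀ a, |a - s.re| ≤ D / 2 → D ^ 2 / (8 * b ^ 3) ≤ lawD a0 b a ∧
      lawD a0 b a ≤ 9 * D ^ 2 / b ^ 3 := by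
    intro a ha
    have h1 : |a - a0| ≤ |a - s.re| + |s.re - a0| := abs_sub_le _ _ _
    have h2 : |s.re - a0| ≤ |s.re - a| + |a - a0| := abs_sub_le _ _ _
    rw [abs_sub_comm s.re a] at h2
    obtain ⟨h3, h4⟩ := lawD_two_sided (a0 := a0) (a := a) hb (by linarith)
    have h5 : D / 2 ≤ b - |a - a0| := by linarith
    have h6 : b - |a - a0| ≤ 3 * D / 2 := by linarith
    constructor
    · refine le_trans ?_ h3
      rw [div_le_div_iff₀ (by positivity) (by positivity)]
      have := pow_le_pow_left₀ (by linarith) h5 2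
      have h7 : 0 < b ^ 3 := by positivity
      nlinarith
    · refine h4.trans (div_le_div_of_nonneg_right ?_ (by positivity))
      have := pow_le_pow_left₀ (by linarith) h6 2
      nlinarith
  have h1 : ∫ t, lawD a0 b (s.re + J * t) *
      (if Good a0 b γ s (s.re + J * t) then 1 / (J ^ 2 * (1 + t ^ 2)) * f t else 0) ≤
      ∫ t, 9 * D ^ 2 / b ^ 3 / J ^ 2 * (f t / (1 + t ^ 2)) := by
    refine integral_mono_of_nonneg (ae_of_all _ fun t => ?_) ((bm_int hf).const_mul _)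
      (ae_of_all _ fun t => ?_)
    · have := hf0 t
      exact mul_nonneg (lawD_nonneg _ hb _) (by split_ifs <;> positivity)
    · have := hf0 t
      have hd := den_pos t
      dsimp only
      split_ifs with h
      · refine (mul_le_mul_of_nonneg_right (near _ h.2.2).2 (by positivity)).trans (le_of_eq ?_)
        field_simp
      · rw [mul_zero]; positivity
  have hgI : Integrable fun t => lawD a0 b (s.re + J * t) * (1 / (J ^ 2 * (1 + t ^ 2)) * g t) := by
    have := ((bm_int hg).const_mul (1 / J ^ 2)).bdd_mul (c := 1 / b)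
      (f := fun t => lawD a0 b (s.re + J * t))
      ((continuous_lawD a0 b).comp (by fun_prop)).aestronglyMeasurable
      (ae_of_all _ fun t => by
        rw [Real.norm_of_nonneg (lawD_nonneg _ hb _)]; exact lawD_le _ hb _)
    refine this.congr (ae_of_all _ fun t => ?_)
    have hd := den_pos t
    dsimp only
    field_simp
  have h2 : ∫ t, (Set.Icc (-1 : ℝ) 1).indicator (fun t => D ^ 2 / (16 * b ^ 3) / J ^ 2 * g t) t ≤
      ∫ t, lawD a0 b (s.re + J * t) * (1 / (J ^ 2 * (1 + t ^ 2)) * g t) := by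
    refine integral_mono_of_nonneg (ae_of_all _ fun t => Set.indicator_nonneg (fun t _ => ?_) t)
      hgI (ae_of_all _ fun t => ?_)
    · have := hg0 t; positivity
    · have := hg0 t
      have hd := den_pos t
      dsimp only
      by_cases ht : t ∈ Set.Icc (-1 : ℝ) 1
      · rw [Set.indicator_of_mem ht]
        have h3 : |s.re + J * t - s.re| ≤ D / 2 := by
          rw [add_sub_cancel_left, abs_mul, abs_of_pos hJ]
          have := abs_le.2 ht
          nlinarith
        refine le_trans ?_ (mul_le_mul_of_nonneg_right (near _ h3).1 (by positivity))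
        have h4 : 1 / 2 ≤ 1 / (1 + t ^ 2) :=
          one_div_le_one_div_of_le hd (by nlinarith [ht.1, ht.2])
        have h5 := mul_le_mul_of_nonneg_left h4
          (show 0 ≤ D ^ 2 / (8 * b ^ 3) / J ^ 2 * g t by positivity)
        refine le_trans (le_of_eq ?_) (h5.trans (le_of_eq ?_)) <;> field_simp
        ring
      · rw [Set.indicator_of_notMem ht]
        exact mul_nonneg (lawD_nonneg _ hb _) (by positivity)
  rw [integral_indicator measurableSet_Icc, integral_const_mul] at h2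
  rw [integral_const_mul] at h1
  have h3 := mul_le_mul_of_nonneg_left H (show 0 ≤ 9 * D ^ 2 / b ^ 3 / J ^ 2 by positivity)
  have h4 := mul_le_mul_of_nonneg_left h2 (show 0 ≤ 144 * Λ by positivity)
  have h5 : 9 * D ^ 2 / b ^ 3 / J ^ 2 * (Λ * ∫ t in Set.Icc (-1 : ℝ) 1, g t) =
      144 * Λ * (D ^ 2 / (16 * b ^ 3) / J ^ 2 * ∫ t in Set.Icc (-1 : ℝ) 1, g t) := by
    field_simp; ring
  rw [mul_left_comm (144 * Λ)]
  exact mul_le_mul_of_nonneg_left (by linarith) hJ.le

open Classical in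
/-- the share of bad values -/
theorem bad1 : ∃ C : ℝ, 0 < C ∧ ∀ (s : ℂ) (a0 b γ : ℝ), 0 < s.im → 0 ≤ γ → γ ≤ b → 0 < b →
    ∫ a, (if Good a0 b γ s a then 0 else ‖zz s a γ‖ ^ 2) ∂law a0 b ≤ C * ‖zz s a0 b‖ ^ 2 := by
  refine ⟨2304, by norm_num, fun s a0 b γ hs hγ hγb hb => ?_⟩
  have hJ : 0 < γ + s.im := by linarith
  have hR : 0 < ‖(a0 : ℂ) - I * b - s‖ := by
    refine norm_pos_iff.2 fun h => ?_
    have := congrArg Complex.im h
    simp at this; linarith
  have hzr : ‖zz s a0 b‖ = ‖(a0 : ℂ) - I * b - s‖⁻¹ := by simp [zz]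
  by_cases hc : 4 * b ≤ ‖(a0 : ℂ) - I * b - s‖
  · have := law_prob a0 hb
    have h1 : ∫ a, (if Good a0 b γ s a then 0 else ‖zz s a γ‖ ^ 2) ∂law a0 b ≤
        ∫ _a, 4 * ‖zz s a0 b‖ ^ 2 ∂law a0 b := by
      refine integral_mono_of_nonneg (ae_of_all _ fun a => ?_) (integrable_const _) ?_
      · dsimp only; split_ifs <;> positivity
      · filter_upwards [law_ae a0 hb] with a ha
        split_ifs
        · positivity
        have h2 : ‖(a0 : ℂ) - I * b - s‖ ≤ ‖(a : ℂ) - I * γ - s‖ + 2 * b := by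
          have e : (a0 : ℂ) - I * b - s =
              ((a : ℂ) - I * γ - s) + (-((a - a0 : ℝ) : ℂ) + -(I * ((b - γ : ℝ) : ℂ))) := by
            push_cast; ring
          rw [e]
          refine (norm_add_le _ _).trans (add_le_add le_rfl ((norm_add_le _ _).trans ?_))
          rw [norm_neg, norm_neg, norm_mul, norm_I, one_mul, Complex.norm_real, Complex.norm_real,
            Real.norm_eq_abs, Real.norm_of_nonneg (by linarith)]
          linarith
        have h3 : ‖zz s a γ‖ ≤ 2 * ‖zz s a0 b‖ := by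
          rw [hzr, show ‖zz s a γ‖ = ‖(a : ℂ) - I * γ - s‖⁻¹ by simp [zz], ← div_eq_mul_inv,
            inv_eq_one_div, div_le_div_iff₀ (by linarith) hR]
          linarith
        have := pow_le_pow_left₀ (norm_nonneg _) h3 2
        linarith
    rw [integral_const, probReal_univ, one_smul] at h1
    nlinarith [sq_nonneg ‖zz s a0 b‖]
  push Not at hc
  have h0 : 1 / (16 * b ^ 2) ≤ ‖zz s a0 b‖ ^ 2 := by
    rw [hzr, inv_pow, one_div]
    refine inv_anti₀ (by positivity) ?_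
    nlinarith
  obtain ⟨hI, hπ⟩ := integral_J_zz hJ
  have hI2 : Integrable ((Set.Icc (a0 - b) (a0 + b)).indicator fun _ => 40 / b ^ 3) :=
    (integrable_indicator_iff measurableSet_Icc).2 continuous_const.integrableOn_Icc
  have h1 : ∫ a, lawD a0 b a * (if Good a0 b γ s a then 0 else ‖zz s a γ‖ ^ 2) ≤
      ∫ a, ((Set.Icc (a0 - b) (a0 + b)).indicator (fun _ => 40 / b ^ 3) a +
        16 / b ^ 2 * ((γ + s.im) * ‖zz s a γ‖ ^ 2)) := by
    refine integral_mono_of_nonneg (ae_of_all _ fun a => ?_) (hI2.add (hI.const_mul _))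
      (ae_of_all _ fun a => ?_)
    · exact mul_nonneg (lawD_nonneg _ hb _) (by split_ifs <;> positivity)
    dsimp only
    have hp : 0 ≤ (Set.Icc (a0 - b) (a0 + b)).indicator (fun _ => 40 / b ^ 3) a :=
      Set.indicator_nonneg (fun _ _ => by positivity) a
    split_ifs with hG
    · rw [mul_zero]; positivity
    by_cases ha : |a - a0| ≤ b
    swap
    · rw [lawD_zero hb (not_le.1 ha).le, zero_mul]; positivity
    rw [Set.indicator_of_mem (show a ∈ Set.Icc (a0 - b) (a0 + b) from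
      ⟨by linarith [(abs_le.1 ha).1], by linarith [(abs_le.1 ha).2]⟩)]
    have h2 : |s.re - a0| ≤ |s.re - a| + |a - a0| := abs_sub_le _ _ _
    rw [abs_sub_comm s.re a] at h2
    have h3 := (lawD_two_sided hb ha).2
    have h4 := zz_re s a γ
    rw [← sq_abs (a - s.re)] at h4
    have h5 : (b - |a - a0|) ^ 2 ≤ 10 * |a - s.re| ^ 2 + 4 * (γ + s.im) * b := by
      have hx := abs_nonneg (a - s.re)
      have hJb : 0 < (γ + s.im) * b := by positivity
      have h6 : b - |a - a0| ≤ (b - |s.re - a0|) + |a - s.re| := by linarith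
      have h8 : 0 ≤ b - |a - a0| := by linarith
      have h7 := pow_le_pow_left₀ h8 h6 2
      unfold Good at hG
      generalize b - |s.re - a0| = D at *
      generalize b - |a - a0| = d at *
      generalize |a - s.re| = x at *
      by_cases k1 : 0 < D
      · by_cases k2 : 2 * (γ + s.im) * b ≤ D ^ 2
        · have k3 : D / 2 < x := not_le.1 fun k3 => hG ⟨k1, k2, k3⟩
          nlinarith
        · nlinarith [sq_nonneg (D - x)]
      · have := pow_le_pow_left₀ h8 (show d ≤ x by linarith) 2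
        nlinarith
    have h6 : lawD a0 b a ≤ 4 * (10 * |a - s.re| ^ 2 + 4 * (γ + s.im) * b) / b ^ 3 :=
      h3.trans (div_le_div_of_nonneg_right (by linarith) (by positivity))
    refine (mul_le_mul_of_nonneg_right h6 (by positivity)).trans ?_
    have e : 4 * (10 * |a - s.re| ^ 2 + 4 * (γ + s.im) * b) / b ^ 3 * ‖zz s a γ‖ ^ 2 =
        40 / b ^ 3 * (‖zz s a γ‖ ^ 2 * |a - s.re| ^ 2) +
          16 / b ^ 2 * ((γ + s.im) * ‖zz s a γ‖ ^ 2) := by field_simp; ring
    rw [e]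
    have := mul_le_of_le_one_right (show 0 ≤ 40 / b ^ 3 by positivity) h4
    linarith
  rw [integral_add hI2 (hI.const_mul _), integral_const_mul, hπ,
    integral_indicator measurableSet_Icc, setIntegral_const, Real.volume_real_Icc_of_le (by linarith),
    smul_eq_mul] at h1
  rw [integral_law a0 hb]
  refine h1.trans (le_trans ?_ (mul_le_mul_of_nonneg_left h0 (by norm_num)))
  have h2 := mul_le_mul_of_nonneg_left Real.pi_le_four (show 0 ≤ 16 / b ^ 2 by positivity)
  have e1 : (a0 + b - (a0 - b)) * (40 / b ^ 3) = 80 * (1 / b ^ 2) := by field_simp; ring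
  have e2 : 16 / b ^ 2 * 4 = 64 * (1 / b ^ 2) := by ring
  have e3 : 2304 * (1 / (16 * b ^ 2)) = 144 * (1 / b ^ 2) := by field_simp; norm_num
  linarith

theorem measurableSet_good (a0 b γ : ℝ) :
    MeasurableSet {x : ℂ × ℝ | Good a0 b γ x.1 x.2} := by
  have h1 : MeasurableSet {x : ℂ × ℝ | 0 < b - |x.1.re - a0|} :=
    measurableSet_lt measurable_const (Continuous.measurable (by fun_prop))
  have h2 : MeasurableSet {x : ℂ × ℝ | 2 * (γ + x.1.im) * b ≤ (b - |x.1.re - a0|) ^ 2} :=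
    measurableSet_le (Continuous.measurable (by fun_prop)) (Continuous.measurable (by fun_prop))
  have h3 : MeasurableSet {x : ℂ × ℝ | |x.2 - x.1.re| ≤ (b - |x.1.re - a0|) / 2} :=
    measurableSet_le (Continuous.measurable (by fun_prop)) (Continuous.measurable (by fun_prop))
  exact h1.inter (h2.inter h3)

end Crest.Agent.N334.G
end
end

-- ▼ part N334/G/Cav

/-!
# Row 334, S0519 GAIN: cavity formulas
-/

set_option autoImplicit false

open MeasureTheory Finset Complex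
open scoped BigOperators ComplexConjugate

noncomputable section

namespace Crest.Agent.N334.G

theorem ArcAux.aff_sum {ι : Type} (s : Finset ι) {q : ι → ℝ → ℝ} {qb : ι → ℝ}
    (h : ∀ i ∈ s, IsAff (q i) (qb i)) : IsAff (fun t => ∑ i ∈ s, q i t) (∑ i ∈ s, qb i) := by
  classical
  induction s using Finset.induction_on with
  | empty => simpa using IsAff.const 0
  | insert i s hi ih =>
    simp only [sum_insert hi]
    exact (h i (mem_insert_self _ _)).add (ih fun j hj => h j (mem_insert_of_mem hj))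

namespace Cav
variable {P : Type} [Fintype P] [DecidableEq P] {y : P} (c : Cav y)

theorem xvec_y (γ : ℝ) : c.vec γ y = (Real.sqrt γ : ℂ) := if_pos rfl
theorem xvec_ne (γ : ℝ) {p : P} (hp : p ≠ y) : c.vec γ p = c.rho p := if_neg hp
theorem xnorm_vec_y {γ : ℝ} (hγ : 0 ≤ γ) : ‖c.vec γ y‖ ^ 2 = γ := by
  rw [xvec_y, Complex.norm_real, Real.norm_eq_abs, sq_abs, Real.sq_sqrt hγ]
theorem xnormSq_vec {γ : ℝ} (hγ : 0 ≤ γ) (p : P) :
    ‖c.vec γ p‖ ^ 2 = (if p = y then γ else 0) + ‖c.rho p‖ ^ 2 := by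
  split_ifs with h
  · rw [h, c.xnorm_vec_y hγ, c.rho_y]; simp
  · rw [c.xvec_ne γ h, zero_add]
omit [DecidableEq P] in
theorem xK0_y (p : P) : c.K0 y p = 0 := by rw [c.port0.symm, c.K0_y]
theorem xfix_vec (γ : ℝ) (p : P) :
    ∑ q, c.K0 p q * conj (c.vec γ q) = c.vec γ p - conj (c.vec γ p) := by
  have h : ∑ q, c.K0 p q * conj (c.vec γ q) = ∑ q, c.K0 p q * conj (c.rho q) :=
    sum_congr rfl fun q _ => by
      by_cases h : q = y
      · rw [h, c.K0_y, zero_mul, zero_mul]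
      · rw [c.xvec_ne γ h]
  rw [h, c.fix]
  by_cases h : p = y
  · rw [h, c.rho_y, xvec_y]; simp
  · rw [c.xvec_ne γ h]

theorem J_pos {γ : ℝ} (hγ : 0 ≤ γ) : 0 < c.J γ := add_pos_of_nonneg_of_pos hγ c.s_pos
theorem sum_vec {γ : ℝ} (hγ : 0 ≤ γ) : ∑ p, ‖c.vec γ p‖ ^ 2 = c.J γ := by
  simp only [c.xnormSq_vec hγ, sum_add_distrib, sum_ite_eq', mem_univ, if_true, J, c.im_s]
theorem port (a : ℝ) {γ : ℝ} (hγ : 0 ≤ γ) : IsPort (c.K a γ) := by
  refine ⟨fun p q => by unfold K; rw [c.port0.symm]; ring, fun p q => ?_⟩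
  have h1 := c.port0.unit p q
  have h2 := c.xfix_vec γ q
  have h3 := congrArg conj (c.xfix_vec γ p)
  simp only [map_sum, map_mul, map_sub, Complex.conj_conj] at h3
  have h4 : ∑ r, conj (c.vec γ r) * c.vec γ r = (c.J γ : ℂ) := by
    rw [← c.sum_vec hγ]; push_cast
    exact sum_congr rfl fun r _ => by rw [Complex.conj_mul']
  have h5 : c.z a γ - conj (c.z a γ) = 2 * I * c.J γ * (conj (c.z a γ) * c.z a γ) := by
    rw [Complex.sub_conj, Complex.conj_mul', z, im_zz, J]; push_cast; ring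
  have h6 : ∀ r, conj (c.K a γ r p) * c.K a γ r q = conj (c.K0 r p) * c.K0 r q +
      2 * I * c.z a γ * c.vec γ q * (conj (c.K0 p r) * c.vec γ r) -
      2 * I * conj (c.z a γ) * conj (c.vec γ p) * (c.K0 q r * conj (c.vec γ r)) -
      (2 * I) ^ 2 * conj (c.z a γ) * c.z a γ * conj (c.vec γ p) * c.vec γ q *
        (conj (c.vec γ r) * c.vec γ r) := fun r => by
    simp only [K, map_add, map_mul, Complex.conj_I, map_ofNat]
    rw [c.port0.symm p r, c.port0.symm q r]; ring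
  simp only [h6, sum_add_distrib, sum_sub_distrib, ← mul_sum]
  rw [h1, h2, h3, h4]
  simp only [K, map_add, map_mul, Complex.conj_I, map_ofNat]
  linear_combination 2 * I * conj (c.vec γ p) * c.vec γ q * h5
theorem measurable_K (γ : ℝ) : Measurable fun a => c.K a γ := by
  refine measurable_pi_lambda _ fun p => measurable_pi_lambda _ fun q => ?_
  exact measurable_const.add
    ((((measurable_zz c.s γ).const_mul _).mul_const _).mul_const _)
theorem cc_y (a γ : ℝ) (hγ : 0 ≤ γ) (p : P) :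
    cc (c.K a γ) y p = 4 * γ * ‖c.z a γ‖ ^ 2 * ‖c.vec γ p‖ ^ 2 := by
  unfold cc K
  rw [c.xK0_y, zero_add]
  simp only [norm_mul, mul_pow, c.xnorm_vec_y hγ, norm_I, Complex.norm_ofNat]
  ring
theorem dd_y (a γ : ℝ) (hγ : 0 ≤ γ) : dd (c.K a γ) y = 4 * γ * ‖c.z a γ‖ ^ 2 * c.J γ := by
  simp only [dd, c.cc_y a γ hγ, ← mul_sum, c.sum_vec hγ]
theorem nu_y (a γ : ℝ) (hγ : 0 ≤ γ) :
    nu (c.K a γ) y = 4 * γ * ‖c.z a γ‖ ^ 2 * (2 * c.J γ - γ) := by
  rw [nu, c.dd_y a γ hγ, c.cc_y a γ hγ, c.xnorm_vec_y hγ]; ring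
theorem Gam_y (a γ : ℝ) (hγ : 0 ≤ γ) {w : P → P → ℝ} (hw : w y y = 0) :
    Gam w (c.K a γ) y = 4 * γ * ‖c.z a γ‖ ^ 2 * c.V w := by
  simp only [Gam, V, c.cc_y a γ hγ, mul_sum]
  refine sum_congr rfl fun p _ => ?_
  by_cases h : p = y
  · rw [h, hw]; simp
  · rw [c.xvec_ne γ h]; ring
theorem Bq_eq {a0 b γ : ℝ} (hb : 0 < b) {w : P → P → ℝ} (hw : w y y = 0) :
    γ / b * Gam w (c.K a0 b) y = c.Bq a0 b γ w := by
  rw [c.Gam_y a0 b hb.le hw, Bq]; field_simp
/-- `d_p` is linear in `z` -/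
theorem dd_sub (a a' : ℝ) {γ γ' : ℝ} (hγ : 0 ≤ γ) (hγ' : 0 ≤ γ') {p : P} (hp : p ≠ y) :
    dd (c.K a' γ') p - dd (c.K a γ) p =
      (-4 * I * c.rho p ^ 2 * (c.z a' γ' - c.z a γ)).re := by
  rw [(c.port a hγ).dd_eq, (c.port a' hγ').dd_eq]
  have h : -4 * I * c.rho p ^ 2 * (c.z a' γ' - c.z a γ) =
      ((-2 : ℝ) : ℂ) * (c.K a' γ' p p - c.K a γ p p) := by
    simp only [K, c.xvec_ne _ hp]; push_cast; ring
  rw [h, Complex.re_ofReal_mul, Complex.sub_re]; ring
theorem K_arc {γ : ℝ} (hγ : 0 ≤ γ) (t : ℝ) (p q : P) :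
    c.K (c.s.re + c.J γ * t) γ p q =
      c.K0 p q + uu t * (2 * I * c.vec γ p * c.vec γ q / c.J γ) := by
  have h := zz_eq_uu (c.J_pos hγ) t
  have hJ : ((c.J γ : ℝ) : ℂ) ≠ 0 := by exact_mod_cast (c.J_pos hγ).ne'
  rw [← h]
  change c.K0 p q + 2 * I * c.z _ γ * _ * _ = c.K0 p q + (c.J γ : ℂ) * c.z (c.s.re + c.J γ * t) γ * _
  field_simp
/-- every weighted row sum is affine on the arc -/
theorem aff_Gam {γ : ℝ} (hγ : 0 ≤ γ) {w : P → P → ℝ} (hw : ∀ p q, 0 ≤ w p q) (p : P) :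
    ∃ qb, IsAff (fun t => Gam w (c.K (c.s.re + c.J γ * t) γ) p) qb ∧
      ‖c.vec γ p‖ ^ 2 * (∑ q, ‖c.vec γ q‖ ^ 2 * w p q) / c.J γ ^ 2 ≤ qb := by
  have h := ArcAux.aff_sum univ fun q _ =>
    (isAff_normSq (c.K0 p q) (2 * I * c.vec γ p * c.vec γ q / c.J γ)).smul (w p q)
  refine ⟨_, by simpa only [Gam, cc, c.K_arc hγ, mul_comm (w p _)] using h, ?_⟩
  rw [mul_sum, sum_div]
  refine sum_le_sum fun q _ => ?_
  have hJ := c.J_pos hγ
  have e : ‖2 * I * c.vec γ p * c.vec γ q / c.J γ‖ ^ 2 / 4 =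
      ‖c.vec γ p‖ ^ 2 * ‖c.vec γ q‖ ^ 2 / c.J γ ^ 2 := by
    simp only [norm_div, norm_mul, norm_I, Complex.norm_ofNat, Complex.norm_real,
      Real.norm_of_nonneg hJ.le]
    ring
  rw [e, add_mul]
  have := mul_nonneg
    (sq_nonneg ‖c.K0 p q + I / 2 * (2 * I * c.vec γ p * c.vec γ q / c.J γ)‖) (hw p q)
  refine le_trans (le_of_eq (by ring)) (le_add_of_nonneg_left this)
theorem aff_T {γ : ℝ} (hγ : 0 ≤ γ) (f : P → ℝ) (p q : P) : ∃ f0 f1 f2 : ℂ, ∀ t,
    Tm f (c.K (c.s.re + c.J γ * t) γ) p q = f0 + f1 * (uu t).re + f2 * (uu t).im := by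
  set W : P → P → ℂ := fun p q => 2 * I * c.vec γ p * c.vec γ q / c.J γ with hW
  refine ⟨Tm f c.K0 p q,
    ∑ r, (conj (Sm c.K0 r p) * f r * W r q + conj (W r p) * f r * Sm c.K0 r q),
    ∑ r, (I * (conj (Sm c.K0 r p) * f r * W r q) - I * (conj (W r p) * f r * Sm c.K0 r q) +
      conj (W r p) * f r * W r q), fun t => ?_⟩
  have hS : ∀ r q, Sm (c.K (c.s.re + c.J γ * t) γ) r q = Sm c.K0 r q + uu t * W r q :=
    fun r q => by rw [Sm, Sm, c.K_arc hγ, add_assoc]
  have h1 : conj (uu t) * uu t = (uu t).im := by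
    rw [Complex.conj_mul', (uu_normSq t).2.1, ← (uu_normSq t).1]; push_cast; rfl
  have h2 : uu t = (uu t).re + (uu t).im * I := (Complex.re_add_im _).symm
  have h3 : conj (uu t) = (uu t).re - (uu t).im * I := by
    apply Complex.ext <;> simp
  unfold Tm
  simp only [hS, sum_mul]
  rw [sub_add_eq_add_sub, sub_add_eq_add_sub, ← sum_add_distrib, ← sum_add_distrib]
  congr 1
  refine sum_congr rfl fun r _ => ?_
  rw [map_add, map_mul]
  linear_combination conj (W r p) * f r * W r q * h1 + conj (Sm c.K0 r p) * f r * W r q * h2 +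
    conj (W r p) * f r * Sm c.K0 r q * h3
/-- `d_p + β_p` is comparable to a cavity constant -/
theorem dd_cmp {γ : ℝ} (hγ : 0 ≤ γ) (a a' : ℝ) {p : P} (hp : p ≠ y) :
    dd (c.K a γ) p ≤ 2 * dd (c.K a' γ) p + 32 * (‖c.rho p‖ ^ 2 / c.J γ) := by
  have hJ := c.J_pos hγ
  have h1 := c.dd_sub a' a hγ hγ hp
  have h2 := Complex.re_le_norm (-4 * I * c.rho p ^ 2 * (c.z a γ - c.z a' γ))
  have h3 : ∀ x, ‖c.z x γ‖ ≤ 1 / c.J γ := fun x => by
    rw [le_div_iff₀' hJ]; exact norm_zz_le hJ x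
  have h4 := (norm_sub_le (c.z a γ) (c.z a' γ)).trans (add_le_add (h3 a) (h3 a'))
  simp only [norm_mul, norm_neg, norm_I, Complex.norm_ofNat, norm_pow] at h2
  have h5 := mul_le_mul_of_nonneg_left h4 (show 0 ≤ 4 * 1 * ‖c.rho p‖ ^ 2 by positivity)
  have h6 := dd_nonneg (c.K a' γ) p
  have h7 : 0 ≤ ‖c.rho p‖ ^ 2 / c.J γ := by positivity
  have e : 4 * 1 * ‖c.rho p‖ ^ 2 * (1 / c.J γ + 1 / c.J γ) = 8 * (‖c.rho p‖ ^ 2 / c.J γ) := by ring
  linarith
end Cav

namespace CavAux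
variable {X : Type} [Fintype X] [DecidableEq X]

theorem green {M : Matrix X X ℂ} {Γ : X → ℝ} (hs : ∀ x y, M x y = M y x)
    (hI : ∀ x y, M x y - conj (M x y) = if x = y then -(2 * I * Γ x) else 0) (u v : X → ℂ) :
    2 * I * ∑ x, (Γ x : ℂ) * (conj (u x) * v x) =
      ∑ x, conj (∑ y, M x y * u y) * v x - ∑ x, conj (u x) * ∑ y, M x y * v y := by
  simp only [map_sum, map_mul, sum_mul, mul_sum]
  rw [sum_comm, ← sum_sub_distrib]
  refine sum_congr rfl fun x _ => ?_
  rw [← sum_sub_distrib]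
  have h : ∀ y, conj (M y x) * conj (u x) * v y - conj (u x) * (M x y * v y) =
      if x = y then 2 * I * (Γ x * (conj (u x) * v x)) else 0 := fun y => by
    have := hI x y
    rw [hs y x]
    split_ifs at this ⊢ with h
    · subst h; linear_combination -(conj (u x) * v x) * this
    · linear_combination -(conj (u x) * v y) * this
  simp only [h, sum_ite_eq, mem_univ, if_true]

omit [DecidableEq X] in
theorem eq_zero {Γ : X → ℝ} (hΓ : ∀ x, 0 < Γ x) {v : X → ℂ}
    (h : 2 * I * ∑ x, (Γ x : ℂ) * (conj (v x) * v x) = 0) : v = 0 := by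
  have h1 : ((∑ x, Γ x * ‖v x‖ ^ 2 : ℝ) : ℂ) = 0 := by
    simp only [Complex.conj_mul'] at h
    push_cast
    simpa using h
  rw [Complex.ofReal_eq_zero, sum_eq_zero_iff_of_nonneg
    fun x _ => mul_nonneg (hΓ x).le (sq_nonneg _)] at h1
  funext x
  simpa [(hΓ x).ne'] using h1 x (mem_univ x)

theorem mul_inv {M : Matrix X X ℂ} {Γ : X → ℝ} (hs : ∀ x y, M x y = M y x)
    (hI : ∀ x y, M x y - conj (M x y) = if x = y then -(2 * I * Γ x) else 0)
    (hΓ : ∀ x, 0 < Γ x) : M * M⁻¹ = 1 := by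
  refine Matrix.mul_nonsing_inv _ (isUnit_iff_ne_zero.2 fun h => ?_)
  obtain ⟨v, hv, h0⟩ := Matrix.exists_mulVec_eq_zero_iff.2 h
  have h1 : ∀ x, ∑ y, M x y * v y = 0 := fun x => congrFun h0 x
  exact hv (eq_zero hΓ (by rw [green hs hI]; simp [h1]))

theorem inv_symm {M : Matrix X X ℂ} (hs : ∀ x y, M x y = M y x) (x y : X) :
    M⁻¹ x y = M⁻¹ y x := by
  have h : M.transpose = M := by ext x y; exact hs y x
  have := congrFun (congrFun (Matrix.transpose_nonsing_inv M) y) x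
  rwa [h] at this

theorem ward {M G : Matrix X X ℂ} {Γ : X → ℝ} (hs : ∀ x y, M x y = M y x)
    (hI : ∀ x y, M x y - conj (M x y) = if x = y then -(2 * I * Γ x) else 0)
    (hG : M * G = 1) (hG' : ∀ x y, G x y = G y x) (u v : X) :
    2 * I * ∑ x, (Γ x : ℂ) * (conj (G x u) * G x v) = G u v - conj (G u v) := by
  have h : ∀ x v, ∑ y, M x y * G y v = if x = v then 1 else 0 := fun x v => by
    rw [← Matrix.mul_apply, hG, Matrix.one_apply]
  rw [green hs hI (fun x => G x u) (fun x => G x v), hG' u v]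
  simp [h, hG' u v]

section alg
variable {G : Matrix X X ℂ} {Γ : X → ℝ} {y : X} {k : ℂ}

omit [DecidableEq X] in
theorem ward0 (hG : ∀ x y, G x y = G y x)
    (W : ∀ u v, 2 * I * ∑ x, (Γ x : ℂ) * (conj (G x u) * G x v) = G u v - conj (G u v))
    (hk : k * G y y = 1) (u v : X) :
    2 * I * ∑ x, (Γ x : ℂ) * (conj (G x u - G x y * G u y * k) * (G x v - G x y * G v y * k)) =
      (G u v - G u y * G v y * k) - conj (G u v - G u y * G v y * k) := by
  have hk' := congrArg conj hk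
  have e : ∑ x, (Γ x : ℂ) * (conj (G x u - G x y * G u y * k) * (G x v - G x y * G v y * k)) =
      ∑ x, (Γ x : ℂ) * (conj (G x u) * G x v) -
      G v y * k * ∑ x, (Γ x : ℂ) * (conj (G x u) * G x y) -
      conj (G u y) * conj k * ∑ x, (Γ x : ℂ) * (conj (G x y) * G x v) +
      conj (G u y) * conj k * (G v y * k) * ∑ x, (Γ x : ℂ) * (conj (G x y) * G x y) := by
    simp only [mul_sum, ← sum_sub_distrib, ← sum_add_distrib, map_sub, map_mul]
    exact sum_congr rfl fun x _ => by ring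
  have h3 := W y v
  rw [hG y v] at h3
  rw [e]
  simp only [map_sub, map_mul, map_one] at hk' ⊢
  linear_combination W u v - G v y * k * W u y - conj (G u y) * conj k * h3 +
    conj (G u y) * conj k * (G v y * k) * W y y + conj (G u y) * G v y * conj k * hk -
    conj (G u y) * G v y * k * hk'

omit [DecidableEq X] in
theorem ward1 (hG : ∀ x y, G x y = G y x)
    (W : ∀ u v, 2 * I * ∑ x, (Γ x : ℂ) * (conj (G x u) * G x v) = G u v - conj (G u v))
    (hk : k * G y y = 1) (u : X) :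
    2 * I * ∑ x, (Γ x : ℂ) * ((G u x - G u y * G x y * k) * conj (G x y * k)) =
      G u y * k - conj (G u y * k) := by
  have hk' := congrArg conj hk
  have e : ∑ x, (Γ x : ℂ) * ((G u x - G u y * G x y * k) * conj (G x y * k)) =
      conj k * ∑ x, (Γ x : ℂ) * (conj (G x y) * G x u) -
      conj k * (G u y * k) * ∑ x, (Γ x : ℂ) * (conj (G x y) * G x y) := by
    simp only [mul_sum, ← sum_sub_distrib, map_mul]
    exact sum_congr rfl fun x _ => by rw [hG u x]; ring
  have h3 := W y u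
  rw [hG y u] at h3
  rw [e]
  simp only [map_mul, map_one] at hk' ⊢
  linear_combination conj k * h3 - conj k * (G u y * k) * W y y - G u y * conj k * hk +
    G u y * k * hk'

omit [DecidableEq X] in
theorem ward2
    (W : ∀ u v, 2 * I * ∑ x, (Γ x : ℂ) * (conj (G x u) * G x v) = G u v - conj (G u v))
    (hk : k * G y y = 1) : (-k).im = ∑ x, Γ x * ‖G x y * k‖ ^ 2 := by
  have hk' := congrArg conj hk
  have e : ((∑ x, Γ x * ‖G x y * k‖ ^ 2 : ℝ) : ℂ) =
      conj k * k * ∑ x, (Γ x : ℂ) * (conj (G x y) * G x y) := by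
    push_cast
    simp only [mul_sum, ← Complex.conj_mul', map_mul]
    exact sum_congr rfl fun x _ => by ring
  have h := Complex.sub_conj (-k)
  simp only [map_mul, map_one, map_neg] at hk' h
  push_cast at h
  have h2 : (2 * I : ℂ) ≠ 0 := by simp
  rw [← Complex.ofReal_inj, e]
  apply mul_left_cancel₀ h2
  linear_combination -h - conj k * k * W y y - conj k * hk + k * hk'

theorem inv_upd {M M' : Matrix X X ℂ} {τ z : ℂ} (hMG : M * G = 1) (hG : ∀ x y, G x y = G y x)
    (hk : k * G y y = 1) (hz : z * (τ + k) = 1)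
    (hM : ∀ u x, M' u x = M u x + if x = y then (if u = y then τ else 0) else 0) (u v : X) :
    M'⁻¹ u v = (G u v - G u y * G v y * k) + z * (G u y * k) * (G v y * k) := by
  have h : ∀ x v, ∑ y, M x y * G y v = if x = v then 1 else 0 := fun x v => by
    rw [← Matrix.mul_apply, hMG, Matrix.one_apply]
  have key : M' * Matrix.of (fun u v => (G u v - G u y * G v y * k) +
      z * (G u y * k) * (G v y * k)) = 1 := by
    ext u v
    have e : ∀ x, M' u x * ((G x v - G x y * G v y * k) + z * (G x y * k) * (G v y * k)) =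
        M u x * G x v + (z * k - 1) * (G v y * k) * (M u x * G x y) +
        if x = y then (if u = y then τ else 0) * (z * (G v y * k)) else 0 := fun x => by
      rw [hM]
      by_cases hx : x = y
      · subst hx
        simp only [if_true]
        rw [hG x v]
        linear_combination (if u = x then τ else 0) * G v x * (z * k - 1) * hk
      · simp only [hx, if_false]; ring
    simp only [Matrix.mul_apply, Matrix.of_apply, e, sum_add_distrib, ← mul_sum, h,
      sum_ite_eq', mem_univ, if_true, Matrix.one_apply]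
    split_ifs
    · linear_combination G v y * k * hz
    · ring
    · linear_combination G v y * k * hz
    · ring
  rw [Matrix.inv_eq_right_inv key, Matrix.of_apply]

end alg
end CavAux

/-- existence of the cavity in the model -/
theorem exists_cav (L : Lat) (E : ℝ) {η : ℝ} (hη : 0 < η) {γ : L.X → ℝ} (hγ : ∀ x, 0 ≤ γ x)
    (a : L.X → ℝ) (y : L.X) : ∃ c : Cav ((y, true) : L.P),
      (∀ t g, 0 ≤ g → L.Km E η (Function.update γ y g) (Function.update a y t) = c.K t g) ∧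
      (∀ t g, 0 ≤ g → L.sE E η (Function.update γ y g) (Function.update a y t) y = c.s) ∧
      η ≤ c.s.im ∧ ‖c.rho (y, false)‖ ^ 2 = η := by
  set γ1 := Function.update γ y 0 with hγ1
  set a1 := Function.update a y 0 with ha1
  set M : Matrix L.X L.X ℂ := L.A.map Complex.ofReal + Matrix.diagonal (L.wv E η γ1 a1) with hM
  have hγ1' : ∀ x, 0 ≤ γ1 x := fun x => by
    rw [hγ1, Function.update_apply]; split_ifs
    exacts [le_rfl, hγ x]
  have hΓ : ∀ x, 0 < η + γ1 x := fun x => add_pos_of_pos_of_nonneg hη (hγ1' x)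
  have hMe : ∀ (w : L.X → ℂ) u x, (L.A.map Complex.ofReal + Matrix.diagonal w) u x =
      L.A u x + if u = x then w u else 0 := fun w u x => by
    rw [Matrix.add_apply, Matrix.map_apply, Matrix.diagonal_apply]
  have hs : ∀ u x, M u x = M x u := fun u x => by
    rw [hM, hMe, hMe, L.A_symm u x]
    by_cases h : u = x
    · rw [h]
    · rw [if_neg h, if_neg (Ne.symm h)]
  have hI : ∀ u x, M u x - conj (M u x) =
      if u = x then -(2 * I * ((fun x => η + γ1 x) u : ℝ)) else 0 := fun u x => by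
    rw [hM, hMe]
    split_ifs
    · simp only [Lat.wv, map_add, map_sub, map_mul, Complex.conj_ofReal, Complex.conj_I]
      push_cast; ring
    · simp
  have hMG := CavAux.mul_inv hs hI hΓ
  have hG := CavAux.inv_symm hs
  have W := CavAux.ward hs hI hMG hG
  set G := M⁻¹ with hGd
  have hg : G y y ≠ 0 := fun h => by
    have h0 : (fun x => G x y) = 0 := CavAux.eq_zero hΓ (by rw [W y y, h]; simp)
    have h1 := congrFun (congrFun hMG y) y
    simp [Matrix.mul_apply, congrFun h0] at h1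
  set k := (G y y)⁻¹ with hkd
  have hk : k * G y y = 1 := inv_mul_cancel₀ hg
  have hk1 : G y y * k = 1 := by rw [mul_comm, hk]
  have hstr : ∀ p, 0 ≤ L.str η γ1 p := fun p => by
    unfold Lat.str; split_ifs
    exacts [hγ1' _, hη.le]
  set σ : L.P → ℂ := fun p => (Real.sqrt (L.str η γ1 p) : ℂ) with hσ
  have hσc : ∀ p, conj (σ p) = σ p := fun p => Complex.conj_ofReal _
  have hσ2 : ∀ p, σ p * σ p = L.str η γ1 p := fun p => by
    rw [hσ]; dsimp only; rw [← Complex.ofReal_mul, Real.mul_self_sqrt (hstr p)]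
  have hσy : σ (y, true) = 0 := by simp [hσ, Lat.str, hγ1]
  have hsum : ∀ F : L.X → ℂ, ∑ r : L.P, (L.str η γ1 r : ℂ) * F r.1 =
      ∑ x, ((η + γ1 x : ℝ) : ℂ) * F x := fun F => by
    rw [Fintype.sum_prod_type]
    refine sum_congr rfl fun x _ => ?_
    simp [Lat.str]; ring
  have hn : ∀ p, ‖σ p‖ ^ 2 = L.str η γ1 p := fun p => by
    rw [hσ]; dsimp only
    rw [Complex.norm_real, Real.norm_eq_abs, sq_abs, Real.sq_sqrt (hstr p)]
  have him := CavAux.ward2 W hk
  have hη' : η ≤ (-k).im := by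
    rw [him]
    refine le_trans ?_ (single_le_sum (f := fun x => (η + γ1 x) * ‖G x y * k‖ ^ 2)
      (fun x _ => mul_nonneg (hΓ x).le (sq_nonneg _)) (mem_univ y))
    simp [hk1, hγ1' y]
  have hz : ∀ t g : ℝ, 0 ≤ g → zz (-k) t g * (((t : ℂ) - I * g) + k) = 1 := fun t g hg => by
    have := Law.w_ne (s := -k) (γ := g) (by linarith) t
    rw [sub_neg_eq_add] at this
    rw [zz, sub_neg_eq_add, one_div, inv_mul_cancel₀ this]
  have hGr : ∀ t g : ℝ, 0 ≤ g → ∀ u v,
      L.Gr (L.wv E η (Function.update γ y g) (Function.update a y t)) u v =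
        (G u v - G u y * G v y * k) + zz (-k) t g * (G u y * k) * (G v y * k) := by
    intro t g hg u v
    refine CavAux.inv_upd hMG hG hk (hz t g hg) (fun u x => ?_) u v
    rw [hM, hMe, hMe]
    by_cases h1 : u = x
    · subst h1
      by_cases h2 : u = y
      · subst h2; simp [Lat.wv, hγ1, ha1]; ring
      · simp [Lat.wv, hγ1, ha1, h2]
    · by_cases h2 : x = y
      · subst h2; simp [h1]
      · simp [h1, h2]
  refine ⟨⟨fun p q => 2 * I * σ p * σ q * (G p.1 q.1 - G p.1 y * G q.1 y * k),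
    fun p => σ p * (G p.1 y * k), -k, ⟨fun p q => by rw [hG p.1 q.1]; ring, fun p q => ?_⟩,
    fun p => by rw [hσy]; ring, by rw [hσy]; ring, ?_, by linarith, fun p => ?_⟩,
    fun t g hg => ?_, fun t g hg => ?_, hη', ?_⟩
  · have h0 := CavAux.ward0 hG W hk p.1 q.1
    rw [← hsum fun x => conj (G x p.1 - G x y * G p.1 y * k) * (G x q.1 - G x y * G q.1 y * k)]
      at h0
    have e : ∀ r : L.P, conj (2 * I * σ r * σ p * (G r.1 p.1 - G r.1 y * G p.1 y * k)) *
        (2 * I * σ r * σ q * (G r.1 q.1 - G r.1 y * G q.1 y * k)) =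
        -((2 * I) ^ 2 * σ p * σ q) * ((L.str η γ1 r : ℂ) *
          (conj (G r.1 p.1 - G r.1 y * G p.1 y * k) * (G r.1 q.1 - G r.1 y * G q.1 y * k))) :=
      fun r => by
        rw [← hσ2]
        simp only [map_mul, hσc, Complex.conj_I, map_ofNat]; ring
    simp only [e, ← mul_sum]
    simp only [map_mul _ (2 * I * σ p * σ q), map_mul _ (2 * I * σ p), map_mul _ (2 * I),
      map_mul _ 2 I, hσc, Complex.conj_I, map_ofNat]
    linear_combination -(2 * I * σ p * σ q) * h0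
  · rw [him, Fintype.sum_prod_type]
    refine sum_congr rfl fun x _ => ?_
    simp only [norm_mul (σ _), mul_pow, hn, Fintype.sum_bool, Lat.str]
    simp; ring
  · have h0 := CavAux.ward1 hG W hk p.1
    rw [← hsum fun x => (G p.1 x - G p.1 y * G x y * k) * conj (G x y * k)] at h0
    have e : ∀ q : L.P, 2 * I * σ p * σ q * (G p.1 q.1 - G p.1 y * G q.1 y * k) *
        conj (σ q * (G q.1 y * k)) = 2 * I * σ p * ((L.str η γ1 q : ℂ) *
          ((G p.1 q.1 - G p.1 y * G q.1 y * k) * conj (G q.1 y * k))) := fun q => by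
      rw [← hσ2, map_mul _ (σ q), hσc]; ring
    simp only [e, ← mul_sum]
    rw [map_mul _ (σ p), hσc]
    linear_combination σ p * h0
  · funext p q
    have hτ : ∀ p : L.P, p ≠ (y, true) →
        (Real.sqrt (L.str η (Function.update γ y g) p) : ℂ) = σ p := by
      rintro ⟨x, b⟩ h
      cases b
      · simp [hσ, Lat.str]
      · have : x ≠ y := fun h' => h (by rw [h'])
        simp [hσ, Lat.str, hγ1, this]
    have hτy : (Real.sqrt (L.str η (Function.update γ y g) (y, true)) : ℂ) = Real.sqrt g := by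
      simp [Lat.str]
    simp only [Lat.Km, Cav.K, Cav.z, Cav.vec, hGr t g hg]
    by_cases hp : p = (y, true) <;> by_cases hq : q = (y, true)
    · subst hp hq
      simp only [if_true, hτy, hσy, hk1]
      linear_combination -(2 * I * (Real.sqrt g : ℂ) ^ 2 * G y y) * hk
    · subst hp
      simp only [if_true, hq, if_false, hτy, hτ q hq, hσy, hk1, hG y q.1]
      linear_combination -(2 * I * (Real.sqrt g : ℂ) * σ q * G q.1 y) * hk
    · subst hq
      simp only [if_true, hp, if_false, hτy, hτ p hp, hσy, hk1]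
      linear_combination -(2 * I * (Real.sqrt g : ℂ) * σ p * G p.1 y) * hk
    · simp only [hp, hq, if_false, hτ p hp, hτ q hq]
      ring
  · have h1 := hz t g hg
    have h2 : L.Gr (L.wv E η (Function.update γ y g) (Function.update a y t)) y y =
        zz (-k) t g := by
      rw [hGr t g hg, hk1]; linear_combination -G y y * hk
    simp only [Lat.sE, h2, Function.update_self]
    rw [one_div, ← eq_inv_of_mul_eq_one_right h1]; ring
  · simp only [norm_mul (σ _), mul_pow, hn, hk1, Lat.str]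
    simp

end Crest.Agent.N334.G
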